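import Vale.Agent.P253W.X.Defs
import Vale.Agent.P272.K.Inv.Wirt

/-!
# P253W, block X: algebra and calculus of matrix valued functions (helper16)
-/

open scoped ContDiff Topology ComplexConjugate ComplexOrder Matrix
open Set Filter Vale.Agent.P253Z
open Vale.Agent.P272.K (Cm dz dzb)
open Vale.Agent.P272.K.C2 (DM DMb RM)

noncomputable section

namespace Vale.Agent.P253W.X

variable {n : ℕ}

/-! ### sesquilinear forms -/

section alg

variable (A B S : Mx n) (a b c : Cm n) (t : ℂ)

theorem qf_eq : qf A a = (hf A a a).re := rfl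

theorem hf_sum : hf A a b = ∑ i, ∑ j, a i * A i j * conj (b j) := by
  simp only [hf, dotProduct, Matrix.mulVec, Finset.mul_sum, Pi.star_apply, Complex.star_def,
    mul_assoc]

theorem hf_add_left : hf A (a + b) c = hf A a c + hf A b c := by simp [hf, add_dotProduct]

theorem hf_add_right : hf A a (b + c) = hf A a b + hf A a c := by
  simp [hf, Matrix.mulVec_add, dotProduct_add]

theorem hf_neg_left : hf A (-a) b = -hf A a b := by simp [hf]

theorem hf_neg_right : hf A a (-b) = -hf A a b := by simp [hf, Matrix.mulVec_neg]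

theorem hf_sub_left : hf A (a - b) c = hf A a c - hf A b c := by simp [hf, sub_dotProduct]

theorem hf_sub_right : hf A a (b - c) = hf A a b - hf A a c := by
  simp [hf, Matrix.mulVec_sub, dotProduct_sub]

theorem hf_smul_left : hf A (t • a) b = t * hf A a b := by simp [hf]

theorem hf_smul_right : hf A a (t • b) = conj t * hf A a b := by
  simp [hf, Matrix.mulVec_smul]

theorem hf_rsmul_left (r : ℝ) : hf A (r • a) b = r * hf A a b := by
  rw [← hf_smul_left]; rfl

theorem hf_rsmul_right (r : ℝ) : hf A a (r • b) = r * hf A a b := by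
  rw [← Complex.conj_ofReal, ← hf_smul_right]; rfl

theorem hf_zero_left : hf A 0 b = 0 := by simp [hf]

theorem hf_zero_right : hf A a 0 = 0 := by simp [hf]

theorem hf_madd : hf (A + B) a b = hf A a b + hf B a b := by
  simp [hf, Matrix.add_mulVec, dotProduct_add]

theorem hf_msub : hf (A - B) a b = hf A a b - hf B a b := by
  simp [hf, Matrix.sub_mulVec, dotProduct_sub]

theorem hf_mneg : hf (-A) a b = -hf A a b := by simp [hf, Matrix.neg_mulVec]

theorem hf_msmul : hf (t • A) a b = t * hf A a b := by simp [hf, Matrix.smul_mulVec]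

theorem hf_mzero : hf (0 : Mx n) a b = 0 := by simp [hf]

theorem hf_one : hf (1 : Mx n) a b = a ⬝ᵥ star b := by simp [hf]

theorem hf_conj : conj (hf A a b) = hf Aᴴ b a := by
  simp only [hf_sum, map_sum, map_mul, Complex.conj_conj, Matrix.conjTranspose_apply,
    Complex.star_def]
  rw [Finset.sum_comm]
  exact Finset.sum_congr rfl fun i _ => Finset.sum_congr rfl fun j _ => by ring

theorem hf_mul_left : hf (S * A) a b = hf A (a ᵥ* S) b := by
  simp only [hf, ← Matrix.mulVec_mulVec, Matrix.dotProduct_mulVec]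

theorem hf_mul_right : hf (A * Sᴴ) a b = hf A a (b ᵥ* S) := by
  simp only [hf, ← Matrix.mulVec_mulVec, Matrix.star_vecMul]

theorem hf_pull : hf (S * A * Sᴴ) a b = hf A (a ᵥ* S) (b ᵥ* S) := by
  rw [hf_mul_right, hf_mul_left]

theorem qf_pull : qf (S * A * Sᴴ) a = qf A (a ᵥ* S) := by rw [qf_eq, hf_pull, qf_eq]

theorem hf_single (i j : Fin n) : hf A (Pi.single i 1) (Pi.single j 1) = A i j := by
  simp [hf]

theorem hf_ext {A B : Mx n} (h : ∀ a b, hf A a b = hf B a b) : A = B := by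
  ext i j; rw [← hf_single A, ← hf_single B, h]

theorem pb_eq : pb S A = Sᵀ * A * Sᵀᴴ := rfl

theorem qf_pb : qf (pb S A) a = qf A (S *ᵥ a) := by
  rw [pb_eq, qf_pull, Matrix.vecMul_transpose]

theorem qf_smul : qf A (t • a) = ‖t‖ ^ 2 * qf A a := by
  rw [qf_eq, hf_smul_left, hf_smul_right, ← mul_assoc, Complex.mul_conj, Complex.normSq_eq_norm_sq,
    Complex.re_ofReal_mul, qf_eq]

theorem qf_rsmul (r : ℝ) : qf A (r • a) = r ^ 2 * qf A a := by
  have := qf_smul A a r
  rwa [Complex.norm_real, Real.norm_eq_abs, sq_abs] at this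

theorem qf_neg : qf A (-a) = qf A a := by rw [qf_eq, hf_neg_left, hf_neg_right, neg_neg, qf_eq]

theorem qf_zero : qf A 0 = 0 := by rw [qf_eq, hf_zero_left, Complex.zero_re]

theorem qf_madd : qf (A + B) a = qf A a + qf B a := by
  rw [qf_eq, hf_madd, Complex.add_re, qf_eq, qf_eq]

theorem qf_msmul (r : ℝ) : qf ((r : ℂ) • A) a = r * qf A a := by
  rw [qf_eq, hf_msmul, Complex.re_ofReal_mul, qf_eq]

theorem qf_one : qf (1 : Mx n) a = en a := by
  simp only [qf_eq, hf_one, en, dotProduct, Pi.star_apply, Complex.star_def, Complex.mul_conj,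
    Complex.re_sum, Complex.ofReal_re, Complex.normSq_eq_norm_sq]

theorem en_nonneg : 0 ≤ en a := Finset.sum_nonneg fun _ _ => sq_nonneg _

theorem sq_le_en : ‖a‖ ^ 2 ≤ en a := by
  have h : ‖a‖ ≤ √(en a) := (pi_norm_le_iff_of_nonneg (Real.sqrt_nonneg _)).2 fun i =>
    Real.le_sqrt_of_sq_le (Finset.single_le_sum (f := fun i => ‖a i‖ ^ 2)
      (fun _ _ => sq_nonneg _) (Finset.mem_univ i))
  calc ‖a‖ ^ 2 ≤ √(en a) ^ 2 := by gcongr
    _ = en a := Real.sq_sqrt (en_nonneg a)

theorem en_le : en a ≤ n * ‖a‖ ^ 2 := by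
  calc en a ≤ ∑ _i : Fin n, ‖a‖ ^ 2 :=
        Finset.sum_le_sum fun i _ => by gcongr; exact norm_le_pi_norm a i
    _ = n * ‖a‖ ^ 2 := by simp

variable {A B S}

theorem hf_herm (h : A.IsHermitian) : conj (hf A a b) = hf A b a := by rw [hf_conj, h.eq]

theorem hf_self (h : A.IsHermitian) : hf A a a = qf A a :=
  (Complex.conj_eq_iff_re.1 (hf_herm a a h)).symm

theorem hf_re_symm (h : A.IsHermitian) : (hf A a b).re = (hf A b a).re := by
  rw [← hf_herm a b h, Complex.conj_re]

theorem qf_add (h : A.IsHermitian) : qf A (a + b) = qf A a + 2 * (hf A a b).re + qf A b := by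
  rw [qf_eq, hf_add_left, hf_add_right, hf_add_right, Complex.add_re, Complex.add_re,
    Complex.add_re, hf_re_symm b a h, qf_eq, qf_eq]
  ring

theorem qf_sub (h : A.IsHermitian) : qf A (a - b) = qf A a - 2 * (hf A a b).re + qf A b := by
  rw [sub_eq_add_neg, qf_add _ _ h, hf_neg_right, qf_neg, Complex.neg_re]
  ring

theorem qf_nonneg (h : A.PosSemidef) : 0 ≤ qf A a := by
  have := h.dotProduct_mulVec_nonneg (star a)
  rw [star_star] at this
  exact (Complex.le_def.1 this).1

theorem qf_pos (h : A.PosDef) (ha : a ≠ 0) : 0 < qf A a := by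
  have := h.dotProduct_mulVec_pos (x := star a) (star_ne_zero.2 ha)
  rw [star_star] at this
  exact (Complex.lt_def.1 this).1

theorem posSemidef_of (h : A.IsHermitian) (h0 : ∀ a, 0 ≤ qf A a) : A.PosSemidef := by
  refine Matrix.PosSemidef.of_dotProduct_mulVec_nonneg h fun x => ?_
  have h1 := hf_self (star x) h
  rw [hf, star_star] at h1
  rw [h1]
  exact_mod_cast h0 _

theorem posDef_of (h : A.IsHermitian) (h0 : ∀ a, a ≠ 0 → 0 < qf A a) : A.PosDef := by
  refine Matrix.PosDef.of_dotProduct_mulVec_pos h fun x hx => ?_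
  have h1 := hf_self (star x) h
  rw [hf, star_star] at h1
  rw [h1]
  exact_mod_cast h0 _ (star_ne_zero.2 hx)

theorem vecMul_inv (h : S.det ≠ 0) : a ᵥ* S ᵥ* S⁻¹ = a := by
  rw [Matrix.vecMul_vecMul, Matrix.mul_nonsing_inv _ h.isUnit, Matrix.vecMul_one]

theorem inv_vecMul (h : S.det ≠ 0) : a ᵥ* S⁻¹ ᵥ* S = a := by
  rw [Matrix.vecMul_vecMul, Matrix.nonsing_inv_mul _ h.isUnit, Matrix.vecMul_one]

theorem posDef_pull (h : A.PosDef) (hS : S.det ≠ 0) : (S * A * Sᴴ).PosDef := by
  refine posDef_of (Matrix.isHermitian_mul_mul_conjTranspose S h.isHermitian) fun a ha => ?_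
  rw [qf_pull]
  refine qf_pos _ h fun h0 => ha ?_
  rw [← vecMul_inv a hS, h0, Matrix.zero_vecMul]

theorem nr_nonneg (A : Mx n) : 0 ≤ nr A a := Real.sqrt_nonneg _

theorem nr_sq (h : A.PosSemidef) : nr A a ^ 2 = qf A a := Real.sq_sqrt (qf_nonneg a h)

theorem nr_smul (A : Mx n) : nr A (t • a) = ‖t‖ * nr A a := by
  rw [nr, qf_smul, Real.sqrt_mul (sq_nonneg _), Real.sqrt_sq (norm_nonneg _), nr]

theorem nr_rsmul (A : Mx n) (r : ℝ) : nr A (r • a) = |r| * nr A a := by
  rw [nr, qf_rsmul, Real.sqrt_mul (sq_nonneg _), Real.sqrt_sq_eq_abs, nr]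

theorem nr_neg (A : Mx n) : nr A (-a) = nr A a := by rw [nr, qf_neg, nr]

theorem nr_zero (A : Mx n) : nr A 0 = 0 := by rw [nr, qf_zero, Real.sqrt_zero]

theorem re_le (h : A.PosSemidef) : (hf A a b).re ≤ nr A a * nr A b := by
  have h1 : discrim (qf A a) (2 * (hf A a b).re) (qf A b) ≤ 0 := discrim_le_zero fun r => by
    have := qf_nonneg (r • a + b) h
    rw [qf_add _ _ h.isHermitian, qf_rsmul, hf_rsmul_left, Complex.re_ofReal_mul] at this
    nlinarith
  rw [nr, nr, ← Real.sqrt_mul (qf_nonneg a h)]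
  refine Real.le_sqrt_of_sq_le ?_
  rw [discrim] at h1
  nlinarith

/-- the inequality of Cauchy and Schwarz -/
theorem cs (h : A.PosSemidef) : ‖hf A a b‖ ≤ nr A a * nr A b := by
  obtain ⟨u, hu, h1⟩ := Complex.exists_norm_eq_mul_self (hf A a b)
  have h2 := re_le (u • a) b h
  rwa [hf_smul_left, ← h1, Complex.ofReal_re, nr_smul, hu, one_mul] at h2

theorem nr_add_le (h : A.PosSemidef) : nr A (a + b) ≤ nr A a + nr A b := by
  refine Real.sqrt_le_iff.2 ⟨add_nonneg (nr_nonneg _ _) (nr_nonneg _ _), ?_⟩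
  rw [qf_add _ _ h.isHermitian, ← nr_sq a h, ← nr_sq b h]
  nlinarith [re_le a b h]

theorem nr_sub_le (h : A.PosSemidef) : nr A (a - b) ≤ nr A a + nr A b := by
  rw [sub_eq_add_neg, ← nr_neg b]; exact nr_add_le _ _ h

/-- duality -/
theorem nr_le_of (h : A.PosSemidef) {C : ℝ} (hC : 0 ≤ C)
    (h1 : (hf A a a).re ≤ C * nr A a) : nr A a ≤ C := by
  rw [← qf_eq, ← nr_sq a h] at h1
  by_contra h2
  nlinarith [not_le.1 h2]

end alg

/-! ### smooth matrix valued functions -/

section calculus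

variable {E : Type} [NormedAddCommGroup E] [NormedSpace ℝ E]
  {E' : Type} [NormedAddCommGroup E'] [NormedSpace ℝ E']

/-- differentiable matrix valued functions -/
def MD (f : E → Mx n) (q : E) : Prop := ∀ i j, DifferentiableAt ℝ (fun p => f p i j) q

variable {f g : E → Mx n} {q : E} {a b : E → Cm n}

theorem MS.md (h : MS f q) : MD f q := fun i j => (h i j).differentiableAt (by simp)

theorem MS.const (A : Mx n) (q : E) : MS (fun _ => A) q := fun _ _ => contDiffAt_const

theorem MS.add (hf : MS f q) (hg : MS g q) : MS (fun p => f p + g p) q :=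
  fun i j => (hf i j).add (hg i j)

theorem MS.sub (hf : MS f q) (hg : MS g q) : MS (fun p => f p - g p) q :=
  fun i j => (hf i j).sub (hg i j)

theorem MS.neg (hf : MS f q) : MS (fun p => -f p) q := fun i j => (hf i j).neg

theorem MS.mul (hf : MS f q) (hg : MS g q) : MS (fun p => f p * g p) q := fun i j => by
  simp only [Matrix.mul_apply]
  exact ContDiffAt.sum fun k _ => (hf i k).mul (hg k j)

theorem MS.smul {c : E → ℂ} (hc : ContDiffAt ℝ ∞ c q) (hf : MS f q) :
    MS (fun p => c p • f p) q := fun i j => hc.mul (hf i j)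

theorem MS.sum {ι : Type} (s : Finset ι) {F : ι → E → Mx n} (h : ∀ k ∈ s, MS (F k) q) :
    MS (fun p => ∑ k ∈ s, F k p) q := fun i j => by
  simp only [Matrix.sum_apply]
  exact ContDiffAt.sum fun k hk => h k hk i j

theorem MS.transpose (hf : MS f q) : MS (fun p => (f p)ᵀ) q := fun i j => hf j i

theorem cd_conj {m : WithTop ℕ∞} {c : E → ℂ} (hc : ContDiffAt ℝ m c q) :
    ContDiffAt ℝ m (fun p => conj (c p)) q :=
  Complex.conjCLE.contDiff.contDiffAt.comp q hc

theorem MS.conjTranspose (hf : MS f q) : MS (fun p => (f p)ᴴ) q := fun i j => cd_conj (hf j i)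

theorem MS.det (hf : MS f q) : ContDiffAt ℝ ∞ (fun p => (f p).det) q := by
  simp only [Matrix.det_apply, Units.smul_def, zsmul_eq_mul]
  exact ContDiffAt.sum fun σ _ => contDiffAt_const.mul (contDiffAt_prod fun i _ => hf (σ i) i)

theorem MS.trace (hf : MS f q) : ContDiffAt ℝ ∞ (fun p => (f p).trace) q :=
  ContDiffAt.sum fun i _ => hf i i

theorem MS.adjugate (hf : MS f q) : MS (fun p => (f p).adjugate) q := fun i j => by
  simp only [Matrix.adjugate_apply]
  refine MS.det (f := fun p => (f p).updateRow j (Pi.single i 1)) fun k l => ?_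
  simp only [Matrix.updateRow_apply]
  split_ifs
  exacts [contDiffAt_const, hf k l]

theorem MS.inv (hf : MS f q) (h0 : (f q).det ≠ 0) : MS (fun p => (f p)⁻¹) q := by
  simp only [Matrix.inv_def, Ring.inverse_eq_inv']
  exact hf.adjugate.smul (hf.det.inv h0)

theorem MS.comp {k : E' → E} {q : E'} (hf : MS f (k q)) (hk : ContDiffAt ℝ ∞ k q) :
    MS (fun p => f (k p)) q := fun i j => (hf i j).comp q hk

theorem MS.congr (hf : MS f q) (h : g =ᶠ[𝓝 q] f) : MS g q := fun i j =>
  (hf i j).congr_of_eventuallyEq (h.mono fun _ hp => by simp only [hp])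

theorem MS.det_ne (hf : MS f q) (h0 : (f q).det ≠ 0) : ∀ᶠ p in 𝓝 q, (f p).det ≠ 0 :=
  hf.det.continuousAt.eventually_ne h0

theorem MS.md_ev (hf : MS f q) : ∀ᶠ p in 𝓝 q, MD f p :=
  eventually_all.2 fun i => eventually_all.2 fun j =>
    (((hf i j).of_le (m := 1) (by simp)).eventually (by simp)).mono fun _ h =>
      h.differentiableAt (by simp)

theorem cd_fderiv {F : Type} [NormedAddCommGroup F] [NormedSpace ℝ F] {u : E → F} {w : E → E}
    (hu : ContDiffAt ℝ ∞ u q) (hw : ContDiffAt ℝ ∞ w q) :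
    ContDiffAt ℝ ∞ (fun p => fderiv ℝ u p (w p)) q :=
  (hu.fderiv_right (m := ∞) (by simp)).clm_apply hw

theorem MS.dM' (hf : MS f q) {w : E → E} (hw : ContDiffAt ℝ ∞ w q) :
    MS (fun p => dM f p (w p)) q := fun i j => cd_fderiv (hf i j) hw

theorem MS.dM (hf : MS f q) (v : E) : MS (fun p => dM f p v) q := hf.dM' contDiffAt_const

theorem MS.vecMul (hf : MS f q) (ha : ContDiffAt ℝ ∞ a q) :
    ContDiffAt ℝ ∞ (fun p => a p ᵥ* f p) q :=
  contDiffAt_pi.2 fun j => ContDiffAt.sum (s := Finset.univ) fun i _ =>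
    (contDiffAt_pi.1 ha i).mul (hf i j)

theorem MS.mulVec (hf : MS f q) (ha : ContDiffAt ℝ ∞ a q) :
    ContDiffAt ℝ ∞ (fun p => f p *ᵥ a p) q :=
  contDiffAt_pi.2 fun i => ContDiffAt.sum (s := Finset.univ) fun j _ =>
    (hf i j).mul (contDiffAt_pi.1 ha j)

theorem MS.hf (h : MS f q) (ha : ContDiffAt ℝ ∞ a q) (hb : ContDiffAt ℝ ∞ b q) :
    ContDiffAt ℝ ∞ (fun p => hf (f p) (a p) (b p)) q := by
  simp only [hf_sum]
  exact ContDiffAt.sum fun i _ => ContDiffAt.sum fun j _ =>
    ((contDiffAt_pi.1 ha i).mul (h i j)).mul (cd_conj (contDiffAt_pi.1 hb j))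

theorem MS.qf (h : MS f q) (ha : ContDiffAt ℝ ∞ a q) :
    ContDiffAt ℝ ∞ (fun p => qf (f p) (a p)) q :=
  Complex.reCLM.contDiff.contDiffAt.comp q (h.hf ha ha)

/-- the same as smoothness with values in a space of functions -/
theorem ms_iff : MS f q ↔ ContDiffAt ℝ ∞ (fun p => (fun i j => f p i j : Fin n → Fin n → ℂ)) q := by
  simp only [MS, contDiffAt_pi]

theorem MD.const (A : Mx n) (q : E) : MD (fun _ => A) q := fun _ _ => differentiableAt_const _

theorem MD.add (hf : MD f q) (hg : MD g q) : MD (fun p => f p + g p) q :=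
  fun i j => (hf i j).add (hg i j)

theorem MD.sub (hf : MD f q) (hg : MD g q) : MD (fun p => f p - g p) q :=
  fun i j => (hf i j).sub (hg i j)

theorem MD.mul (hf : MD f q) (hg : MD g q) : MD (fun p => f p * g p) q := fun i j => by
  simp only [Matrix.mul_apply]
  exact DifferentiableAt.fun_sum fun k _ => (hf i k).mul (hg k j)

theorem MD.transpose (hf : MD f q) : MD (fun p => (f p)ᵀ) q := fun i j => hf j i

theorem d_conj {c : E → ℂ} (hc : DifferentiableAt ℝ c q) :
    DifferentiableAt ℝ (fun p => conj (c p)) q := Complex.conjCLE.differentiableAt.comp q hc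

theorem MD.conjTranspose (hf : MD f q) : MD (fun p => (f p)ᴴ) q := fun i j => d_conj (hf j i)

theorem MD.comp {k : E' → E} {q : E'} (hf : MD f (k q)) (hk : DifferentiableAt ℝ k q) :
    MD (fun p => f (k p)) q := fun i j => (hf i j).comp q hk

theorem MD.vecMul (hf : MD f q) (ha : DifferentiableAt ℝ a q) :
    DifferentiableAt ℝ (fun p => a p ᵥ* f p) q :=
  differentiableAt_pi.2 fun j => DifferentiableAt.fun_sum (u := Finset.univ) fun i _ =>
    (differentiableAt_pi.1 ha i).fun_mul (hf i j)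

theorem MD.hf (h : MD f q) (ha : DifferentiableAt ℝ a q) (hb : DifferentiableAt ℝ b q) :
    DifferentiableAt ℝ (fun p => hf (f p) (a p) (b p)) q := by
  simp only [hf_sum]
  exact DifferentiableAt.fun_sum fun i _ => DifferentiableAt.fun_sum fun j _ =>
    ((differentiableAt_pi.1 ha i).mul (h i j)).mul (d_conj (differentiableAt_pi.1 hb j))

theorem dM_apply (f : E → Mx n) (q v : E) (i j : Fin n) :
    dM f q v i j = fderiv ℝ (fun p => f p i j) q v := rfl

theorem dM_addv (f : E → Mx n) (q v w : E) : dM f q (v + w) = dM f q v + dM f q w := by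
  ext i j; simp only [dM_apply, map_add, Matrix.add_apply]

theorem dM_smulv (f : E → Mx n) (q : E) (r : ℝ) (v : E) : dM f q (r • v) = r • dM f q v := by
  ext i j; simp only [dM_apply, map_smul, Matrix.smul_apply]

theorem dM_zerov (f : E → Mx n) (q : E) : dM f q 0 = 0 := by
  ext i j; simp only [dM_apply, map_zero, Matrix.zero_apply]

theorem dM_const (A : Mx n) (q v : E) : dM (fun _ => A) q v = 0 := by
  ext i j; simp [dM_apply]

theorem dM_congr (h : f =ᶠ[𝓝 q] g) (v : E) : dM f q v = dM g q v := by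
  ext i j
  have : (fun p => f p i j) =ᶠ[𝓝 q] fun p => g p i j := h.mono fun _ hp => by simp only [hp]
  rw [dM_apply, dM_apply, this.fderiv_eq]

theorem dM_add (hf : MD f q) (hg : MD g q) (v : E) :
    dM (fun p => f p + g p) q v = dM f q v + dM g q v := by
  ext i j
  simp only [dM_apply, Matrix.add_apply, fderiv_fun_add (hf i j) (hg i j),
    _root_.add_apply]

theorem dM_sub (hf : MD f q) (hg : MD g q) (v : E) :
    dM (fun p => f p - g p) q v = dM f q v - dM g q v := by
  ext i j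
  simp only [dM_apply, Matrix.sub_apply, fderiv_fun_sub (hf i j) (hg i j),
    _root_.sub_apply]

theorem dM_neg (f : E → Mx n) (q v : E) : dM (fun p => -f p) q v = -dM f q v := by
  ext i j
  simp only [dM_apply, Matrix.neg_apply, fderiv_fun_neg, _root_.neg_apply]

theorem fd_mul {c d : E → ℂ} (hc : DifferentiableAt ℝ c q) (hd : DifferentiableAt ℝ d q) (v : E) :
    fderiv ℝ (fun p => c p * d p) q v = fderiv ℝ c q v * d q + c q * fderiv ℝ d q v := by
  simp only [fderiv_fun_mul hc hd, _root_.add_apply, _root_.smul_apply,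
    smul_eq_mul]
  ring

theorem fd_conj (c : E → ℂ) (q v : E) :
    fderiv ℝ (fun p => conj (c p)) q v = conj (fderiv ℝ c q v) :=
  congrArg (fun L : E →L[ℝ] ℂ => L v) (Complex.conjCLE.comp_fderiv (f := c) (x := q))

theorem fd_re {c : E → ℂ} (hc : DifferentiableAt ℝ c q) (v : E) :
    fderiv ℝ (fun p => (c p).re) q v = (fderiv ℝ c q v).re :=
  congrArg (fun L : E →L[ℝ] ℝ => L v) (Complex.reCLM.hasFDerivAt.comp q hc.hasFDerivAt).fderiv

theorem fd_sum {ι : Type} (s : Finset ι) {F : ι → E → ℂ} (h : ∀ k ∈ s, DifferentiableAt ℝ (F k) q)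
    (v : E) : fderiv ℝ (fun p => ∑ k ∈ s, F k p) q v = ∑ k ∈ s, fderiv ℝ (F k) q v := by
  rw [fderiv_fun_sum h, _root_.sum_apply]

theorem fd_apply (ha : DifferentiableAt ℝ a q) (v : E) (i : Fin n) :
    fderiv ℝ a q v i = fderiv ℝ (fun p => a p i) q v := by
  rw [fderiv_apply ha i]; rfl

theorem fd_comp {F : Type} [NormedAddCommGroup F] [NormedSpace ℝ F] {u : E → F} {k : E' → E}
    {q : E'} (hu : DifferentiableAt ℝ u (k q)) (hk : DifferentiableAt ℝ k q) (v : E') :
    fderiv ℝ (fun p => u (k p)) q v = fderiv ℝ u (k q) (fderiv ℝ k q v) :=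
  congrArg (fun L : E' →L[ℝ] F => L v) (fderiv_comp q hu hk)

/-- the symmetry of the second derivative -/
theorem fd_symm {F : Type} [NormedAddCommGroup F] [NormedSpace ℝ F] {u : E → F}
    (hu : ContDiffAt ℝ 2 u q) (v w : E) :
    fderiv ℝ (fun p => fderiv ℝ u p w) q v = fderiv ℝ (fun p => fderiv ℝ u p v) q w := by
  have h1 : DifferentiableAt ℝ (fderiv ℝ u) q :=
    (hu.fderiv_right (m := 1) (by norm_num)).differentiableAt (by simp)
  rw [fderiv_clm_apply h1 (differentiableAt_const _),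
    fderiv_clm_apply h1 (differentiableAt_const _)]
  simpa using (hu.isSymmSndFDerivAt (by simp)).eq v w

theorem dM_mul (hf : MD f q) (hg : MD g q) (v : E) :
    dM (fun p => f p * g p) q v = dM f q v * g q + f q * dM g q v := by
  ext i j
  simp only [dM_apply, Matrix.mul_apply, Matrix.add_apply, ← Finset.sum_add_distrib]
  rw [fd_sum _ fun k _ => (hf i k).fun_mul (hg k j)]
  exact Finset.sum_congr rfl fun k _ => fd_mul (hf i k) (hg k j) v

theorem dM_smul {c : E → ℂ} (hc : DifferentiableAt ℝ c q) (hf : MD f q) (v : E) :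
    dM (fun p => c p • f p) q v = fderiv ℝ c q v • f q + c q • dM f q v := by
  ext i j
  exact fd_mul hc (hf i j) v

theorem dM_sum {ι : Type} (s : Finset ι) {F : ι → E → Mx n} (h : ∀ k ∈ s, MD (F k) q) (v : E) :
    dM (fun p => ∑ k ∈ s, F k p) q v = ∑ k ∈ s, dM (F k) q v := by
  ext i j
  simp only [dM_apply, Matrix.sum_apply]
  exact fd_sum s (fun k hk => h k hk i j) v

theorem dM_transpose (f : E → Mx n) (q v : E) : dM (fun p => (f p)ᵀ) q v = (dM f q v)ᵀ := rfl

theorem dM_conjTranspose (f : E → Mx n) (q v : E) :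
    dM (fun p => (f p)ᴴ) q v = (dM f q v)ᴴ := by
  ext i j
  exact fd_conj (fun p => f p j i) q v

theorem dM_inv (hf : MS f q) (h0 : (f q).det ≠ 0) (v : E) :
    dM (fun p => (f p)⁻¹) q v = -((f q)⁻¹ * dM f q v * (f q)⁻¹) := by
  have h1 : dM (fun p => (f p)⁻¹ * f p) q v = 0 := by
    rw [← dM_const (1 : Mx n) q v]
    exact dM_congr ((hf.det_ne h0).mono fun p hp => Matrix.nonsing_inv_mul _ hp.isUnit) v
  rw [dM_mul (hf.inv h0).md hf.md] at h1
  rw [← Matrix.neg_mul, ← eq_neg_of_add_eq_zero_left h1,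
    Matrix.mul_nonsing_inv_cancel_right _ _ h0.isUnit]

theorem dM_comp {k : E' → E} {q : E'} (hf : MD f (k q)) (hk : DifferentiableAt ℝ k q) (v : E') :
    dM (fun p => f (k p)) q v = dM f (k q) (fderiv ℝ k q v) := by
  ext i j
  exact fd_comp (hf i j) hk v

theorem dM_symm (hf : MS f q) (v w : E) :
    dM (fun p => dM f p w) q v = dM (fun p => dM f p v) q w := by
  ext i j
  exact fd_symm ((hf i j).of_le (by norm_cast)) v w

theorem fd_vecMul (hf : MD f q) (ha : DifferentiableAt ℝ a q) (v : E) :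
    fderiv ℝ (fun p => a p ᵥ* f p) q v = fderiv ℝ a q v ᵥ* f q + a q ᵥ* dM f q v := by
  ext j
  rw [fd_apply (hf.vecMul ha)]
  simp only [Matrix.vecMul, dotProduct, Pi.add_apply, ← Finset.sum_add_distrib, fd_apply ha]
  rw [fd_sum _ fun i _ => (differentiableAt_pi.1 ha i).fun_mul (hf i j)]
  exact Finset.sum_congr rfl fun i _ => fd_mul (differentiableAt_pi.1 ha i) (hf i j) v

theorem fd_hf (h : MD f q) (ha : DifferentiableAt ℝ a q) (hb : DifferentiableAt ℝ b q) (v : E) :
    fderiv ℝ (fun p => hf (f p) (a p) (b p)) q v = hf (f q) (fderiv ℝ a q v) (b q) +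
      hf (dM f q v) (a q) (b q) + hf (f q) (a q) (fderiv ℝ b q v) := by
  have d1 := fun i j => (differentiableAt_pi.1 ha i).fun_mul (h i j)
  have d2 := fun j => d_conj (differentiableAt_pi.1 hb j)
  simp only [hf_sum, ← Finset.sum_add_distrib, fd_apply ha, fd_apply hb]
  rw [fd_sum _ fun i _ => DifferentiableAt.fun_sum fun j _ => (d1 i j).fun_mul (d2 j)]
  refine Finset.sum_congr rfl fun i _ => ?_
  rw [fd_sum _ fun j _ => (d1 i j).fun_mul (d2 j)]
  refine Finset.sum_congr rfl fun j _ => ?_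
  rw [fd_mul (d1 i j) (d2 j), fd_conj, fd_mul (differentiableAt_pi.1 ha i) (h i j), dM_apply]
  ring

theorem fd_qf (h : MD f q) (hh : (f q).IsHermitian) (ha : DifferentiableAt ℝ a q) (v : E) :
    fderiv ℝ (fun p => qf (f p) (a p)) q v =
      2 * (hf (f q) (fderiv ℝ a q v) (a q)).re + qf (dM f q v) (a q) := by
  simp only [qf_eq]
  rw [fd_re (h.hf ha ha), fd_hf h ha ha, Complex.add_re, Complex.add_re, hf_re_symm (a q) _ hh]
  ring

/-- the covariant form of the derivative of `hf` -/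
theorem fd_hf_cov (h : MD f q) (ha : DifferentiableAt ℝ a q) (hb : DifferentiableAt ℝ b q) {v : E}
    {G : Mx n} (hG : dM f q v = G * f q + f q * Gᴴ) :
    fderiv ℝ (fun p => hf (f p) (a p) (b p)) q v = hf (f q) (fderiv ℝ a q v + a q ᵥ* G) (b q) +
      hf (f q) (a q) (fderiv ℝ b q v + b q ᵥ* G) := by
  rw [fd_hf h ha hb, hG, hf_madd, hf_mul_left, hf_mul_right, hf_add_left, hf_add_right]
  ring

theorem fd_det (h : MD f q) (v : E) :
    fderiv ℝ (fun p => (f p).det) q v = (dM f q v * (f q).adjugate).trace := by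
  simp only [Matrix.det_apply', Matrix.trace, Matrix.diag_apply, Matrix.mul_apply,
    Matrix.adjugate_apply]
  have h2 : ∀ σ : Equiv.Perm (Fin n), HasFDerivAt (fun p => ∏ i, f p (σ i) i)
      (∑ i, (∏ j ∈ Finset.univ.erase i, f q (σ j) j) • fderiv ℝ (fun p => f p (σ i) i) q) q :=
    fun σ => HasFDerivAt.finsetProd fun i _ => (h (σ i) i).hasFDerivAt
  rw [fd_sum _ fun σ _ => ((h2 σ).const_mul _).differentiableAt]
  simp only [fun σ c => ((h2 σ).const_mul c).fderiv, _root_.smul_apply,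
    _root_.sum_apply, smul_eq_mul, Finset.mul_sum, ← dM_apply]
  rw [Finset.sum_comm' (t' := Finset.univ) (s' := fun _ => Finset.univ) (by simp)]
  conv_rhs => rw [Finset.sum_comm]
  refine Finset.sum_congr rfl fun j _ => ?_
  conv_rhs => rw [Finset.sum_comm]
  refine Finset.sum_congr rfl fun σ _ => ?_
  rw [Finset.sum_eq_single (σ j)]
  · rw [← Finset.mul_prod_erase _ _ (Finset.mem_univ j), Matrix.updateRow_self, Pi.single_eq_same,
      Finset.prod_congr rfl (f := fun k => (f q).updateRow (σ j) (Pi.single j 1) (σ k) k)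
        (g := fun k => f q (σ k) k) fun k hk => by
        rw [Matrix.updateRow_ne (σ.injective.ne (Finset.ne_of_mem_erase hk))]]
    ring
  · intro i _ hi
    rw [Finset.prod_eq_zero (Finset.mem_univ (σ.symm i)), mul_zero, mul_zero]
    rw [Equiv.apply_symm_apply, Matrix.updateRow_self, Pi.single_eq_of_ne]
    exact fun h0 => hi (by rw [← h0, Equiv.apply_symm_apply])
  · simp

theorem fd_det' (h : MD f q) (h0 : (f q).det ≠ 0) (v : E) :
    fderiv ℝ (fun p => (f p).det) q v = (f q).det * (dM f q v * (f q)⁻¹).trace := by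
  rw [fd_det h, Matrix.inv_def, Ring.inverse_eq_inv', Matrix.mul_smul, Matrix.trace_smul,
    smul_eq_mul, mul_inv_cancel_left₀ h0]

/-- the derivative along the second factor -/
theorem slice_deriv {F : Type} [NormedAddCommGroup F] [NormedSpace ℝ F] {u : E × ℝ → F} {p : E}
    {s : ℝ} (hu : DifferentiableAt ℝ u (p, s)) :
    HasDerivAt (fun s => u (p, s)) (fderiv ℝ u (p, s) (0, 1)) s :=
  hu.hasFDerivAt.comp_hasDerivAt s ((hasDerivAt_const s p).prodMk (hasDerivAt_id s))

/-- the derivative along the first factor -/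
theorem slice_fderiv {F : Type} [NormedAddCommGroup F] [NormedSpace ℝ F] {u : E × ℝ → F} {p : E}
    {s : ℝ} (hu : DifferentiableAt ℝ u (p, s)) (v : E) :
    fderiv ℝ (fun p => u (p, s)) p v = fderiv ℝ u (p, s) (v, 0) := by
  rw [fd_comp (k := fun p => (p, s)) hu (differentiableAt_id.prodMk (differentiableAt_const s)),
    (hasFDerivAt_prodMk_left p s).fderiv]
  rfl

end calculus

/-! ### the Christoffel symbols -/

section gam

variable {W : Cm n → Mx n} {z : Cm n}

/-- `∂̄_X W` -/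
def DXb (X : Cm n) (W : Cm n → Mx n) (z : Cm n) : Mx n := ∑ k, conj (X k) • DMb k W z

theorem dM_eq (W : Cm n → Mx n) (z X : Cm n) : dM W z X = DX X W z + DXb X W z := by
  ext i j
  simp only [dM_apply, P272.K.fderiv_eq, DX, DXb, Matrix.add_apply, Matrix.sum_apply,
    Matrix.smul_apply, ← Finset.sum_add_distrib, smul_eq_mul, P272.K.C2.DM_apply,
    P272.K.C2.DMb_apply]
  exact Finset.sum_congr rfl fun k _ => by ring

theorem DX_add (X Y : Cm n) : DX (X + Y) W z = DX X W z + DX Y W z := by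
  simp only [DX, Pi.add_apply, add_smul, Finset.sum_add_distrib]

theorem DX_smul (t : ℂ) (X : Cm n) : DX (t • X) W z = t • DX X W z := by
  simp only [DX, Pi.smul_apply, smul_eq_mul, mul_smul, Finset.smul_sum]

theorem DXb_smul (t : ℂ) (X : Cm n) : DXb (t • X) W z = conj t • DXb X W z := by
  simp only [DXb, Pi.smul_apply, smul_eq_mul, map_mul, mul_smul, Finset.smul_sum]

/-- the complex linear part of the derivative -/
theorem DX_eq (W : Cm n → Mx n) (z X : Cm n) :
    (2 : ℂ) • DX X W z = dM W z X - Complex.I • dM W z (Complex.I • X) := by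
  rw [dM_eq, dM_eq, DX_smul, DXb_smul, smul_add, smul_smul, smul_smul, Complex.conj_I, mul_neg,
    Complex.I_mul_I]
  module

theorem DXb_herm (h : MD W z) (hh : ∀ᶠ y in 𝓝 z, (W y).IsHermitian) (X : Cm n) :
    DXb X W z = (DX X W z)ᴴ := by
  simp only [DXb, DX, Matrix.conjTranspose_sum, Matrix.conjTranspose_smul,
    P272.K.C2.DMb_of_isHermitian h hh, Complex.star_def]

theorem Gam_add (X Y : Cm n) : Gam W z (X + Y) = Gam W z X + Gam W z Y := by
  rw [Gam, DX_add, Matrix.add_mul, Gam, Gam]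

theorem Gam_smul (t : ℂ) (X : Cm n) : Gam W z (t • X) = t • Gam W z X := by
  rw [Gam, DX_smul, Matrix.smul_mul, Gam]

theorem Gam_rsmul (r : ℝ) (X : Cm n) : Gam W z (r • X) = r • Gam W z X := Gam_smul (r : ℂ) X

theorem Gam_zero : Gam W z 0 = 0 := by simp [Gam, DX]

theorem Gam_mul (h0 : (W z).det ≠ 0) (X : Cm n) : Gam W z X * W z = DX X W z :=
  Matrix.nonsing_inv_mul_cancel_right _ _ h0.isUnit

/-- the connection is metric -/
theorem Gam_met (h : MD W z) (hh : ∀ᶠ y in 𝓝 z, (W y).IsHermitian) (h0 : (W z).det ≠ 0)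
    (X : Cm n) : dM W z X = Gam W z X * W z + W z * (Gam W z X)ᴴ := by
  rw [dM_eq, DXb_herm h hh, ← Gam_mul h0, Matrix.conjTranspose_mul, hh.self_of_nhds.eq]

/-- the connection has no torsion -/
theorem Gam_symm (h : ∀ j k l, dz l (fun y => W y j k) z = dz j (fun y => W y l k) z)
    (a b : Cm n) : a ᵥ* Gam W z b = b ᵥ* Gam W z a := by
  rw [Gam, Gam, ← Matrix.vecMul_vecMul, ← Matrix.vecMul_vecMul]
  congr 1
  ext j
  simp only [Matrix.vecMul, dotProduct, DX, Matrix.sum_apply, Matrix.smul_apply, smul_eq_mul,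
    Finset.mul_sum, P272.K.C2.DM_apply]
  rw [Finset.sum_comm]
  exact Finset.sum_congr rfl fun k _ => Finset.sum_congr rfl fun i _ => by rw [h i j k]; ring

variable {E : Type} [NormedAddCommGroup E] [NormedSpace ℝ E] {k X : E → Cm n} {q : E}

theorem MS.DX (h : MS W (k q)) (hk : ContDiffAt ℝ ∞ k q) (hX : ContDiffAt ℝ ∞ X q) :
    MS (fun p => DX (X p) W (k p)) q :=
  MS.sum _ fun l _ => MS.smul (contDiffAt_pi.1 hX l)
    (MS.comp (f := DM l W) (P272.K.C2.MC.DM (m := ∞) h (by simp)) hk)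

theorem MS.Gam (h : MS W (k q)) (h0 : (W (k q)).det ≠ 0) (hk : ContDiffAt ℝ ∞ k q)
    (hX : ContDiffAt ℝ ∞ X q) : MS (fun p => Gam W (k p) (X p)) q :=
  (h.DX hk hX).mul ((h.comp hk).inv h0)

end gam

end Vale.Agent.P253W.X
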