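import Vale.Agent.P253W.X.Defs

/-!
# P253W, block X, row JE: Jacobi fields
-/

open scoped ContDiff Topology ComplexConjugate ComplexOrder Matrix
open Set Filter
open Vale.Agent.P272.K (Cm)

noncomputable section

namespace Vale.Agent.P253W.X

namespace Je

variable {n : ℕ} {A B H : Mx n} {a a' b b' : Cm n}

/-! ### algebra -/

theorem hf_eq (A : Mx n) (a b : Cm n) : hf A a b = ∑ i, ∑ j, a i * (A i j * conj (b j)) := by
  simp [hf, dotProduct, Matrix.mulVec, Finset.mul_sum]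

theorem qf_eq (A : Mx n) (a : Cm n) : qf A a = (hf A a a).re := rfl

theorem hf_add_l (A : Mx n) (a a' b : Cm n) : hf A (a + a') b = hf A a b + hf A a' b :=
  add_dotProduct _ _ _

theorem hf_sub_l (A : Mx n) (a a' b : Cm n) : hf A (a - a') b = hf A a b - hf A a' b :=
  sub_dotProduct _ _ _

theorem hf_smul_l (A : Mx n) (c : ℂ) (a b : Cm n) : hf A (c • a) b = c * hf A a b :=
  smul_dotProduct _ _ _

theorem hf_add (A B : Mx n) (a b : Cm n) : hf (A + B) a b = hf A a b + hf B a b := by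
  rw [hf, Matrix.add_mulVec, dotProduct_add]; rfl

theorem hf_sub (A B : Mx n) (a b : Cm n) : hf (A - B) a b = hf A a b - hf B a b := by
  rw [hf, Matrix.sub_mulVec, dotProduct_sub]; rfl

theorem hf_smul (c : ℂ) (A : Mx n) (a b : Cm n) : hf (c • A) a b = c * hf A a b := by
  rw [hf, Matrix.smul_mulVec, dotProduct_smul]; rfl

theorem hf_mul_l (G A : Mx n) (a b : Cm n) : hf (G * A) a b = hf A (a ᵥ* G) b := by
  rw [hf, hf, ← Matrix.mulVec_mulVec, Matrix.dotProduct_mulVec]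

theorem hf_mul_r (G A : Mx n) (a b : Cm n) : hf (A * Gᴴ) a b = hf A a (b ᵥ* G) := by
  rw [hf, hf, ← Matrix.mulVec_mulVec, Matrix.star_vecMul]

theorem hf_conj (A : Mx n) (a b : Cm n) : conj (hf A a b) = hf Aᴴ b a := by
  rw [hf_eq, hf_eq, Finset.sum_comm]
  simp only [map_sum, map_mul, Complex.conj_conj, Matrix.conjTranspose_apply, Complex.star_def]
  exact Finset.sum_congr rfl fun i _ => Finset.sum_congr rfl fun j _ => by ring

theorem hf_re (h : H.IsHermitian) (a b : Cm n) : (hf H a b).re = (hf H b a).re := by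
  rw [← Complex.conj_re, hf_conj, h.eq]

theorem qf_nonneg (h : H.PosSemidef) (a : Cm n) : 0 ≤ qf H a := by
  simpa [qf] using h.re_dotProduct_nonneg (star a)

theorem nr_sq (h : H.PosSemidef) (a : Cm n) : nr H a * nr H a = qf H a :=
  Real.mul_self_sqrt (qf_nonneg h a)

theorem nr_nonneg (H : Mx n) (a : Cm n) : 0 ≤ nr H a := Real.sqrt_nonneg _

/-- the inequality of Cauchy and Schwarz -/
theorem cs (h : H.PosSemidef) (a b : Cm n) : ‖hf H a b‖ ≤ nr H a * nr H b := by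
  let c : PreInnerProductSpace.Core ℂ (Cm n) :=
    { inner := fun x y => hf H y x
      conj_inner_symm := fun x y => by rw [hf_conj, h.1.eq]
      re_inner_nonneg := qf_nonneg h
      add_left := fun x y z => by simp [hf, Matrix.mulVec_add]
      smul_left := fun x y r => by simp [hf, Matrix.mulVec_smul] }
  have e : ‖hf H a b‖ * ‖hf H b a‖ ≤ qf H b * qf H a :=
    InnerProductSpace.Core.inner_mul_inner_self_le (c := c) b a
  have e' : ‖hf H b a‖ = ‖hf H a b‖ := by rw [← Complex.norm_conj, hf_conj, h.1.eq]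
  rw [e', ← nr_sq h, ← nr_sq h] at e
  exact abs_le_of_sq_le_sq' (by nlinarith) (mul_nonneg (nr_nonneg H a) (nr_nonneg H b)) |>.2

/-- the norm by duality -/
theorem nr_le (h : H.PosSemidef) {c : ℝ} (c0 : 0 ≤ c) (k : ‖hf H a a‖ ≤ c * nr H a) :
    nr H a ≤ c := by
  have e : nr H a * nr H a ≤ c * nr H a := (nr_sq h a).trans_le ((Complex.re_le_norm _).trans k)
  nlinarith [nr_nonneg H a]

theorem KT.lin {R : Cm n → Cm n → Mx n} (h : KT R) (σ : ℂ) (y c X : Cm n) :
    R y (σ • c + X) - R (σ • c + X) y = conj σ • R y c + R y X - (σ • R c y + R X y) := by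
  rw [← h.her (σ • c + X) y, h.add_l, h.smul_l, Matrix.conjTranspose_add,
    Matrix.conjTranspose_smul, h.her, h.her]
  rfl

/-! ### calculus -/

theorem hd_hf {A : ℝ → Mx n} {A' : Mx n} {a b : ℝ → Cm n} {t : ℝ}
    (hA : ∀ i j, HasDerivAt (fun s => A s i j) (A' i j) t) (ha : HasDerivAt a a' t)
    (hb : HasDerivAt b b' t) : HasDerivAt (fun s => hf (A s) (a s) (b s))
      (hf A' (a t) (b t) + hf (A t) a' (b t) + hf (A t) (a t) b') t := by
  simp only [hf_eq, ← Finset.sum_add_distrib]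
  refine HasDerivAt.fun_sum fun i _ => HasDerivAt.fun_sum fun j _ => ?_
  refine ((hasDerivAt_pi.1 ha i).fun_mul ((hA i j).fun_mul
    (hasDerivAt_pi.1 hb j).star)).congr_deriv ?_
  simp only [Complex.star_def]
  ring

theorem hd_l (H : Mx n) (b : Cm n) {a : ℝ → Cm n} {t : ℝ} (ha : HasDerivAt a a' t) :
    HasDerivAt (fun s => hf H (a s) b) (hf H a' b) t := by
  simpa [hf_eq] using hd_hf (A := fun _ => H) (A' := 0) (fun i j => hasDerivAt_const t _) ha
    (hasDerivAt_const t b)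

theorem hd_m (H : Mx n) (a b : Cm n) {G : ℝ → Mx n} {G' : Mx n} {t : ℝ}
    (hG : ∀ i j, HasDerivAt (fun s => G s i j) (G' i j) t) :
    HasDerivAt (fun s => hf (G s * H) a b) (hf (G' * H) a b) t := by
  simp only [hf_mul_l]
  refine hd_l H b (hasDerivAt_pi.2 fun j => ?_)
  simpa [Matrix.vecMul, dotProduct] using
    HasDerivAt.fun_sum (u := Finset.univ) fun i _ => (hG i j).const_mul (a i)

theorem cont_nr (H : Mx n) : Continuous (nr H) := by
  unfold nr qf
  fun_prop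

/-- the mean value inequality on `[0, 1]` -/
theorem mvi {f f' : ℝ → ℂ} {c : ℝ} (d : ∀ s, HasDerivAt f (f' s) s)
    (k : ∀ s ∈ Icc (0 : ℝ) 1, ‖f' s‖ ≤ c) {s u : ℝ} (hs : s ∈ Icc (0 : ℝ) 1)
    (hu : u ∈ Icc (0 : ℝ) 1) : ‖f s - f u‖ ≤ c := by
  refine ((convex_Icc (0 : ℝ) 1).norm_image_sub_le_of_norm_hasDerivWithin_le
    (fun s _ => (d s).hasDerivWithinAt) k hu hs).trans
    (mul_le_of_le_one_right ((norm_nonneg _).trans (k s hs)) ?_)
  exact abs_le.2 ⟨by linarith [hs.1, hu.2], by linarith [hs.2, hu.1]⟩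

variable {E F : Type} [NormedAddCommGroup E] [NormedSpace ℝ E] [NormedAddCommGroup F]
  [NormedSpace ℝ F] {p : E} {s : ℝ}

theorem hd_s {f : E × ℝ → F} (h : ContDiffAt ℝ ∞ f (p, s)) :
    HasDerivAt (fun s => f (p, s)) (fderiv ℝ f (p, s) (0, 1)) s :=
  (h.differentiableAt (by simp)).hasFDerivAt.comp_hasDerivAt s
    ((hasDerivAt_const s p).prodMk (hasDerivAt_id s))

theorem hd_p {f : E × ℝ → F} (h : ContDiffAt ℝ ∞ f (p, s)) (v : E) :
    HasDerivAt (fun t : ℝ => f (p + t • v, s)) (fderiv ℝ f (p, s) (v, 0)) 0 := by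
  have := (h.differentiableAt (by simp)).hasFDerivAt.hasLineDerivAt (v, 0)
  simpa [HasLineDerivAt] using this

variable {O : Set E} {y : E → Cm n} {θ : E × ℝ → E × ℝ → Cm n} {Γ : E × ℝ → E × ℝ → Mx n}
  {H : E × ℝ → Mx n} {R : E × ℝ → Cm n → Cm n → Mx n}

omit [NormedAddCommGroup E] [NormedSpace ℝ E] in
theorem mem (hp : p ∈ O) (s : ℝ) : (p, s) ∈ O ×ˢ (univ : Set ℝ) := ⟨hp, trivial⟩

theorem H_const (g : Geo O y θ Γ H R) (hp : p ∈ O) (s : ℝ) : H (p, s) = H (p, 0) := by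
  ext i j
  refine is_const_of_deriv_eq_zero (f := fun s => H (p, s) i j) (fun s =>
    (hd_s (g.car.H_sm _ (mem hp s) i j)).differentiableAt) (fun s => ?_) s 0
  have := congrFun (congrFun (g.car.met _ (mem hp s) (0, 1)) i) j
  rw [g.Γs p hp] at this
  rw [(hd_s (g.car.H_sm _ (mem hp s) i j)).deriv]
  simpa [dM] using this

theorem ev (g : Geo O y θ Γ H R) (hp : p ∈ O) (s : ℝ) : ∀ᶠ q : E × ℝ in 𝓝 (p, s), q.1 ∈ O :=
  (continuousAt_fst (p := (p, s))).eventually (g.op.mem_nhds hp)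

theorem hd_J (g : Geo O y θ Γ H R) (hp : p ∈ O) (v : E) (s : ℝ) :
    HasDerivAt (fun s => θ (p, s) (v, 0)) (fderiv ℝ y p v + y p ᵥ* Γ (p, s) (v, 0)) s := by
  have t := g.car.tor _ (mem hp s) (0, 1) (v, 0)
  have e : (fun q => θ q (0, 1)) =ᶠ[𝓝 (p, s)] fun q => y q.1 :=
    (ev g hp s).mono fun q hq => g.θs q.1 hq q.2
  have d : HasFDerivAt (fun q : E × ℝ => y q.1) _ (p, s) :=
    ((g.y_sm p hp).differentiableAt (by simp)).hasFDerivAt.comp (p, s) hasFDerivAt_fst
  rw [g.Γs p hp, Matrix.vecMul_zero, add_zero, e.fderiv_eq, d.fderiv, g.θs p hp] at t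
  exact (hd_s (g.car.θ_sm _ (mem hp s) (v, 0))).congr_deriv t

theorem d_gD (g : Geo O y θ Γ H R) (hp : p ∈ O) (v : E) (s : ℝ) : fderiv ℝ (gD H y) p v =
    2 * (hf (H (p, 0)) (fderiv ℝ y p v + y p ᵥ* Γ (p, s) (v, 0)) (y p)).re := by
  have hy := (g.y_sm p hp).differentiableAt (by simp)
  have her := (g.car.H_pos _ (mem hp 0)).1
  have d : DifferentiableAt ℝ (gD H y) p := by
    have h1 : ∀ i j, DifferentiableAt ℝ (fun p => H (p, 0) i j) p := fun i j =>
      DifferentiableAt.comp (g := fun q => H q i j) (f := fun p => (p, (0 : ℝ))) p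
        ((g.car.H_sm _ (mem hp 0) i j).differentiableAt (by simp))
        (differentiableAt_id.prodMk (differentiableAt_const _))
    have h2 := differentiableAt_pi.1 hy
    have e : gD H y = fun p => (∑ i, ∑ j, y p i * (H (p, 0) i j * conj (y p j))).re :=
      funext fun p => by rw [gD, qf_eq, hf_eq]
    rw [e]
    exact Complex.reCLM.differentiableAt.comp p (DifferentiableAt.fun_sum fun i _ =>
      DifferentiableAt.fun_sum fun j _ => (h2 i).fun_mul ((h1 i j).fun_mul (h2 j).star))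
  have l : HasDerivAt (fun t : ℝ => y (p + t • v)) (fderiv ℝ y p v) 0 :=
    hy.hasFDerivAt.hasLineDerivAt v
  have k := Complex.reCLM.hasFDerivAt.comp_hasDerivAt 0 (hd_hf (A' := dM H (p, s) (v, 0))
    (fun i j => hd_p (g.car.H_sm _ (mem hp s) i j) v) l l)
  have c : ContinuousAt (fun t : ℝ => p + t • v) 0 := by fun_prop
  have e := HasDerivAt.unique (d.hasFDerivAt.hasLineDerivAt v) (k.congr_of_eventuallyEq
    ((c.eventually (g.op.mem_nhds (by simpa using hp))).mono fun t ht => by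
      simp only [gD, qf_eq, Function.comp_apply, Complex.reCLM_apply, H_const g ht s]))
  rw [e, g.car.met _ (mem hp s), hf_add, hf_mul_l, hf_mul_r]
  simp only [zero_smul, add_zero, H_const g hp s, Complex.reCLM_apply, hf_add_l, Complex.add_re,
    hf_re her (y p)]
  ring

theorem hd_G (g : Geo O y θ Γ H R) (hp : p ∈ O) (v : E) (a b : Cm n) (s : ℝ) :
    HasDerivAt (fun s => hf (Γ (p, s) (v, 0) * H (p, 0)) a b)
      (hf (R (p, s) (y p) (θ (p, s) (v, 0)) - R (p, s) (θ (p, s) (v, 0)) (y p)) a b) s := by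
  have t := g.car.cur _ (mem hp s) (0, 1) (v, 0)
  have e : dM (fun q => Γ q (0, 1)) (p, s) (v, 0) = 0 := by
    ext i j
    have : (fun q => Γ q (0, 1) i j) =ᶠ[𝓝 (p, s)] fun _ => 0 :=
      (ev g hp s).mono fun q hq => congrFun (congrFun (g.Γs q.1 hq q.2) i) j
    simp [dM, this.fderiv_eq]
  rw [e, g.Γs p hp, g.θs p hp, H_const g hp s, sub_zero, mul_zero, zero_mul, add_zero,
    sub_zero] at t
  rw [← t]
  exact hd_m _ a b fun i j => hd_s (g.car.Γ_sm _ (mem hp s) (v, 0) i j)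

end Je

open Je in
/-- **JE** -/
theorem je {n : ℕ} (h : CUR n) : JE n := by
  refine ⟨16, 1 / 16, by norm_num, by norm_num, fun E _ _ O y θ Γ H R g p hp =>
    ⟨H_const g hp, fun v => ?_, hd_J g hp, fun c K m cb hK v σ W e h0 hW he => ?_⟩⟩
  · have d : ∀ s, HasDerivAt (fun s => 2 * (hf (H (p, 0)) (θ (p, s) (v, 0)) (y p)).re -
        s * fderiv ℝ (gD H y) p v) 0 s := fun s =>
      (((Complex.reCLM.hasFDerivAt.comp_hasDerivAt s (hd_l _ _ (hd_J g hp v s))).const_mul 2).sub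
        (hasDerivAt_mul_const _)).congr_deriv (sub_eq_zero.2 (d_gD g hp v s).symm)
    have := is_const_of_deriv_eq_zero (fun s => (d s).differentiableAt) (fun s => (d s).deriv) 1 0
    rw [hf_sub_l, Complex.sub_re]
    linarith
  obtain ⟨K0, m0, cb⟩ := cb
  have P := g.car.H_pos _ (mem hp 0)
  have P' := P.posSemidef
  have n0 := nr_nonneg (H (p, 0))
  have dX : ∀ s, HasDerivAt (fun s => θ (p, s) (v, 0) - σ • c)
      (fderiv ℝ y p v + y p ᵥ* Γ (p, s) (v, 0)) s := fun s => (hd_J g hp v s).sub_const _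
  obtain ⟨s₀, h₀, hM⟩ := isCompact_Icc.exists_isMaxOn (nonempty_Icc.2 zero_le_one)
    ((cont_nr (H (p, 0))).comp (continuous_iff_continuousAt.2 fun s =>
      (dX s).continuousAt)).continuousOn
  obtain ⟨M, eM⟩ : ∃ M, nr (H (p, 0)) (θ (p, s₀) (v, 0) - σ • c) = M := ⟨_, rfl⟩
  replace hM : ∀ s ∈ Icc (0 : ℝ) 1, nr (H (p, 0)) (θ (p, s) (v, 0) - σ • c) ≤ M := fun s hs =>
    eM ▸ hM hs
  have M0 : 0 ≤ M := eM ▸ n0 _
  obtain ⟨τ, τ0, eτ⟩ : ∃ τ, 0 ≤ τ ∧ √(K * m) * ‖σ‖ = τ := ⟨_, by positivity, rfl⟩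
  have eD : nr (H (p, 0)) (y p) * nr (H (p, 0)) (y p) = gD H y p := nr_sq P' _
  have D0 : 0 ≤ gD H y p := qf_nonneg P' _
  have G : ∀ a b, ∀ s ∈ Icc (0 : ℝ) 1, ∀ u ∈ Icc (0 : ℝ) 1,
      ‖hf (Γ (p, s) (v, 0) * H (p, 0)) a b - hf (Γ (p, u) (v, 0) * H (p, 0)) a b‖ ≤
        8 * nr (H (p, 0)) (y p) * (τ + K * M) * nr (H (p, 0)) a * nr (H (p, 0)) b := by
    intro a b s hs u hu
    refine mvi (hd_G g hp v a b) (fun s hs => ?_) hs hu
    have k := h (H (p, 0)) (R (p, s)) K m c P (g.car.kt _ (mem hp s)) K0 m0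
      (fun a => (cb s hs a).1) fun a => (cb s hs a).2
    have k1 := mul_le_mul_of_nonneg_left (k (y p) a b).2.1 (norm_nonneg σ)
    have k2 := mul_le_mul_of_nonneg_left (k (y p) a b).2.2.1 (norm_nonneg σ)
    have k3 := (k (y p) (θ (p, s) (v, 0) - σ • c) a).1 b
    have k4 := (k (θ (p, s) (v, 0) - σ • c) (y p) a).1 b
    have k5 := mul_le_mul_of_nonneg_left (hM s hs) (show 0 ≤ 8 * K * nr (H (p, 0)) (y p) *
      nr (H (p, 0)) a * nr (H (p, 0)) b by have := n0 (y p); have := n0 a; have := n0 b; positivity)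
    rw [← add_sub_cancel (σ • c) (θ (p, s) (v, 0)), KT.lin (g.car.kt _ (mem hp s)), hf_sub,
      hf_add, hf_add, hf_smul, hf_smul]
    refine (norm_sub_le_of_le (norm_add_le _ _) (norm_add_le _ _)).trans ?_
    rw [norm_mul, norm_mul, Complex.norm_conj, ← eτ]
    linarith
  have G1 : ∀ b, ∀ s ∈ Icc (0 : ℝ) 1,
      ‖hf (H (p, 0)) (fderiv ℝ y p v + y p ᵥ* Γ (p, s) (v, 0) - W) b‖ ≤
        8 * gD H y p * (τ + K * M) * nr (H (p, 0)) b := by
    intro b s hs
    have := mvi (c := 8 * gD H y p * (τ + K * M) * nr (H (p, 0)) b) (fun u => (hd_l (H (p, 0)) b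
      (dX u)).sub ((hasDerivAt_id u).ofReal_comp.mul_const
        (hf (H (p, 0)) (fderiv ℝ y p v + y p ᵥ* Γ (p, s) (v, 0)) b))) (fun u hu => by
      have := G (y p) b u hu s hs
      simp only [hf_add_l, Complex.ofReal_one, one_mul, add_sub_add_left_eq_sub, ← hf_mul_l]
      exact this.trans_eq (by rw [← eD]; ring)) (left_mem_Icc.2 zero_le_one)
      (right_mem_Icc.2 zero_le_one)
    refine le_of_eq_of_le (congrArg norm ?_) this
    simp only [Pi.sub_apply, h0, hW, hf_sub_l, id, Complex.ofReal_zero, Complex.ofReal_one]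
    ring
  have G2 : ∀ s ∈ Icc (0 : ℝ) 1, nr (H (p, 0)) (θ (p, s) (v, 0) - σ • c) ≤
      nr (H (p, 0)) W + 8 * gD H y p * (τ + K * M) := by
    intro s hs
    refine nr_le P' (by have := n0 W; positivity) ?_
    have := mvi (fun u => hd_l (H (p, 0)) (θ (p, s) (v, 0) - σ • c) (dX u)) (fun u hu => by
      rw [← add_sub_cancel W (fderiv ℝ y p v + _), hf_add_l]
      exact norm_add_le_of_le (cs P' _ _) (G1 _ u hu)) hs (left_mem_Icc.2 zero_le_one)
    rw [h0, sub_self, show hf (H (p, 0)) 0 _ = 0 from zero_dotProduct _, sub_zero] at this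
    exact this.trans_eq (by ring)
  have hE : τ + K * M ≤ 2 * e := by
    have := mul_le_mul_of_nonneg_left (eM ▸ G2 s₀ h₀) K0
    rw [he, eτ]
    nlinarith [mul_le_mul_of_nonneg_right hK (show 0 ≤ τ + K * M by positivity)]
  have hD := mul_le_mul_of_nonneg_left hE D0
  refine fun s hs => ⟨(nr_le P' (by positivity) (G1 _ s hs)).trans (by linarith),
    (G2 s hs).trans (by linarith [n0 W]), fun a b => ?_⟩
  rw [sub_mul, hf_sub]
  refine (G a b s hs 0 (left_mem_Icc.2 zero_le_one)).trans ?_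
  have := mul_le_mul_of_nonneg_left hE (n0 (y p))
  refine mul_le_mul_of_nonneg_right (mul_le_mul_of_nonneg_right ?_ (n0 a)) (n0 b)
  change _ ≤ 16 * nr (H (p, 0)) (y p) * e
  linarith

end Vale.Agent.P253W.X
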