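import Vale.Agent.P253W.X.Defs
import Vale.Agent.P281.H68.TL.Har1

/-!
# P253W, block X: rows QIF and BC
-/

open scoped Topology NNReal
open Set Metric Filter Asymptotics
open Vale.Agent.P272.K (Cm)

noncomputable section

namespace Vale.Agent.P253W.X

theorem qif (n : ℕ) : QIF n := by
  refine ⟨1 / 20, by norm_num, fun G c A ρ hc hρ hρ4 hA hG hb h0 hd => ?_⟩
  have hcv : ∀ v : Cm n, ‖(c : ℂ) • v‖ = c * ‖v‖ := fun v => by
    rw [norm_smul, Complex.norm_real, Real.norm_of_nonneg hc.le]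
  have hA0 : 0 ≤ A := (norm_nonneg _).trans (hb 0 (mem_ball_self one_pos))
  have hD : ‖fderiv ℂ G 0‖ ≤ A / 1 := Complex.norm_fderiv_le_div_of_mapsTo_ball hG
    (fun y hy => by rw [h0, mem_closedBall_zero_iff]; exact hb y hy) one_pos
  set H : Cm n → Cm n := fun y => G y - fderiv ℂ G 0 y with hH
  have hHd : DifferentiableOn ℂ H (ball 0 1) :=
    hG.sub (fderiv ℂ G 0).differentiable.differentiableOn
  have hH0 : H 0 = 0 := by simp [hH, h0]
  have hH2 : ∀ y ∈ ball (0 : Cm n) 1, ‖H y‖ ≤ 2 * A * ‖y‖ ^ 2 := fun y hy => by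
    have := Complex.dist_le_mul_div_pow_of_mapsTo_ball_of_isLittleO (n := 1) (R₂ := 2 * A) hHd
      (fun z hz => ?_) ?_ hy
    · simpa [hH0] using this
    · rw [hH0, mem_closedBall_zero_iff]
      have a1 := (fderiv ℂ G 0).le_opNorm z
      have a2 := mem_ball_zero_iff.1 hz
      have a3 := hb z hz
      have a4 := norm_sub_le (G z) (fderiv ℂ G 0 z)
      have a5 : ‖fderiv ℂ G 0‖ * ‖z‖ ≤ A * 1 :=
        mul_le_mul (by simpa using hD) a2.le (norm_nonneg _) hA0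
      linarith
    · have a := (hG.differentiableAt (ball_mem_nhds 0 one_pos)).hasFDerivAt.isLittleO.norm_right
      simpa [hH, h0] using a
  have hsub : ∀ y ∈ ball (0 : Cm n) ρ, ∀ z ∈ ball y ρ, ‖z‖ ≤ 2 * ρ := fun y hy z hz => by
    have a1 := mem_ball_zero_iff.1 hy
    have a2 := mem_ball_iff_norm.1 hz
    have a3 := norm_add_le (z - y) y
    rw [sub_add_cancel] at a3
    linarith
  have hin : ∀ z : Cm n, ‖z‖ ≤ 2 * ρ → z ∈ ball (0 : Cm n) 1 := fun z hz =>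
    mem_ball_zero_iff.2 (by linarith)
  have hat : ∀ y ∈ ball (0 : Cm n) ρ, y ∈ ball (0 : Cm n) 1 := fun y hy =>
    hin y (hsub y hy y (mem_ball_self hρ))
  have hDH : ∀ y ∈ ball (0 : Cm n) ρ, ‖fderiv ℂ H y‖ ≤ c / 2 := fun y hy => by
    have hs : ∀ z ∈ ball y ρ, ‖H z‖ ≤ 2 * A * (2 * ρ) ^ 2 := fun z hz =>
      (hH2 z (hin z (hsub y hy z hz))).trans (by gcongr; exact hsub y hy z hz)
    have hy2 : ‖H y‖ ≤ 2 * A * ρ ^ 2 :=
      (hH2 y (hat y hy)).trans (by gcongr; exact (mem_ball_zero_iff.1 hy).le)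
    have := Complex.norm_fderiv_le_div_of_mapsTo_ball (R₂ := 10 * A * ρ ^ 2)
      (hHd.mono fun z hz => hin z (hsub y hy z hz)) (fun z hz => by
        rw [mem_closedBall_iff_norm]
        have a1 := norm_sub_le (H z) (H y)
        have a2 := hs z hz
        linarith) hρ
    refine this.trans ?_
    rw [div_le_iff₀ hρ]
    nlinarith
  have hl : ∀ y ∈ ball (0 : Cm n) ρ, ∀ y' ∈ ball (0 : Cm n) ρ,
      ‖G y - G y' - (c : ℂ) • (y - y')‖ ≤ c / 2 * ‖y - y'‖ := fun y hy y' hy' => by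
    have := (convex_ball (0 : Cm n) ρ).norm_image_sub_le_of_norm_fderiv_le (𝕜 := ℂ)
      (fun z hz => hHd.differentiableAt (isOpen_ball.mem_nhds (hat z hz))) hDH hy' hy
    have e : H y - H y' = G y - G y' - (c : ℂ) • (y - y') := by
      simp only [hH, hd, smul_sub]
      abel
    rwa [e] at this
  refine ⟨fun y hy y' hy' h => ?_, fun y hy v => ?_, fun w hw => ?_⟩
  · have a := hl y hy y' hy'
    rw [h, sub_self, zero_sub, norm_neg, hcv] at a
    have : ‖y - y'‖ ≤ 0 := by nlinarith [norm_nonneg (y - y')]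
    exact sub_eq_zero.1 (norm_le_zero_iff.1 this)
  · have a := ((hG.differentiableAt (isOpen_ball.mem_nhds (hat y hy))).hasFDerivAt.sub
      (fderiv ℂ G 0).hasFDerivAt).fderiv
    have b := (fderiv ℂ H y).le_of_opNorm_le (hDH y hy) v
    have e : fderiv ℂ H y = fderiv ℂ G y - fderiv ℂ G 0 := a
    rwa [e, sub_apply, hd] at b
  · have hap : ApproximatesLinearOn G (fderiv ℂ G 0) (ball 0 ρ) ⟨c / 2, by positivity⟩ :=
      fun y hy y' hy' => by rw [hd]; exact hl y hy y' hy'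
    have hc' : (c : ℂ) ≠ 0 := Complex.ofReal_ne_zero.2 hc.ne'
    let R : (fderiv ℂ G 0).NonlinearRightInverse :=
      ⟨fun y => (c : ℂ)⁻¹ • y, ⟨c⁻¹, by positivity⟩, fun y => by
        rw [norm_smul, norm_inv, Complex.norm_real, Real.norm_of_nonneg hc.le]
        exact le_rfl, fun y => by rw [hd, smul_inv_smul₀ hc']⟩
    have hs : closedBall (0 : Cm n) (ρ / 2) ⊆ ball 0 ρ := closedBall_subset_ball (by linarith)
    obtain ⟨y, hy, rfl⟩ := hap.surjOn_closedBall_of_nonlinearRightInverse R (by positivity) hs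
      (show w ∈ _ by
        rw [h0, mem_closedBall_zero_iff]
        change ‖w‖ ≤ ((c⁻¹)⁻¹ - c / 2) * (ρ / 2)
        rw [inv_inv]
        linarith)
    refine ⟨y, hs hy, rfl, ?_⟩
    have a := hl y (hs hy) 0 (mem_ball_self hρ)
    rw [h0, sub_zero, sub_zero] at a
    have b := norm_sub_norm_le ((c : ℂ) • y) (G y)
    rw [norm_sub_rev, hcv] at b
    linarith

theorem bc (n : ℕ) : BC n := by
  refine ⟨4, fun g A hg h y hy => ?_⟩
  rcases eq_or_ne y 0 with rfl | hy0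
  · simp
  have hr : 0 < ‖y‖ := norm_pos_iff.2 hy0
  have hy2 := mem_ball_zero_iff.1 hy
  have hM : 0 ≤ A - Real.log ‖g 0‖ := sub_nonneg.2 (h 0 (mem_ball_self one_pos)).2
  have hR : 2 < ‖y‖⁻¹ := by
    rw [lt_inv_comm₀ two_pos hr]
    linarith
  have hm : ∀ ζ ∈ ball (0 : ℂ) ‖y‖⁻¹, ζ • y ∈ ball (0 : Cm n) 1 := fun ζ hζ => by
    rw [mem_ball_zero_iff, norm_smul, ← lt_div_iff₀ hr, one_div]
    exact mem_ball_zero_iff.1 hζ
  obtain ⟨f, hf, he⟩ := Vale.Agent.P281.H68.TL.exists_log (G := fun ζ => g (ζ • y)) (inv_pos.2 hr)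
    (hg.comp (differentiableOn_id.smul_const y) hm) fun ζ hζ => (h _ (hm ζ hζ)).1
  have hre : ∀ ζ ∈ ball (0 : ℂ) ‖y‖⁻¹, (f ζ).re = Real.log ‖g (ζ • y)‖ := fun ζ hζ => by
    rw [← he ζ hζ, Complex.norm_exp, Real.log_exp]
  have h0 := hre 0 (mem_ball_self (inv_pos.2 hr))
  have m1 : (1 : ℂ) ∈ ball (0 : ℂ) ‖y‖⁻¹ := mem_ball_zero_iff.2 (by rw [norm_one]; linarith)
  have h1 := hre 1 m1
  rw [zero_smul] at h0
  rw [one_smul] at h1
  refine le_of_forall_pos_le_add fun ε hε => ?_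
  have b := Complex.borelCaratheodory_zero (f := fun ζ => f ζ - f 0)
    (M := A - Real.log ‖g 0‖ + ε / 2) (by linarith) (hf.sub_const _) (fun ζ hζ => by
      have := (h _ (hm ζ hζ)).2
      change (f ζ - f 0).re ≤ _
      rw [Complex.sub_re, hre ζ hζ, h0]
      linarith) (inv_pos.2 hr) m1 (sub_self _)
  rw [← h1, ← h0, ← Complex.sub_re]
  refine (Complex.abs_re_le_norm _).trans (b.trans ?_)
  rw [h0, norm_one, mul_one, div_le_iff₀ (by linarith)]
  have e : ‖y‖ * ‖y‖⁻¹ = 1 := mul_inv_cancel₀ hr.ne'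
  generalize A - Real.log ‖g 0‖ = M at *
  have a1 : (4 * ‖y‖ * M + ε) * (‖y‖⁻¹ - 1) = 4 * M * (1 - ‖y‖) + ε * (‖y‖⁻¹ - 1) := by
    linear_combination 4 * M * e
  rw [a1]
  nlinarith

end Vale.Agent.P253W.X
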