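import Vale.Agent.P253W.X.Lv

/-!
# P253W, block X, row CAL2: the calculus of the Levi form
-/

open scoped ContDiff Topology
open Set Filter
open Complex (I)

noncomputable section

namespace Vale.Agent.P253W.X

variable {V : Type} [NormedAddCommGroup V] [NormedSpace ℝ V] [NormedSpace ℂ V] {T : Set V}
  {Θ : V → V →L[ℝ] V} (A : At T Θ) {i : A.ι} {q : V}

namespace Cal2

theorem ex (hq : q ∈ T) : ∃ i, q ∈ (A.c i).source ∧ ∀ u v, A.lev u q v = A.lv i u q v :=
  ⟨_, (A.cover q hq).choose_spec, fun _ _ => dif_pos hq⟩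

variable {A} {G : Type} [NormedAddCommGroup G] [NormedSpace ℝ G] {u : V → G}

theorem sm (hi : q ∈ (A.c i).source) (hu : ContDiffAt ℝ 2 u q) :
    ContDiffAt ℝ 2 (fun z => u ((A.c i).symm z)) (A.c i q) :=
  ContDiffAt.comp _ (by rwa [(A.c i).left_inv hi])
    ((A.sm' i _ ((A.c i).map_source hi)).of_le ENat.LEInfty.out)

theorem dc (hi : q ∈ (A.c i).source) (hu : ContDiffAt ℝ 2 u q) (v : V) :
    fderiv ℝ (fun z => u ((A.c i).symm z)) (A.c i q) (fderiv ℝ (A.c i) q v) = fderiv ℝ u q v := by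
  have e : u =ᶠ[𝓝 q] (fun z => u ((A.c i).symm z)) ∘ A.c i :=
    ((A.c i).eventually_left_inverse hi).mono fun p hp => congrArg u hp.symm
  rw [e.fderiv_eq, fderiv_comp q ((sm hi hu).differentiableAt two_ne_zero)
    ((A.sm i q hi).differentiableAt (by simp))]
  rfl

theorem dI (hi : q ∈ (A.c i).source) {v v' : V} (h : Θ q v' = I • Θ q v) :
    I • fderiv ℝ (A.c i) q v = fderiv ℝ (A.c i) q v' := by
  obtain ⟨L, hL⟩ := A.lin i q hi
  rw [hL, hL, h, map_smul]

theorem td (hi : q ∈ (A.c i).source) : Tendsto (A.c i).symm (𝓝 (A.c i q)) (𝓝 q) :=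
  (A.c i).tendsto_symm hi

end Cal2

open Cal2

/-- **the row CAL2** -/
theorem cal2 [IsScalarTower ℝ ℂ V] [FiniteDimensional ℂ V] (h : A.Cal1) : A.Cal2 := by
  have := FiniteDimensional.complete ℂ V
  have eq : ∀ (u : V → ℝ) (i : A.ι), ∀ q ∈ (A.c i).source, ContDiffAt ℝ 2 u q →
      ∀ v, A.lev u q v = A.lv i u q v := fun u i q hi hu v => by
    obtain ⟨j, hj, e⟩ := ex A (A.sub i hi)
    have l := (A.c i).left_inv hi
    have := Lv.pull (u := fun z => u ((A.c j).symm z))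
      (h.hol i j _ ((A.c i).map_source hi) (l.symm ▸ hj)) (l.symm ▸ sm hj hu)
      (fderiv ℝ (A.c i) q v)
    rw [dc hi ((A.sm j q hj).of_le ENat.LEInfty.out), l] at this
    rw [e, At.lv, At.lv, ← this]
    exact Lv.congr (((td hi).eventually ((A.c j).eventually_left_inverse hj)).mono
      fun z hz => congrArg u hz) _
  refine ⟨eq, fun u w q hq e v => ?_, fun u w q hq hu hw v => ?_,
    fun u φ q hq hu hφ v v' hv => ?_, fun u a q hq hu v => ?_, fun u q hq hu h0 v v' hv => ?_,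
    fun u w q hq hu hw v v' hv => ?_, fun Z q hq hZ v => ?_, fun u q hq hu hm v => ?_,
    fun G _ _ _ _ _ p y u hq hp hu X => ?_⟩ <;> obtain ⟨i, hi, k⟩ := ex A hq <;>
    simp only [k, At.lv] <;> have l := (A.c i).left_inv hi
  · exact Lv.congr ((td hi).eventually e) _
  · exact Lv.add (sm hi hu) (sm hi hw) _
  · rw [Lv.comp (sm hi hu) (l.symm ▸ hφ), dI hi hv, dc hi hu, dc hi hu, l]
  · exact Lv.smul (sm hi hu) _ _
  · rw [Lv.log (sm hi hu) (l.symm ▸ h0), dI hi hv, dc hi hu, dc hi hu, l]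
  · rw [Lv.mul (sm hi hu) (sm hi hw), dI hi hv, dc hi hu, dc hi hu, dc hi hw, dc hi hw, l]
  · obtain ⟨a, s⟩ := h.an ℂ Z i q hi hZ
    exact ⟨by rw [Lv.nsq a, dc hi (s.of_le ENat.LEInfty.out)],
      fun h0 => Lv.log_nsq a (l.symm ▸ h0) _⟩
  · exact Lv.max (sm hi hu)
      (by simpa only [IsLocalMax, IsMaxFilter, l] using (td hi).eventually hm) _
  · obtain ⟨c, a⟩ := (h.hm_iff G p y i hi).1 hp
    have := fderiv_comp y ((A.sm i _ hi).differentiableAt (by simp))
      (hp.self_of_nhds.1.differentiableAt (by simp))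
    rw [← ContinuousLinearMap.comp_apply, ← this]
    refine Eq.trans (Lv.congr ?_ X) (Lv.pull (u := fun z => u ((A.c i).symm z)) a (sm hi hu) X)
    exact (c.eventually ((A.c i).eventually_left_inverse hi)).mono fun z hz => congrArg u hz.symm

end Vale.Agent.P253W.X
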