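import Vale.Agent.P253W.X.Cal1
import Vale.Agent.P281.H124.Mean
import Vale.Agent.P299.H720.Montel

/-!
# P253W, block X, row HORS: one solution for a decreasing sequence of weights
-/

open scoped ContDiff ENNReal Topology
open MeasureTheory Set Metric Filter
open Vale.Agent.P272.K (Cm)

noncomputable section

namespace Vale.Agent.P253W.X

namespace Hors

variable {n : ℕ} {T O : Set (Cm n)} {Θ : Cm n → Cm n →L[ℝ] Cm n} {A : At T Θ} {ν : Cm n → ℝ}

theorem ν_cont (h : A.Den ν) {q : Cm n} (hq : q ∈ T) : ContinuousAt ν q ∧ 0 ≤ ν q := by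
  obtain ⟨i, hi⟩ := A.cover q hq
  obtain ⟨g, h1, h2⟩ := h i
  have h3 := h1 _ ((A.c i).map_source hi)
  refine ⟨ContinuousAt.congr ?_ (mem_of_superset ((A.c i).open_source.mem_nhds hi)
    fun p hp => (h2 p hp).symm), by rw [h2 q hi]; exact mul_nonneg h3.2.1.le (abs_nonneg _)⟩
  exact (h3.1.continuousAt.comp ((A.c i).continuousAt hi)).mul
    (ContinuousLinearMap.continuous_det.continuousAt.comp
      ((A.sm i q hi).continuousAt_fderiv (by simp))).abs

/-- the part of the target which lies over `O` -/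
def U (A : At T Θ) (O : Set (Cm n)) (i : A.ι) : Set (Cm n) := (A.c i).target ∩ (A.c i).symm ⁻¹' O

theorem U_open (hO : IsOpen O) (i : A.ι) : IsOpen (U A O i) :=
  (A.c i).continuousOn_symm.isOpen_inter_preimage (A.c i).open_target hO

theorem dif {s : Cm n → ℂ} (hs : ∀ q ∈ O, CR Θ s q) (i : A.ι) {z : Cm n} (hz : z ∈ U A O i) :
    DifferentiableAt ℂ (fun z => s ((A.c i).symm z)) z := by
  have h := ((cal1 A).cr_iff ℂ s i _ ((A.c i).map_target hz.1)).1 (hs _ hz.2)
  rwa [(A.c i).right_inv hz.1] at h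

/-- an `L²` bound gives local bounds -/
theorem loc_bdd (hO : IsOpen O) (hν : A.Den ν) {ψ : Cm n → ℝ} {s₀ : Cm n → ℂ}
    (hψ : ContinuousOn ψ O) (h0 : ContinuousOn s₀ O) (C₀ : ℝ) (i : A.ι) {z₀ : Cm n}
    (hz : z₀ ∈ U A O i) : ∃ r > 0, ∃ C : ℝ, ball z₀ r ⊆ U A O i ∧
      ∀ s, (∀ q ∈ O, CR Θ s q) → N2 volume O ν ψ (fun q => s q - s₀ q) ≤ ENNReal.ofReal C₀ →
        ∀ y ∈ ball z₀ r, ‖s ((A.c i).symm y)‖ ≤ C := by
  obtain ⟨g, g1, g2⟩ := hν i
  have ht := (U_open hO i).mem_nhds hz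
  have c0 : ContinuousAt (A.c i).symm z₀ := (A.c i).continuousAt_symm hz.1
  have c1 : ContinuousAt (fun z => Real.exp (-ψ ((A.c i).symm z)) * g z) z₀ :=
    ((hψ.continuousAt (hO.mem_nhds hz.2)).comp c0).neg.rexp.mul (g1 z₀ hz.1).1.continuousAt
  have c2 : ContinuousAt (fun z => ‖s₀ ((A.c i).symm z)‖) z₀ :=
    ((h0.continuousAt (hO.mem_nhds hz.2)).comp c0).norm
  obtain ⟨c, hc, hc'⟩ := exists_between (show 0 < Real.exp (-ψ ((A.c i).symm z₀)) * g z₀
    from mul_pos (Real.exp_pos _) (g1 z₀ hz.1).2.1)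
  obtain ⟨b, hb⟩ := exists_gt ‖s₀ ((A.c i).symm z₀)‖
  obtain ⟨ρ, hρ, hB⟩ := Metric.eventually_nhds_iff_ball.1 ((Filter.eventually_mem_set.2 ht).and
    ((continuousAt_const.eventually_lt c1 hc').and (c2.eventually_lt continuousAt_const hb)))
  set R : ℝ≥0∞ := ENNReal.ofReal (2 / c) * ENNReal.ofReal C₀ +
    ENNReal.ofReal (2 * b ^ 2) * volume (ball z₀ ρ) with hR
  have hV : volume (ball (0 : Cm n) (ρ / 2)) ≠ 0 := (measure_ball_pos _ _ (half_pos hρ)).ne'
  have hQ : R / volume (ball (0 : Cm n) (ρ / 2)) ≠ ⊤ :=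
    ENNReal.div_ne_top (by have := @measure_ball_lt_top (Cm n) _ _ _ volume _ z₀ ρ; finiteness) hV
  refine ⟨ρ / 2, half_pos hρ, 1 + (R / volume (ball (0 : Cm n) (ρ / 2))).toReal,
    fun y hy => (hB y (ball_subset_ball (half_le_self hρ.le) hy)).1, fun s hs hl y hy => ?_⟩
  have hsub : ball y (ρ / 2) ⊆ ball z₀ ρ := ball_subset_ball' (by linarith [mem_ball.1 hy])
  set G : Cm n → ℝ≥0∞ := fun w => ENNReal.ofReal
    (‖s ((A.c i).symm w) - s₀ ((A.c i).symm w)‖ ^ 2 * (Real.exp (-ψ ((A.c i).symm w)) * g w))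
    with hG
  have h2 : ∫⁻ w in ball z₀ ρ, G w ≤ ENNReal.ofReal C₀ := by
    have hS : IsOpen ((A.c i).source ∩ A.c i ⁻¹' ball z₀ ρ) :=
      (A.c i).continuousOn.isOpen_inter_preimage (A.c i).open_source isOpen_ball
    have e1 : A.c i '' ((A.c i).source ∩ A.c i ⁻¹' ball z₀ ρ) = ball z₀ ρ := by
      rw [(A.c i).image_source_inter_eq']
      ext w
      refine ⟨fun h => ?_, fun h => ⟨(hB w h).1.1, ?_⟩⟩
      · have := h.2
        rwa [mem_preimage, mem_preimage, (A.c i).right_inv h.1] at this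
      · rwa [mem_preimage, mem_preimage, (A.c i).right_inv (hB w h).1.1]
    rw [← e1, lintegral_image_eq_lintegral_abs_det_fderiv_mul volume hS.measurableSet
      (fun q hq => ((A.sm i q hq.1).differentiableAt (by simp)).hasFDerivAt.hasFDerivWithinAt)
      ((A.c i).injOn.mono inter_subset_left)]
    refine le_trans ?_ hl
    have sub : (A.c i).source ∩ A.c i ⁻¹' ball z₀ ρ ⊆ O := fun q hq => by
      have := (hB _ hq.2).1.2
      rwa [mem_preimage, (A.c i).left_inv hq.1] at this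
    refine le_trans (setLIntegral_mono' hS.measurableSet fun q hq => le_of_eq ?_)
      (lintegral_mono_set sub)
    rw [hG, ← ENNReal.ofReal_mul (abs_nonneg _), g2 q hq.1]
    simp only [(A.c i).left_inv hq.1]
    congr 1
    ring
  have h3 := P281.H124.rpow_mul_volume_le volume (f := fun w => s ((A.c i).symm w)) (z := y)
    (r := ρ / 2) (fun z hz => (dif hs i (hB z (hsub hz)).1).differentiableWithinAt) two_pos
  have h4 : ∫⁻ w in ball z₀ ρ, ‖s ((A.c i).symm w)‖ₑ ^ (2 : ℝ) ≤ R :=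
    calc _ ≤ ∫⁻ w in ball z₀ ρ, (ENNReal.ofReal (2 / c) * G w + ENNReal.ofReal (2 * b ^ 2)) := by
          refine setLIntegral_mono' isOpen_ball.measurableSet fun w hw => ?_
          obtain ⟨-, w2, w3⟩ := hB w hw
          have w4 := (hc.trans w2).le
          rw [hG, ← ENNReal.ofReal_mul (by positivity), ← ENNReal.ofReal_add (by positivity)
              (by positivity), ENNReal.rpow_two, ← ofReal_norm,
            ← ENNReal.ofReal_pow (norm_nonneg _)]
          refine ENNReal.ofReal_le_ofReal ?_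
          have a1 : ‖s ((A.c i).symm w)‖ ≤ ‖s ((A.c i).symm w) - s₀ ((A.c i).symm w)‖ + b :=
            (norm_le_norm_sub_add _ (s₀ ((A.c i).symm w))).trans (by linarith)
          have a2 := pow_le_pow_left₀ (norm_nonneg _) a1 2
          have a3 := mul_le_mul_of_nonneg_left w2.le
            (show 0 ≤ 2 / c * ‖s ((A.c i).symm w) - s₀ ((A.c i).symm w)‖ ^ 2 by positivity)
          rw [mul_right_comm, div_mul_cancel₀ _ hc.ne'] at a3
          nlinarith [sq_nonneg (‖s ((A.c i).symm w) - s₀ ((A.c i).symm w)‖ - b)]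
      _ ≤ R := by
          rw [lintegral_add_right _ measurable_const, setLIntegral_const,
            lintegral_const_mul' _ _ ENNReal.ofReal_ne_top, hR]
          gcongr
  have h5 := (h3.trans (lintegral_mono_set hsub)).trans h4
  rw [Measure.addHaar_ball_center, ← ENNReal.le_div_iff_mul_le (.inl hV)
    (.inl measure_ball_lt_top.ne), ENNReal.rpow_two, ← ofReal_norm,
    ← ENNReal.ofReal_pow (norm_nonneg _), ENNReal.ofReal_le_iff_le_toReal hQ] at h5
  nlinarith [sq_nonneg (‖s ((A.c i).symm y)‖ - 1), norm_nonneg (s ((A.c i).symm y))]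

end Hors

open Hors in
/-- **the row HORS** -/
theorem hors (n : ℕ) (H : HORD (volume : Measure (Cm n))) : HORS (volume : Measure (Cm n)) := by
  intro T Θ A O η ν hν hη ψ Λ s₀ C₀ hD hm
  have hO := hη.op
  have ψc : ∀ k, ContinuousOn (ψ k) O := fun k q hq =>
    ((hD k).ψ_sm q hq).continuousAt.continuousWithinAt
  have sc : ContinuousOn s₀ O := fun q hq => ((hD 0).s_sm q hq).continuousAt.continuousWithinAt
  have νc : ContinuousOn ν O := fun q hq => (ν_cont hν (hη.sub hq)).1.continuousWithinAt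
  choose s sh sl using fun k => H T Θ A O η ν hν hη (ψ k) Λ s₀ C₀ (hD k)
  have anti : ∀ q ∈ O, Antitone fun k => ψ k q := fun q hq =>
    antitone_nat_of_succ_le fun k => hm k q hq
  have sl' : ∀ j k, k ≤ j → N2 volume O ν (ψ k) (fun q => s j q - s₀ q) ≤ ENNReal.ofReal C₀ :=
    fun j k hk => (setLIntegral_mono' hO.measurableSet fun x hx => ENNReal.ofReal_le_ofReal
      (mul_le_mul_of_nonneg_right (mul_le_mul_of_nonneg_left
        (Real.exp_le_exp.2 (neg_le_neg (anti x hx hk))) (sq_nonneg _))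
          (ν_cont hν (hη.sub hx)).2)).trans (sl j)
  have lb : ∀ i, P299.H720.LocBdd (hyperfilter ℕ : Filter ℕ) (fun j z => s j ((A.c i).symm z))
      (U A O i) := fun i z hz => by
    obtain ⟨r, hr, C, h1, h2⟩ := loc_bdd hO hν (ψc 0) sc C₀ i hz
    exact ⟨r, hr, C, .of_forall fun j => ⟨fun y hy =>
      (dif (sh j) i (h1 hy)).differentiableWithinAt, h2 _ (sh j) (sl' j 0 (Nat.zero_le _))⟩⟩
  choose g g1 g2 g3 using fun i => P299.H720.montel_full (hyperfilter ℕ) (U_open hO i) (lb i)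
  set t : Cm n → ℂ := fun x => limUnder (hyperfilter ℕ : Filter ℕ) fun j => s j x with ht
  have tg : ∀ i, ∀ z ∈ U A O i, t ((A.c i).symm z) = g i z := fun i z hz =>
    ((g2 i).tendsto_at hz).limUnder_eq
  have mem : ∀ i, ∀ q ∈ (A.c i).source, q ∈ O → A.c i q ∈ U A O i := fun i q hi hq =>
    ⟨(A.c i).map_source hi, by rwa [mem_preimage, (A.c i).left_inv hi]⟩
  have th : ∀ q ∈ O, CR Θ t q := fun q hq => by
    obtain ⟨i, hi⟩ := A.cover q (hη.sub hq)
    have hU := (U_open hO i).mem_nhds (mem i q hi hq)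
    exact ((cal1 A).cr_iff ℂ t i q hi).2 (((g1 i).differentiableAt hU).congr_of_eventuallyEq
      (mem_of_superset hU fun y hy => tg i y hy))
  have lu : TendstoLocallyUniformlyOn s t (hyperfilter ℕ : Filter ℕ) O := by
    refine (tendstoLocallyUniformlyOn_iUnion (S := fun i => (A.c i).source ∩ O)
      (fun i => (A.c i).open_source.inter hO) fun i => ?_).mono fun x hx => ?_
    · refine (((g2 i).comp (A.c i) (fun q hq => mem i q hq.1 hq.2)
        ((A.c i).continuousOn.mono inter_subset_left)).congr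
        fun j x hx => ?_).congr_right fun x hx => ?_
      · simp only [Function.comp, (A.c i).left_inv hx.1]
      · rw [Function.comp, ← tg i _ (mem i x hx.1 hx.2), (A.c i).left_inv hx.1]
    · obtain ⟨i, hi⟩ := A.cover x (hη.sub hx)
      exact mem_iUnion.2 ⟨i, hi, hx⟩
  have sub : ∀ k : ℕ, ∃ j, k ≤ j ∧ ∀ x ∈ O, η x ≤ k → dist (t x) (s j x) < 1 / ((k : ℝ) + 1) :=
    fun k => by
    have h1 := (tendstoLocallyUniformlyOn_iff_tendstoUniformlyOn_of_compact (hη.cpt k)).1
      (lu.mono fun x hx => hx.1)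
    obtain ⟨j, j1, j2⟩ := (((eventually_ge_atTop k).filter_mono Nat.hyperfilter_le_atTop).and
      (Metric.tendstoUniformlyOn_iff.1 h1 _ Nat.one_div_pos_of_nat)).exists
    exact ⟨j, j1, fun x hx hx' => j2 x ⟨hx, hx'⟩⟩
  choose J J1 J2 using sub
  have t0 := tendsto_one_div_add_atTop_nhds_zero_nat (𝕜 := ℝ)
  refine ⟨t, th, fun k => le_trans ?_ ((lintegral_liminf_le' (μ := volume.restrict O) (u := atTop)
    (f := fun j x => ENNReal.ofReal (‖s (J j) x - s₀ x‖ ^ 2 * Real.exp (-ψ k x) * ν x))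
      fun j => ?_).trans (liminf_le_of_frequently_le' (((eventually_ge_atTop k).mono
        fun j hj => sl' (J j) k (hj.trans (J1 j))).frequently)))⟩
  · refine setLIntegral_mono' hO.measurableSet fun x hx => (Tendsto.liminf_eq ?_).ge
    have h1 : Tendsto (fun k => s (J k) x) atTop (𝓝 (t x)) := by
      rw [tendsto_iff_dist_tendsto_zero]
      refine squeeze_zero' (.of_forall fun _ => dist_nonneg) ?_ t0
      filter_upwards [tendsto_natCast_atTop_atTop.eventually_ge_atTop (η x)] with k hk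
      rw [dist_comm]
      exact (J2 k x hx hk).le
    exact ENNReal.tendsto_ofReal ((((h1.sub_const (s₀ x)).norm.pow 2).mul_const _).mul_const _)
  · have h1 : ContinuousOn (s (J j)) O := fun q hq => (sh _ q hq).1.continuousAt.continuousWithinAt
    exact (ENNReal.continuous_ofReal.comp_continuousOn
      ((((h1.sub sc).norm.pow 2).mul (ψc k).neg.rexp).mul νc)).aemeasurable hO.measurableSet

end Vale.Agent.P253W.X
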