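import Vale.Agent.P253W.X.Hord2A
import Vale.Agent.P253W.X.Hors
import Vale.Agent.P253W.X.Cal2

/-!
# P253W, block X: the row HORD
-/

open scoped ContDiff ENNReal Topology
open MeasureTheory Set Metric Filter
open Vale.Agent.P253.R2.H451 (levi2)
open Vale.Agent.P272.K (Cm)
open Vale.Agent.P253W.Y.Hd (two_le)
open Complex (I)

noncomputable section

namespace Vale.Agent.P253W.X

namespace H2

variable {n : ℕ} {T O : Set (Cm n)} {Θ : Cm n → Cm n →L[ℝ] Cm n} (A : At T Θ) {ν : Cm n → ℝ}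
  (hO : IsOpen O) (x₀ : O)

open Classical in
/-- the charts of the subtype -/
def ch (i : A.ι) : OpenPartialHomeomorph O (Cm n) where
  toFun x := A.c i x
  invFun z := if h : (A.c i).symm z ∈ O then ⟨_, h⟩ else x₀
  source := Subtype.val ⁻¹' (A.c i).source
  target := Hors.U A O i
  map_source' x hx := ⟨(A.c i).map_source hx, by simp [(A.c i).left_inv hx]⟩
  map_target' z hz := by
    rw [dif_pos (c := (A.c i).symm z ∈ O) hz.2]
    exact (A.c i).map_target hz.1
  left_inv' x hx := by simp [(A.c i).left_inv hx]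
  right_inv' z hz := by rw [dif_pos (c := (A.c i).symm z ∈ O) hz.2, (A.c i).right_inv hz.1]
  open_source := (A.c i).open_source.preimage continuous_subtype_val
  open_target := Hors.U_open hO i
  continuousOn_toFun := (A.c i).continuousOn.comp continuous_subtype_val.continuousOn fun _ h => h
  continuousOn_invFun := Topology.IsInducing.subtypeVal.continuousOn_iff.2
    (((A.c i).continuousOn_symm.mono inter_subset_left).congr
      fun z hz => congrArg Subtype.val (dif_pos hz.2))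

variable {A hO x₀} {i : A.ι} {z : Cm n}

theorem ch_symm (hz : z ∈ (ch A hO x₀ i).target) :
    ((ch A hO x₀ i).symm z : Cm n) = (A.c i).symm z := congrArg Subtype.val (dif_pos hz.2)

theorem ch_near {V : Type} (f : Cm n → V) (hz : z ∈ (ch A hO x₀ i).target) :
    (fun y => f ((ch A hO x₀ i).symm y)) =ᶠ[𝓝 z] fun y => f ((A.c i).symm y) :=
  mem_of_superset ((ch A hO x₀ i).open_target.mem_nhds hz) fun _ hy => congrArg f (ch_symm hy)

theorem det_ch {j : A.ι} {q : Cm n} (hi : q ∈ (A.c i).source) (hj : q ∈ (A.c j).source) :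
    |(fderiv ℝ (A.c j) q).det| = ‖(fderiv ℂ (fun z => A.c j ((A.c i).symm z)) (A.c i q)).det‖ ^ 2 *
      |(fderiv ℝ (A.c i) q).det| := by
  have h1 := ((cal1 A).hol i j _ ((A.c i).map_source hi)
    (by rwa [(A.c i).left_inv hi])).differentiableAt
  have e : (A.c j : Cm n → Cm n) =ᶠ[𝓝 q] (fun z => A.c j ((A.c i).symm z)) ∘ A.c i :=
    ((A.c i).eventually_left_inverse hi).mono fun p hp => congrArg (A.c j) hp.symm
  rw [e.fderiv_eq, fderiv_comp q (h1.restrictScalars ℝ) (C1.d1 A hi), h1.fderiv_restrictScalars ℝ]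
  refine (congrArg abs (LinearMap.det_comp _ _)).trans ?_
  rw [abs_mul]
  congr 1
  refine (congrArg abs (LinearMap.det_restrictScalars (R := ℝ) (f := (fderiv ℂ
    (fun z => A.c j ((A.c i).symm z)) (A.c i q) : Cm n →ₗ[ℂ] Cm n)))).trans ?_
  rw [Algebra.norm_complex_apply, Complex.normSq_eq_norm_sq, abs_sq]

theorem det_ne {q : Cm n} (hi : q ∈ (A.c i).source) : (fderiv ℝ (A.c i) q).det ≠ 0 := by
  have h := congrArg LinearMap.det (show (fderiv ℝ (A.c i).symm (A.c i q) : Cm n →ₗ[ℝ] Cm n) ∘ₗ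
    (fderiv ℝ (A.c i) q : Cm n →ₗ[ℝ] Cm n) = LinearMap.id from LinearMap.ext (C1.left A hi))
  rw [LinearMap.det_comp, LinearMap.det_id] at h
  exact right_ne_zero_of_mul_eq_one h

theorem lint' (hν : A.Den ν) (hO : IsOpen O) (hT : O ⊆ T) (F : Cm n → ℝ≥0∞) :
    ∫⁻ x : O, F x ∂((volume.comap Subtype.val).withDensity fun x : O => ENNReal.ofReal (ν x)) =
      ∫⁻ q in O, ENNReal.ofReal (ν q) * F q := by
  have h : Continuous fun x : O => ν x := continuous_iff_continuousAt.2 fun x =>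
    (Hors.ν_cont hν (hT x.2)).1.comp continuous_subtype_val.continuousAt
  rw [lintegral_withDensity_eq_lintegral_mul_non_measurable _ h.measurable.ennreal_ofReal
    (Eventually.of_forall fun _ => ENNReal.ofReal_lt_top)]
  exact lintegral_subtype_comap hO.measurableSet fun q => ENNReal.ofReal (ν q) * F q

variable (hO x₀) in
/-- the atlas of the subtype -/
def ag (hν : A.Den ν) (hT : O ⊆ T) : Ag n O where
  I := A.ι
  e := ch A hO x₀
  g i := (hν i).choose
  ν := (volume.comap Subtype.val).withDensity fun x : O => ENNReal.ofReal (ν x)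
  cover x := A.cover x (hT x.2)
  hol i j z hz h := ((cal1 A).hol i j z hz.1 (ch_symm hz ▸ h)).congr (ch_near (A.c j) hz).symm
  gs i z hz := ⟨((hν i).choose_spec.1 z hz.1).1, ((hν i).choose_spec.1 z hz.1).2.1⟩
  ch i j x hi hj := by
    have h1 := (hν i).choose_spec.2 x hi
    have h2 := (ch_near (A.c j) ((ch A hO x₀ i).map_source hi)).fderiv_eq (𝕜 := ℂ)
    rw [(hν j).choose_spec.2 x hj, det_ch hi hj, ← mul_assoc, mul_left_inj'
      (abs_ne_zero.2 (det_ne hi))] at h1
    refine h1.symm.trans ((mul_comm _ _).trans ?_)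
    exact congrArg (fun L : Cm n →L[ℂ] Cm n => ‖L.det‖ ^ 2 * _) h2.symm
  hν i f _ h0 := by
    have e : ∀ x : O, Function.extend Subtype.val f 0 x = f x :=
      Subtype.val_injective.extend_apply f 0
    have hm : MeasurableSet ((A.c i).source ∩ O) := ((A.c i).open_source.inter hO).measurableSet
    have e1 : (ch A hO x₀ i).target = A.c i '' ((A.c i).source ∩ O) :=
      ((A.c i).image_source_inter_eq' O).symm
    rw [← lintegral_congr e, lint' hν hO hT, e1, lintegral_image_eq_lintegral_abs_det_fderiv_mul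
      volume hm (fun q hq => (C1.d1 A hq.1).hasFDerivAt.hasFDerivWithinAt)
      ((A.c i).injOn.mono inter_subset_left), ← lintegral_indicator hm,
      ← lintegral_indicator hO.measurableSet]
    refine lintegral_congr fun q => ?_
    by_cases hq : q ∈ O
    swap
    · rw [indicator_of_notMem hq, indicator_of_notMem fun h => hq h.2]
    rw [indicator_of_mem hq, e ⟨q, hq⟩]
    by_cases hi : q ∈ (A.c i).source
    · have e2 : (ch A hO x₀ i).symm (A.c i q) = ⟨q, hq⟩ :=
        (ch A hO x₀ i).left_inv (x := ⟨q, hq⟩) hi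
      rw [indicator_of_mem (s := _ ∩ O) ⟨hi, hq⟩, e2, (hν i).choose_spec.2 q hi,
        ENNReal.ofReal_mul' (abs_nonneg _)]
      ring
    · rw [indicator_of_notMem fun h => hi h.1, h0 ⟨q, hq⟩ hi, mul_zero]

variable {hν : A.Den ν} {hT : O ⊆ T}

theorem ag_sm {V : Type} [NormedAddCommGroup V] [NormedSpace ℝ V] {f : Cm n → V}
    (h : ∀ q ∈ O, ContDiffAt ℝ ∞ f q) : (ag hO x₀ hν hT).Sm fun x => f x := fun i z hz =>
  ((h _ hz.2).comp z (A.sm' i z hz.1)).congr_of_eventuallyEq (ch_near (hO := hO) f hz)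

theorem ag_fd {V : Type} [NormedAddCommGroup V] [NormedSpace ℝ V] {f : Cm n → V}
    (h : ∀ q ∈ O, ContDiffAt ℝ ∞ f q) (hz : z ∈ (ch A hO x₀ i).target) (v : Cm n) :
    fderiv ℝ ((ag hO x₀ hν hT).c (fun x => f x) i) z v =
      fderiv ℝ f ((A.c i).symm z) (fderiv ℝ (A.c i).symm z v) :=
  DFunLike.congr_fun ((ch_near f hz).fderiv_eq.trans (fderiv_comp z
    ((h _ hz.2).differentiableAt (by simp)) ((A.sm' i z hz.1).differentiableAt (by simp)))) v

theorem right' (hz : z ∈ (A.c i).target) (v : Cm n) :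
    fderiv ℝ (A.c i) ((A.c i).symm z) (fderiv ℝ (A.c i).symm z v) = v := by
  have h := C1.right A ((A.c i).map_target hz) v
  rwa [(A.c i).right_inv hz] at h

theorem ag_lv {f : Cm n → ℝ} (h : ∀ q ∈ O, ContDiffAt ℝ ∞ f q) (hz : z ∈ (ch A hO x₀ i).target)
    (v : Cm n) : lv2 ((ag hO x₀ hν hT).c (fun x => f x) i) z v =
      A.lev f ((A.c i).symm z) (fderiv ℝ (A.c i).symm z v) := by
  rw [(cal2 A (cal1 A)).eq f i _ ((A.c i).map_target hz.1) ((h _ hz.2).of_le two_le), At.lv,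
    right' hz.1, (A.c i).right_inv hz.1]
  exact Lv.congr (ch_near f hz) v

theorem ag_wt {f : Cm n → ℝ} (h : ∀ q ∈ O, ContDiffAt ℝ ∞ f q) (hz : z ∈ (ch A hO x₀ i).target)
    (v : Cm n) : A.lev f ((A.c i).symm z) (fderiv ℝ (A.c i).symm z v) ≤
      levi2 ((ag hO x₀ hν hT).wt (fun x => f x) i) z v := by
  have h1 := (hν i).choose_spec.1 z hz.1
  have h2 := Lv.add ((wt_sm (ag_sm (hO := hO) (x₀ := x₀) (hν := hν) (hT := hT) h) i z hz).of_le
    two_le) ((h1.1.log h1.2.1.ne').of_le two_le) v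
  have h3 : lv2 ((ag hO x₀ hν hT).c (fun x => f x) i) z v = _ :=
    (congrArg (fun u => lv2 u z v) (funext fun y => (sub_add_cancel _ _).symm)).trans h2
  rw [← ag_lv (hν := hν) (hT := hT) h hz, h3]
  exact add_le_of_nonpos_right (h1.2.2 v)

theorem ag_l2 (ψ : Cm n → ℝ) (s : Cm n → ℂ) :
    (ag hO x₀ hν hT).L2 (fun x => s x) (fun x => ψ x) = N2 volume O ν ψ s :=
  (lint' hν hO hT fun q => ENNReal.ofReal (‖s q‖ ^ 2 * Real.exp (-ψ q))).trans
    (setLIntegral_congr_fun hO.measurableSet fun q hq => by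
      simp only [← ENNReal.ofReal_mul (Hors.ν_cont hν (hT hq)).2, mul_comm (ν q)])

end H2

open H2 in
/-- **the row HORD** -/
theorem hord2 {n : ℕ} (hn : 1 ≤ n) : HORD (volume : Measure (Cm n)) := by
  obtain ⟨r, rfl⟩ := Nat.exists_eq_add_of_le' hn
  intro T Θ A O η ν hν hE ψ Λ s₀ C₀ H
  rcases O.eq_empty_or_nonempty with rfl | ⟨x₀, hx₀⟩
  · exact ⟨s₀, fun _ h => h.elim, by simp [N2]⟩
  have hη := ag_sm (hO := hE.op) (x₀ := ⟨x₀, hx₀⟩) (hν := hν) (hT := hE.sub) hE.sm
  obtain ⟨s, a1, a2⟩ := hord_ag (ag hE.op ⟨x₀, hx₀⟩ hν hE.sub) (ψ := fun x => Real.exp (η x))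
    (η := fun x => Real.exp (η x / 2)) (φ := fun x => ψ x) (Λ := fun x => Λ x)
    (s₀ := fun x => s₀ x) (C₀ := C₀) (fun i z hz => (hη i z hz).exp)
    (fun i z hz => ((hη i z hz).div_const 2).exp) (fun _ => (Real.exp_pos _).le)
    (fun a => by
      rcases le_or_gt a 0 with h | h
      · convert isCompact_empty
        exact eq_empty_of_forall_notMem fun x hx => (h.trans_lt (Real.exp_pos _)).not_ge hx
      simp only [← Real.le_log_iff_exp_le h, div_le_iff₀ (two_pos (α := ℝ))]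
      have e : Subtype.val '' {x : O | η x ≤ Real.log a * 2} =
          {q | q ∈ O ∧ η q ≤ Real.log a * 2} := Set.ext fun x =>
        ⟨fun ⟨y, h1, h2⟩ => h2 ▸ ⟨y.2, h1⟩, fun h => ⟨⟨x, h.1⟩, h.2, rfl⟩⟩
      exact Subtype.isCompact_iff.2 (e ▸ hE.cpt _))
    (fun i z hz v hv => by
      have h1 := (hη i z hz).of_le two_le
      have h2 := Lv.comp h1 (φ := Real.exp) Real.contDiff_exp.contDiffAt v
      have h3 := hE.pos _ hz.2 (fderiv ℝ (A.c i).symm z v) fun h => hv (by
        rw [← right' hz.1 v, h, map_zero])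
      have h4 := DFunLike.congr_fun ((Lv.hd1 h1).mul_const (2⁻¹ : ℝ)).exp.fderiv v
      rw [Real.deriv_exp, Real.deriv_exp, ag_lv hE.sm hz] at h2
      change 0 < lv2 (fun y => Real.exp _) z v ∧
        fderiv ℝ (fun y => Real.exp (_ / 2)) z v ^ 2 ≤ lv2 (fun y => Real.exp _) z v
      simp only [div_eq_mul_inv]
      erw [h2, h4]
      set a := (ag hE.op ⟨x₀, hx₀⟩ hν hE.sub).c (fun x => η x) i z
      have h5 : Real.exp (a * 2⁻¹) ^ 2 = Real.exp a := by
        rw [← Real.exp_nat_mul]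
        congr 1
        push_cast
        ring
      have h6 := Real.exp_pos a
      refine ⟨by positivity, ?_⟩
      simp only [smul_apply, smul_eq_mul, mul_pow, h5]
      nlinarith [mul_pos h6 h3, mul_nonneg h6.le (sq_nonneg
        (fderiv ℝ ((ag hE.op ⟨x₀, hx₀⟩ hν hE.sub).c (fun x => η x) i) z v)),
        mul_nonneg h6.le (sq_nonneg
        (fderiv ℝ ((ag hE.op ⟨x₀, hx₀⟩ hν hE.sub).c (fun x => η x) i) z (I • v)))])
    (ag_sm H.ψ_sm) (fun i z hz v => (H.ψ_pos _ hz.2 _).trans (ag_wt H.ψ_sm hz v)) (ag_sm H.s_sm)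
    (fun x => H.Λ_pos x x.2) H.C_pos (fun i z hz v => by
      rw [ag_fd H.s_sm hz, ag_fd H.s_sm hz]
      refine (H.db _ hz.2 _ _ ((C1.key A ((A.c i).map_target hz.1)).2 ?_)).trans ?_
      · rw [right' hz.1, right' hz.1]
      · exact (mul_le_mul_of_nonneg_left (ag_wt H.ψ_sm hz v) (H.Λ_pos _ hz.2)).trans_eq
          (congrArg (fun x => Λ x * _) (ch_symm (hO := hE.op) hz).symm))
    (((lint' hν hE.op hE.sub fun q => ENNReal.ofReal (Λ q * Real.exp (-ψ q))).trans
      (setLIntegral_congr_fun hE.op.measurableSet fun q hq => by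
        simp only [← ENNReal.ofReal_mul (Hors.ν_cont hν (hE.sub hq)).2, mul_comm (ν q)])).trans_le
      H.le) ((ag_l2 ψ s₀).trans_lt H.fin)
  obtain ⟨s', rfl⟩ : ∃ s' : Cm (r + 1) → ℂ, s = fun x : O => s' x :=
    ⟨Function.extend Subtype.val s 0, funext fun x =>
      (Subtype.val_injective.extend_apply s 0 x).symm⟩
  refine ⟨s', fun q hq => ?_, (ag_l2 ψ fun q => s' q - s₀ q).symm.trans_le a2⟩
  obtain ⟨i, hi⟩ := A.cover q (hE.sub hq)
  have hz := (H2.ch A hE.op ⟨x₀, hx₀⟩ i).map_source (x := ⟨q, hq⟩) hi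
  exact ((cal1 A).cr_iff ℂ s' i q hi).2 ((a1 i _ hz).congr (ch_near s' hz)).differentiableAt

end Vale.Agent.P253W.X
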