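import Vale.Agent.P253W.X.CntA
import Vale.Agent.P284.H977.K.K4

/-!
# P253W, block X, row CNT: the number of nondegenerate zeros
-/

open scoped ContDiff Topology ComplexConjugate ComplexOrder Matrix
open Set Metric Filter MeasureTheory Vale.Agent.P253Z
open Vale.Agent.P272.K (Cm dz dzb cHess)
open Vale.Agent.P272.K.C2 Vale.Agent.P253W.V.Alg

noncomputable section

namespace Vale.Agent.P253W.X

namespace Cnt

variable {n : ℕ} {G : Cm n → Cm n} {p : Cm n} {E κ ρ : ℝ}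

theorem one_le_N (hE : 1 ≤ E) : (1 : ℝ) ≤ n.factorial * (8 * E) ^ n :=
  one_le_mul_of_one_le_of_one_le (Nat.one_le_cast.2 n.factorial_pos) (one_le_pow₀ (by linarith))

/-- estimates near a zero -/
theorem loc (hG : DifferentiableOn ℂ G (ball 0 1)) (hE : ∀ y ∈ ball (0 : Cm n) 1, ‖G y‖ ≤ E)
    (h1 : 1 ≤ E) (hκ : (n + 1) * (n.factorial * (8 * E) ^ n) * E ≤ κ) (hρ : 128 * E * κ * ρ = 1)
    (hρ' : ρ ≤ 1 / 4) (hp : p ∈ ball (0 : Cm n) (1 / 2)) (h0 : G p = 0)
    (hd : E⁻¹ ≤ ‖(fderiv ℂ G p).det‖) :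
    (∀ v, ‖v‖ ≤ κ * ‖fderiv ℂ G p v‖) ∧
    (∀ z ∈ ball p (2 * ρ), ‖G z - fderiv ℂ G p (z - p)‖ ≤ ‖fderiv ℂ G p (z - p)‖ / 2) ∧
    ∀ z ∈ ball p ρ, ‖(fderiv ℂ G p).det‖ / 2 ≤ ‖(jc G z).det‖ := by
  have hN := one_le_N (n := n) h1
  have hn : (0 : ℝ) ≤ n := n.cast_nonneg
  have hE0 : 0 < E := by linarith
  have h2 : ∀ v, ‖v‖ ≤ κ * ‖fderiv ℂ G p v‖ := fun v => by
    have h3 := inv_le (by linarith) (jc_le hG hE (ball_subset_ball (by norm_num) hp)) v
    rw [jc_det, jc_mulVec] at h3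
    have h4 := (mul_le_mul_of_nonneg_right hd (norm_nonneg v)).trans h3
    rw [inv_mul_le_iff₀ hE0, ← mul_assoc] at h4
    exact h4.trans (mul_le_mul_of_nonneg_right (by nlinarith) (norm_nonneg _))
  refine ⟨h2, fun z hz => ?_, fun z hz => ?_⟩
  · refine (rem_le hG hE hp h0 (ball_subset_ball (by linarith) hz)).trans ?_
    have h3 := mul_le_mul (mem_ball_iff_norm.1 hz).le (h2 (z - p)) (norm_nonneg _)
      ((norm_nonneg _).trans (mem_ball_iff_norm.1 hz).le)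
    calc _ ≤ 4 * (8 * E) * (2 * ρ * (κ * ‖fderiv ℂ G p (z - p)‖)) := by
          rw [sq]
          exact mul_le_mul_of_nonneg_left h3 (by positivity)
      _ = 128 * E * κ * ρ * (‖fderiv ℂ G p (z - p)‖ / 2) := by ring
      _ = _ := by rw [hρ, one_mul]
  · have h3 := det_near hG hE hp (ball_subset_ball hρ' hz)
    have h4 := norm_sub_norm_le (jc G p).det (jc G z).det
    rw [norm_sub_rev, jc_det G p] at h4
    rw [jc_det G p] at h3
    have h5 : n.factorial * (8 * E) ^ n ≤ κ :=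
      le_trans (by nlinarith [mul_nonneg hn (zero_le_one.trans hN)]) hκ
    have h6 := mul_le_mul h5 (mem_ball_iff_norm.1 hz).le (norm_nonneg _) (by linarith)
    have h7 : κ * ρ = E⁻¹ / 128 := by
      field_simp
      linarith
    have h8 := inv_pos.2 hE0
    linarith

theorem vol_ell (T : Cm n →L[ℂ] Cm n) (hT : T.det ≠ 0) (p : Cm n) {d : ℝ} (hd : 0 < d) :
    volume {y | ‖T (y - p)‖ < d} =
      ENNReal.ofReal ((‖T.det‖ ^ 2)⁻¹ * d ^ (2 * n)) * volume (ball (0 : Cm n) 1) := by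
  have h1 : LinearMap.det ((T.restrictScalars ℝ : Cm n →L[ℝ] Cm n) : Cm n →ₗ[ℝ] Cm n) =
      ‖T.det‖ ^ 2 := by
    rw [← Complex.normSq_eq_norm_sq, ← Algebra.norm_complex_apply]
    exact LinearMap.det_restrictScalars (f := (T : Cm n →ₗ[ℂ] Cm n))
  have h2 : {y | ‖T (y - p)‖ < d} =
      (fun y => y + -p) ⁻¹' ((T.restrictScalars ℝ) ⁻¹' ball 0 d) := by
    ext y
    simp [sub_eq_add_neg]
  have h3 := pow_pos (norm_pos_iff.2 hT) 2
  rw [h2, measure_preimage_add_right, Measure.addHaar_preimage_continuousLinearMap _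
    (h1 ▸ h3.ne'), h1, Measure.addHaar_ball_of_pos _ _ hd, ← mul_assoc, abs_of_pos (inv_pos.2 h3),
    ← ENNReal.ofReal_mul (inv_pos.2 h3).le]
  simp [Module.finrank_pi_fintype, mul_comm]

end Cnt

open Cnt in
theorem cnt (n : ℕ) : CNT n := by
  obtain ⟨B, hB, hK⟩ := P284.H977.K.k4Stmt n 0 (3 / 4) 1 (by norm_num) (by norm_num) (fun _ => 1)
    ⟨isOpen_ball, fun _ _ _ _ => contDiffAt_const, fun _ _ => Matrix.PosDef.one,
      fun _ _ _ _ _ => by rw [dz_const, dz_const]⟩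
  obtain ⟨c₀, hc₀⟩ : ∃ c₀ : ℝ, c₀ = (n + 1) * (n.factorial * 8 ^ n) := ⟨_, rfl⟩
  have hc₁ : 1 ≤ c₀ := hc₀ ▸ one_le_mul_of_one_le_of_one_le (by simp)
    (by simpa using one_le_N (n := n) le_rfl)
  obtain ⟨c, hc⟩ : ∃ c : ℝ, c = n + 2 + 2 * (128 * c₀ ^ 2 + (2 * n + 3)) := ⟨_, rfl⟩
  have hV : 0 < volume.real (ball (0 : Cm n) 1) :=
    ENNReal.toReal_pos (measure_ball_pos _ _ one_pos).ne' measure_ball_lt_top.ne
  obtain ⟨μ₀, hμ⟩ : ∃ μ₀ : ℝ,
      μ₀ = (((4 * n + 1 : ℝ) ^ 2)⁻¹) ^ n / 4 * volume.real (ball (0 : Cm n) 1) := ⟨_, rfl⟩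
  have hμ0 : 0 < μ₀ := by rw [hμ]; positivity
  refine ⟨B * c ^ n / μ₀, fun G L S hL hG hb hS => ?_⟩
  have hn : (0 : ℝ) ≤ n := n.cast_nonneg
  obtain ⟨E, hE⟩ : ∃ E, E = Real.exp L := ⟨_, rfl⟩
  have h1 : 1 ≤ E := hE ▸ Real.one_le_exp (by linarith)
  simp only [Real.exp_neg, ← hE] at hb hS
  obtain ⟨κ, hκ⟩ : ∃ κ : ℝ, κ = c₀ * E ^ (n + 1) := ⟨_, rfl⟩
  have hκ1 : 1 ≤ κ := hκ ▸ one_le_mul_of_one_le_of_one_le hc₁ (one_le_pow₀ h1)
  obtain ⟨ρ, hρ⟩ : ∃ ρ : ℝ, ρ = (128 * E * κ)⁻¹ := ⟨_, rfl⟩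
  have hρ0 : 0 < ρ := by rw [hρ]; positivity
  have hρ1 : 128 * E * κ * ρ = 1 := by rw [hρ]; exact mul_inv_cancel₀ (by positivity)
  have hρ2 : ρ ≤ 1 / 4 := by nlinarith [one_le_mul_of_one_le_of_one_le h1 hκ1]
  obtain ⟨d, hd⟩ : ∃ d : ℝ, d = ρ / κ := ⟨_, rfl⟩
  have hd0 : 0 < d := by rw [hd]; positivity
  have hd1 : κ * d = ρ := by rw [hd]; field_simp
  have hd2 : d ^ 2 ≤ 1 := by nlinarith
  have hd3 : -(128 * c₀ ^ 2 + (2 * n + 3)) * L ≤ Real.log d := by
    have : d = (128 * c₀ ^ 2 * E ^ (2 * n + 3))⁻¹ := by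
      rw [hd, hρ, hκ]
      field_simp
      ring
    rw [this, Real.log_inv, Real.log_mul (by positivity) (by positivity), Real.log_pow, hE,
      Real.log_exp]
    have h2 := Real.log_le_self (show 0 ≤ 128 * c₀ ^ 2 by positivity)
    push_cast
    nlinarith [sq_nonneg c₀]
  have hl := fun p hp => loc hG hb h1 (κ := κ) (by rw [hκ, hc₀, mul_pow]; exact le_of_eq (by ring))
    hρ1 hρ2 (hS p hp).1 (hS p hp).2.1 (hS p hp).2.2
  have an : ∀ z ∈ ball (0 : Cm n) 1, AnalyticAt ℂ G z := fun z hz =>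
    P268.analyticAt_of_differentiableOn isOpen_ball hG hz
  have pos : ∀ z, 0 < en (G z) + d ^ 2 := fun z =>
    add_pos_of_nonneg_of_pos (en_nonneg _) (pow_pos hd0 2)
  obtain ⟨φ, hφ⟩ : ∃ φ : Cm n → ℝ, φ = fun y => Real.log (en (G y) + d ^ 2) - (n + 2) * L :=
    ⟨_, rfl⟩
  have sm : ∀ z ∈ ball (0 : Cm n) 1, ContDiffAt ℝ ∞ φ z := fun z hz =>
    hφ ▸ ((u_sm (an z hz) _).log (pos z).ne').sub contDiffAt_const
  have psd : ∀ z : Cm n,
      (((d ^ 2 / (en (G z) + d ^ 2) ^ 2 : ℝ) : ℂ) • pb (jc G z) 1).PosSemidef := fun z =>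
    (pb_psd _ Matrix.PosSemidef.one).smul (Complex.zero_le_real.2 (by positivity))
  have ge : ∀ z ∈ ball (0 : Cm n) 1, (cHess φ z -
      ((d ^ 2 / (en (G z) + d ^ 2) ^ 2 : ℝ) : ℂ) • pb (jc G z) 1).PosSemidef := fun z hz =>
    hφ ▸ hess_ge (an z hz) (pow_pos hd0 2) _
  have pd : ∀ z ∈ ball (0 : Cm n) 1, (1 + cHess φ z).PosDef := fun z hz =>
    Matrix.PosDef.one.add_posSemidef (by simpa using (ge z hz).add (psd z))
  have main := hK (c * L) (by nlinarith [sq_nonneg c₀]) φ sm (fun z hz => by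
    have h2 : Real.log (d ^ 2) ≤ Real.log (en (G z) + d ^ 2) :=
      Real.log_le_log (pow_pos hd0 2) (le_add_of_nonneg_left (en_nonneg _))
    have h3 : Real.log (en (G z) + d ^ 2) ≤ (n + 2) * L := by
      rw [Real.log_le_iff_le_exp (pos z), add_mul, Real.exp_add]
      have h4 := Real.add_one_le_exp (n * L)
      have h5 : Real.exp (2 * L) = E ^ 2 := by rw [hE, ← Real.exp_nat_mul, Nat.cast_ofNat]
      have h6 : 1 ≤ E ^ 2 := one_le_pow₀ h1
      rw [h5]
      nlinarith [en_le (hb z hz), mul_le_mul_of_nonneg_left hL hn]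
    rw [Real.log_pow] at h2
    rw [hφ, hc]
    push_cast at h2
    constructor <;> nlinarith) pd
  have int : IntegrableOn (fun z => (1 + cHess φ z).det.re) (ball 0 (3 / 4)) := by
    refine (ContinuousOn.integrableOn_compact (isCompact_closedBall 0 (3 / 4))
      fun z hz => ContinuousAt.continuousWithinAt ?_).mono_set ball_subset_closedBall
    refine Complex.continuous_re.continuousAt.comp
      ((continuous_id.matrix_det.continuousAt (x := 1 + cHess φ z)).comp (f := fun y => 1 + cHess φ y)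
        (continuousAt_const.add (continuousAt_pi.2 fun i => continuousAt_pi.2 fun j => ?_)))
    exact (contDiffAt_cHess (m := 0) (sm z (closedBall_subset_ball (by norm_num) hz))
      (by norm_cast) i j).continuousAt
  have sub : ∀ p ∈ S, {y | ‖fderiv ℂ G p (y - p)‖ < d} ⊆ ball p ρ := fun p hp y hy =>
    mem_ball_iff_norm.2 (((hl p hp).1 _).trans_lt (hd1 ▸ mul_lt_mul_of_pos_left hy (by linarith)))
  have sub' : ∀ p ∈ S, {y | ‖fderiv ℂ G p (y - p)‖ < d} ⊆ ball 0 (3 / 4) := fun p hp =>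
    (sub p hp).trans (ball_subset_ball' (by linarith [mem_ball.1 (hS p hp).1]))
  have meas : ∀ p ∈ S, MeasurableSet {y | ‖fderiv ℂ G p (y - p)‖ < d} := fun p _ =>
    (isOpen_lt (by fun_prop) continuous_const).measurableSet
  have mass : ∀ p ∈ S, μ₀ ≤ ∫ z in {y | ‖fderiv ℂ G p (y - p)‖ < d}, (1 + cHess φ z).det.re := by
    intro p hp
    have h2 : 0 < ‖(fderiv ℂ G p).det‖ := (inv_pos.2 (by linarith)).trans_le (hS p hp).2.2
    refine le_trans (le_of_eq ?_) (setIntegral_ge_of_const_le_real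
      (c := (((4 * n + 1) ^ 2 * d ^ 2)⁻¹) ^ n * (‖(fderiv ℂ G p).det‖ / 2) ^ 2) (meas p hp)
      ((measure_mono (sub p hp)).trans_lt measure_ball_lt_top).ne (fun z hz => ?_)
      (int.mono_set (sub' p hp)))
    · rw [measureReal_def, vol_ell _ (norm_pos_iff.1 h2) p hd0, ENNReal.toReal_mul,
        ENNReal.toReal_ofReal (by positivity), hμ, measureReal_def, mul_inv, mul_pow, pow_mul,
        inv_pow (d ^ 2)]
      field_simp
      ring
    · have hz1 : z ∈ ball (0 : Cm n) 1 := ball_subset_ball (by norm_num) (sub' p hp hz)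
      have h3 := (hl p hp).2.2 z (sub p hp hz)
      have h4 : ‖G z‖ ≤ 2 * d := by
        have h5 := (hl p hp).2.1 z (ball_subset_ball (by linarith) (sub p hp hz))
        have h6 := norm_le_norm_add_norm_sub' (G z) (fderiv ℂ G p (z - p))
        have h7 : ‖fderiv ℂ G p (z - p)‖ < d := hz
        linarith
      have h5 : ((4 * n + 1) ^ 2 * d ^ 2)⁻¹ ≤ d ^ 2 / (en (G z) + d ^ 2) ^ 2 := by
        rw [inv_eq_one_div, div_le_div_iff₀ (by positivity) (pow_pos (pos z) 2), one_mul]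
        refine (pow_le_pow_left₀ (pos z).le (add_le_add (en_le h4) le_rfl) 2).trans_eq (by ring)
      have h6 : (((d ^ 2 / (en (G z) + d ^ 2) ^ 2 : ℝ) : ℂ) • pb (jc G z) 1).det.re =
          (d ^ 2 / (en (G z) + d ^ 2) ^ 2) ^ n * ‖(jc G z).det‖ ^ 2 := by
        rw [P284.H977.K.det_smul_re, det_pb_re, Matrix.det_one, Complex.one_re, mul_one]
      have h7 := mul_le_mul (pow_le_pow_left₀ (by positivity) h5 n)
        (pow_le_pow_left₀ (by positivity) h3 2) (by positivity) (by positivity)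
      rw [← h6] at h7
      refine h7.trans (P284.H977.K.det_re_le ((psd z).posDef_iff_det_ne_zero.2 fun h => ?_) ?_)
      · rw [h, Complex.zero_re] at h7
        exact absurd h7 (not_le.2 (by positivity))
      · rw [add_sub_assoc]
        exact Matrix.PosSemidef.one.add (ge z hz1)
  have disj : (S : Set (Cm n)).Pairwise
      (Function.onFun Disjoint fun p => {y | ‖fderiv ℂ G p (y - p)‖ < d}) := by
    intro p hp q hq hpq
    refine (ball_disjoint_ball (not_lt.1 fun h => hpq ?_)).mono (sub p hp) (sub q hq)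
    have h2 := (hl p hp).2.1 q (mem_ball'.2 (by linarith))
    rw [(hS q hq).2.1, zero_sub, norm_neg] at h2
    have h3 := (hl p hp).1 (q - p)
    rw [show ‖fderiv ℂ G p (q - p)‖ = 0 by linarith [norm_nonneg (fderiv ℂ G p (q - p))],
      mul_zero, norm_le_zero_iff, sub_eq_zero] at h3
    exact h3.symm
  have h2 := setIntegral_mono_set int ((ae_restrict_mem measurableSet_ball).mono fun z hz =>
    (det_pos (pd z (ball_subset_ball (by norm_num) hz))).le)
    (iUnion₂_subset sub').eventuallyLE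
  rw [integral_biUnion_finset S meas disj fun p hp => int.mono_set (sub' p hp)] at h2
  have h3 := (Finset.card_nsmul_le_sum S _ μ₀ mass).trans (h2.trans main)
  rw [nsmul_eq_mul, mul_pow] at h3
  rw [div_mul_eq_mul_div, le_div_iff₀ hμ0]
  linarith

end Vale.Agent.P253W.X
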