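import Vale.Agent.P253W.X.Defs

/-!
# P253W, row X.INJ: injectivity on a ball whose radius is inverse proportional to the multiplicity
-/

open scoped Topology
open Set Metric Filter
open Vale.Agent.P272.K (Cm)

set_option linter.unusedSectionVars false

noncomputable section

namespace Vale.Agent.P253W.X

namespace Inj

variable {n : ℕ} {Y : Type} [MetricSpace Y] {Ψ : Cm n → Y} {l L a : ℝ}

theorem sq_le_en (y : Cm n) : ‖y‖ ^ 2 ≤ en y := by
  have h0 : 0 ≤ en y := Finset.sum_nonneg fun _ _ => sq_nonneg _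
  rw [← Real.le_sqrt (norm_nonneg _) h0, pi_norm_le_iff_of_nonneg (Real.sqrt_nonneg _)]
  exact fun i => Real.le_sqrt_of_sq_le
    (Finset.single_le_sum (f := fun i => ‖y i‖ ^ 2) (fun _ _ => sq_nonneg _) (Finset.mem_univ i))

theorem en_le (y : Cm n) : en y ≤ n * ‖y‖ ^ 2 := by
  simpa [en] using Finset.sum_le_card_nsmul Finset.univ (fun i => ‖y i‖ ^ 2) (‖y‖ ^ 2)
    fun i _ => pow_le_pow_left₀ (norm_nonneg _) (norm_le_pi_norm y i) 2

theorem en_mid (u v z : Cm n) :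
    2 * en z + ‖u - v‖ ^ 2 / 2 - 2 * n * (‖z‖ * ‖u + v - 2 • z‖) ≤ en u + en v := by
  have h : ∀ i, 2 * ‖z i‖ ^ 2 + ‖(u - v) i‖ ^ 2 / 2 - 2 * (‖z‖ * ‖u + v - 2 • z‖) ≤
      ‖u i‖ ^ 2 + ‖v i‖ ^ 2 := fun i => by
    have h1 := parallelogram_law_with_norm ℝ (u i) (v i)
    have h2 := norm_le_pi_norm (u + v - 2 • z) i
    have h3 := norm_le_pi_norm z i
    have h4 : ‖2 * z i‖ ≤ ‖u i + v i‖ + ‖(u + v - 2 • z) i‖ := by
      refine le_trans (le_of_eq ?_) (norm_sub_le _ _)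
      congr 1
      simp
    rw [norm_mul, Complex.norm_two] at h4
    have h5 := mul_le_mul h3 h2 (norm_nonneg _) (norm_nonneg _)
    rw [Pi.sub_apply]
    nlinarith [norm_nonneg (z i), norm_nonneg (u i + v i), norm_nonneg ((u + v - 2 • z) i),
      sq_nonneg (‖u i + v i‖ - 2 * ‖z i‖), mul_nonneg (norm_nonneg (z i)) (sub_nonneg.2 h4)]
  generalize ‖z‖ * ‖u + v - 2 • z‖ = c at h ⊢
  have := Finset.sum_le_sum fun i (_ : i ∈ Finset.univ) => h i
  simp only [Finset.sum_add_distrib, Finset.sum_sub_distrib, ← Finset.mul_sum, ← Finset.sum_div,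
    Finset.sum_const, Finset.card_univ, Fintype.card_fin, nsmul_eq_mul] at this
  have h6 := sq_le_en (u - v)
  simp only [en] at h6 ⊢
  linarith

/-- the second differences of a bounded holomorphic map -/
theorem second {k : Cm n → Cm n} {w h : Cm n} {R : ℝ} (hd : DifferentiableOn ℂ k (ball w R))
    (hb : ∀ v ∈ ball w R, ‖k v‖ ≤ 1) (hh : ‖h‖ < R) :
    ‖k (w + h) + k (w - h) - 2 • k w‖ ≤ 4 * (‖h‖ / R) ^ 2 := by
  have hR : 0 < R := (norm_nonneg _).trans_lt hh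
  have m1 : ∀ v ∈ ball (0 : Cm n) R, w + v ∈ ball w R := fun v hv => by simpa using hv
  have m2 : ∀ v ∈ ball (0 : Cm n) R, w - v ∈ ball w R := fun v hv => by simpa using hv
  have d0 := (hd.differentiableAt (ball_mem_nhds w hR)).hasFDerivAt
  have d1 : HasFDerivAt (fun v => k (w + v) + k (w - v)) (0 : Cm n →L[ℂ] Cm n) 0 := by
    have e1 : HasFDerivAt k (fderiv ℂ k w) (w + 0) := by simpa using d0
    have e2 : HasFDerivAt k (fderiv ℂ k w) (w - 0) := by simpa using d0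
    refine ((e1.comp 0 ((hasFDerivAt_id (0 : Cm n)).const_add w)).add
      (e2.comp 0 ((hasFDerivAt_id (0 : Cm n)).const_sub w))).congr_fderiv ?_
    ext v
    simp
  have := Complex.dist_le_mul_div_pow_of_mapsTo_ball_of_isLittleO (n := 1) (R₁ := R) (R₂ := 4)
    (f := fun v => k (w + v) + k (w - v)) (c := 0) (z := h)
    ((hd.comp (by fun_prop) m1).add (hd.comp (by fun_prop) m2)) (fun v hv => by
      rw [mem_closedBall, dist_eq_norm]
      refine (norm_sub_le _ _).trans ((add_le_add (norm_add_le _ _) (norm_add_le _ _)).trans ?_)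
      linarith [hb _ (m1 v hv), hb _ (m2 v hv), hb _ (m1 0 (mem_ball_self hR)),
        hb _ (m2 0 (mem_ball_self hR))])
    (by simpa using d1.isLittleO.norm_right) (by simpa using hh)
  simpa [dist_eq_norm, two_smul] using this

/-- a lift of `Ψ` on the ball of radius `1 / (4 a)` -/
def Dk (Ψ : Cm n → Y) (a : ℝ) (c : Cm n) (k : Cm n → Cm n) : Prop :=
  ∀ v ∈ ball c (1 / (4 * a)), k v ∈ ball (0 : Cm n) 1 ∧ Ψ (k v) = Ψ v ∧
    ∀ v' ∈ ball c (1 / (4 * a)), ‖k v - k v'‖ ≤ a * ‖v - v'‖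

theorem Dk.cont {c : Cm n} {k : Cm n → Cm n} (h : Dk Ψ a c k) (ha : 1 ≤ a) :
    ContinuousOn k (ball c (1 / (4 * a))) :=
  (LipschitzOnWith.of_dist_le_mul (K := ⟨a, by linarith⟩) fun v hv v' hv' => by
    rw [dist_eq_norm, dist_eq_norm]; exact (h v hv).2.2 v' hv').continuousOn

theorem r_le (ha : 1 ≤ a) : 1 / (4 * a) ≤ 1 / 4 :=
  one_div_le_one_div_of_le (by norm_num) (by linarith)

theorem sub_ball (ha : 1 ≤ a) {c : Cm n} (hc : ‖c‖ ≤ 1 / 2) : ball c (1 / (4 * a)) ⊆ ball 0 1 :=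
  ball_subset_ball' (by rw [dist_zero_right]; linarith [r_le ha])

theorem ex (H : LIFT n) (h : Imm Ψ l L) (ha : 1 ≤ a) (hL : L ≤ a * l) {c p : Cm n}
    (hc : ‖c‖ ≤ 1 / 2) (hp : ‖p‖ ≤ 1 / 2) (e : Ψ p = Ψ c) : ∃ k, k c = p ∧ Dk Ψ a c k := by
  have l0 := h.pos
  obtain ⟨k, k0, hk⟩ := (H Y Ψ l L h (Cm n)).1 Ψ c (1 / (4 * a)) L p (by positivity)
    (l0.le.trans h.le) (fun v hv v' hv' => h.lip v (sub_ball ha hc hv) v' (sub_ball ha hc hv')) e
    (by
      have : L * (1 / (4 * a)) / l ≤ 1 / 4 := by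
        rw [div_le_iff₀ l0]
        field_simp
        linarith
      linarith)
  refine ⟨k, k0, fun v hv => ⟨(hk v hv).1, (hk v hv).2.1, fun v' hv' => ?_⟩⟩
  have := ((hk v hv).2.2 v' hv').trans (mul_le_mul_of_nonneg_right hL (norm_nonneg _))
  refine le_of_mul_le_mul_left ?_ l0
  linarith

theorem Dk.diff (h : Imm Ψ l L) (ha : 1 ≤ a) {k : Cm n → Cm n} (hk : Dk Ψ a 0 k) :
    DifferentiableOn ℂ k (ball 0 (1 / (4 * a))) := fun y hy => by
  have nb := isOpen_ball.mem_nhds hy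
  obtain ⟨k', an, e, ev⟩ := h.an y (sub_ball ha (by simp) hy) (k y) (hk y hy).1 (hk y hy).2.1.symm
  have t : Tendsto (fun w => (k w, k' w)) (𝓝 y) (𝓝 (k y, k y)) :=
    ((hk.cont ha).continuousAt nb).tendsto.prodMk_nhds (e ▸ an.continuousAt.tendsto)
  refine (an.differentiableAt.congr_of_eventuallyEq ?_).differentiableWithinAt
  filter_upwards [t.eventually (h.low _ (hk y hy).1), ev, nb] with w h1 h2 h3
  rw [h2, (hk w h3).2.1, dist_self] at h1
  exact sub_eq_zero.1 (norm_le_zero_iff.1 (nonpos_of_mul_nonpos_right h1 h.pos))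

theorem s_le (ha : 1 ≤ a) : 1 / (8 * a ^ 2) ≤ 1 / (4 * a) / 2 := by
  rw [div_div]
  exact one_div_le_one_div_of_le (by positivity) (by nlinarith)

theorem sub_s (ha : 1 ≤ a) : ball (0 : Cm n) (1 / (8 * a ^ 2)) ⊆ ball 0 (1 / (4 * a)) :=
  ball_subset_ball ((s_le ha).trans (half_le_self (by positivity)))

theorem Dk.norm_le {k : Cm n → Cm n} (hk : Dk Ψ a 0 k) {y : Cm n} (hy : y ∈ ball 0 (1 / (4 * a))) :
    ‖k y‖ ≤ ‖k 0‖ + a * ‖y‖ := by
  have := (hk y hy).2.2 0 (mem_ball_self (pos_of_mem_ball hy))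
  rw [sub_zero] at this
  linarith [norm_sub_norm_le (k y) (k 0)]

/-- composition of lifts -/
theorem comp (H : LIFT n) (h : Imm Ψ l L) (ha : 1 ≤ a) {k k' k'' : Cm n → Cm n} {c y : Cm n}
    (hk : Dk Ψ a 0 k) (hk' : Dk Ψ a c k') (hk'' : Dk Ψ a 0 k'')
    (m : MapsTo k (ball 0 (1 / (8 * a ^ 2))) (ball c (1 / (4 * a))))
    (hy : y ∈ ball 0 (1 / (8 * a ^ 2))) (e : k' (k y) = k'' y) :
    EqOn (fun v => k' (k v)) k'' (ball 0 (1 / (8 * a ^ 2))) :=
  (H Y Ψ l L h (Cm n)).2 _ _ _ (convex_ball _ _).isPreconnected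
    ((hk'.cont ha).comp ((hk.cont ha).mono (sub_s ha)) m) ((hk''.cont ha).mono (sub_s ha))
    (fun _ hv => (hk' _ (m hv)).1) (fun _ hv => (hk'' _ (sub_s ha hv)).1)
    (fun _ hv => by rw [(hk' _ (m hv)).2.1, (hk _ (sub_s ha hv)).2.1, (hk'' _ (sub_s ha hv)).2.1])
    y hy e

theorem dk_id (ha : 1 ≤ a) {c : Cm n} (hc : ‖c‖ ≤ 1 / 2) : Dk Ψ a c id := fun _ hv =>
  ⟨sub_ball ha hc hv, rfl, fun _ _ => le_mul_of_one_le_left (norm_nonneg _) ha⟩

theorem as_eq (ha : 1 ≤ a) : a * (1 / (8 * a ^ 2)) = 1 / (4 * a) / 2 := by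
  field_simp
  norm_num

/-- the lower Lipschitz bound -/
theorem Dk.low (H : LIFT n) (h : Imm Ψ l L) (ha : 1 ≤ a) (hL : L ≤ a * l) {k : Cm n → Cm n}
    (hk : Dk Ψ a 0 k) (h0 : ‖k 0‖ ≤ 1 / 4) {y y' : Cm n} (hy : y ∈ ball 0 (1 / (8 * a ^ 2)))
    (hy' : y' ∈ ball 0 (1 / (8 * a ^ 2))) : ‖y - y'‖ ≤ a * ‖k y - k y'‖ := by
  have n1 := mem_ball_zero_iff.1 hy
  have a0 : 0 < a := by linarith
  have n2 := mul_lt_mul_of_pos_left n1 a0
  rw [as_eq ha] at n2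
  have r := r_le ha
  obtain ⟨k', e, hk'⟩ := ex H h ha hL (c := k y) (p := y)
    (by linarith [hk.norm_le (sub_s ha hy)]) (by linarith [s_le ha]) (hk y (sub_s ha hy)).2.1.symm
  have m : MapsTo k (ball 0 (1 / (8 * a ^ 2))) (ball (k y) (1 / (4 * a))) := fun v hv => by
    have n3 := mul_lt_mul_of_pos_left (mem_ball_zero_iff.1 hv) a0
    rw [as_eq ha] at n3
    have n4 := mul_le_mul_of_nonneg_left (norm_sub_le v y) a0.le
    rw [mem_ball, dist_eq_norm]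
    linarith [(hk v (sub_s ha hv)).2.2 y (sub_s ha hy)]
  have := (hk' _ (m hy)).2.2 _ (m hy')
  rwa [e, show k' (k y') = y' from comp H h ha hk hk' (dk_id ha (by simp)) m hy e hy'] at this

/-- strict convexity of the squared norm of a lift -/
theorem Dk.mid (H : LIFT n) (h : Imm Ψ l L) (ha : 1 ≤ a) (hL : L ≤ a * l) {k : Cm n → Cm n}
    (hk : Dk Ψ a 0 k) {R η : ℝ} (h0 : ‖k 0‖ ≤ η) (hη : η ≤ 1 / 4) (hR : R < 1 / (8 * a ^ 2))
    (hs : 256 * n * a ^ 4 * (η + a * R) < 1) {w v : Cm n} (h1 : ‖w + v‖ ≤ R) (h2 : ‖w - v‖ ≤ R)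
    (hv : v ≠ 0) : 2 * en (k w) < en (k (w + v)) + en (k (w - v)) := by
  have a0 : 0 < a := by linarith
  have hw : ‖w‖ ≤ R := by
    have := norm_add_le (w + v) (w - v)
    rw [show w + v + (w - v) = (2 : ℝ) • w by module, norm_smul, Real.norm_two] at this
    linarith
  have e2 : w + v - (w - v) = (2 : ℝ) • v := by module
  have hv' : ‖v‖ ≤ R := by
    have := norm_sub_le (w + v) (w - v)
    rw [e2, norm_smul, Real.norm_two] at this
    linarith
  have sb : ball w (1 / (4 * a) / 2) ⊆ ball 0 (1 / (4 * a)) :=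
    ball_subset_ball' (by rw [dist_zero_right]; linarith [s_le ha])
  have s2 := second ((hk.diff h ha).mono sb) (fun y hy => (mem_ball_zero_iff.1 (hk y (sb hy)).1).le)
    (h := v) (by linarith [s_le ha])
  rw [show 4 * (‖v‖ / (1 / (4 * a) / 2)) ^ 2 = 256 * a ^ 2 * ‖v‖ ^ 2 by field_simp; norm_num] at s2
  have lo := hk.low H h ha hL (h0.trans hη) (mem_ball_zero_iff.2 (h1.trans_lt hR))
    (mem_ball_zero_iff.2 (h2.trans_lt hR))
  rw [e2, norm_smul, Real.norm_two] at lo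
  have kw : ‖k w‖ ≤ η + a * R := by
    have := hk.norm_le (sub_s ha (mem_ball_zero_iff.2 (hw.trans_lt hR)))
    linarith [mul_le_mul_of_nonneg_left hw a0.le]
  have em := en_mid (k (w + v)) (k (w - v)) (k w)
  have p1 := mul_le_mul kw s2 (norm_nonneg _) ((norm_nonneg _).trans kw)
  have p2 := mul_le_mul_of_nonneg_left p1 (show (0 : ℝ) ≤ 2 * n by positivity)
  have p3 := pow_le_pow_left₀ (by positivity) lo 2
  have p4 : 0 < ‖v‖ ^ 2 := pow_pos (norm_pos_iff.2 hv) 2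
  have p5 := mul_lt_mul_of_pos_right hs p4
  refine lt_of_lt_of_le ?_ em
  rw [add_sub_assoc, lt_add_iff_pos_right, sub_pos]
  refine p2.trans_lt (lt_of_mul_lt_mul_left ?_ (sq_nonneg a))
  nlinarith

/-- a lift which preserves a sum of squared norms of lifts has a fixed point -/
theorem fix (H : LIFT n) (h : Imm Ψ l L) (ha : 1 ≤ a) (hL : L ≤ a * l) {S : Finset ℕ}
    (hS : S.Nonempty) {k : ℕ → Cm n → Cm n} {κ : Cm n → Cm n} {R η : ℝ}
    (hk : ∀ m ∈ S, Dk Ψ a 0 (k m) ∧ ‖k m 0‖ ≤ η) (hκ : Dk Ψ a 0 κ) (κ0 : ‖κ 0‖ ≤ η)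
    (hR : R < 1 / (8 * a ^ 2)) (hs : 256 * n * a ^ 4 * (η + a * R) < 1)
    (hη : a ^ 2 * (n + 2) * η + η ≤ R)
    (inv : ∀ y, ‖y‖ ≤ R → ∑ m ∈ S, en (k m (κ y)) = ∑ m ∈ S, en (k m y)) :
    ∃ y, ‖y‖ ≤ R ∧ κ y = y := by
  have a0 : 0 < a := by linarith
  have η0 : 0 ≤ η := (norm_nonneg _).trans κ0
  have n0 : (0 : ℝ) ≤ n := n.cast_nonneg
  have q0 : 0 ≤ a ^ 2 * (n + 2) * η := by positivity
  have η4 : η ≤ 1 / 4 := by linarith [s_le ha, r_le ha]
  have sb : ∀ y : Cm n, ‖y‖ ≤ R → y ∈ ball (0 : Cm n) (1 / (8 * a ^ 2)) := fun y hy =>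
    mem_ball_zero_iff.2 (hy.trans_lt hR)
  have R0 : ‖(0 : Cm n)‖ ≤ R := by rw [norm_zero]; linarith
  obtain ⟨y, hy, min⟩ := (isCompact_closedBall (0 : Cm n) R).exists_isMinOn
    ⟨0, mem_closedBall_zero_iff.2 R0⟩ (f := fun y => ∑ m ∈ S, en (k m y))
    (continuousOn_finsetSum _ fun m hm => continuousOn_finsetSum _ fun i _ =>
      ((continuousOn_pi.1 (((hk m hm).1.cont ha).mono fun y hy =>
        sub_s ha (sb y (mem_closedBall_zero_iff.1 hy))) i).norm).pow 2)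
  rw [mem_closedBall_zero_iff] at hy
  have min' : ∀ w : Cm n, ‖w‖ ≤ R → ∑ m ∈ S, en (k m y) ≤ ∑ m ∈ S, en (k m w) := fun w hw =>
    min (mem_closedBall_zero_iff.2 hw)
  have hρ : ‖y‖ ≤ a * (n + 2) * η := by
    by_contra! hlt
    refine (min' 0 R0).not_gt (Finset.sum_lt_sum_of_nonempty hS fun m hm => ?_)
    have lo := (hk m hm).1.low H h ha hL ((hk m hm).2.trans η4) (sb y hy) (sb 0 R0)
    rw [sub_zero] at lo
    have l1 : (n + 2) * η < ‖k m y - k m 0‖ :=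
      lt_of_mul_lt_mul_left (by linarith) a0.le
    have l2 : (n + 1) * η < ‖k m y‖ := by linarith [norm_sub_le (k m y) (k m 0), (hk m hm).2]
    have l3 := pow_lt_pow_left₀ l2 (by positivity) two_ne_zero
    have l4 := mul_le_mul_of_nonneg_left (pow_le_pow_left₀ (norm_nonneg _) (hk m hm).2 2) n0
    nlinarith [en_le (k m 0), sq_le_en (k m y), sq_nonneg η, sq_nonneg (n * η)]
  have hκy : ‖κ y‖ ≤ R := by
    nlinarith [hκ.norm_le (sub_s ha (sb y hy)), mul_le_mul_of_nonneg_left hρ a0.le]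
  refine ⟨y, hy, by_contra fun ne => ?_⟩
  have e1 : (1 / 2 : ℝ) • (κ y + y) + (1 / 2 : ℝ) • (κ y - y) = κ y := by module
  have e2 : (1 / 2 : ℝ) • (κ y + y) - (1 / 2 : ℝ) • (κ y - y) = y := by module
  have := Finset.sum_lt_sum_of_nonempty hS fun m hm => (hk m hm).1.mid H h ha hL (hk m hm).2 η4 hR
    hs (e1.symm ▸ hκy) (e2.symm ▸ hy) (smul_ne_zero (by norm_num) (sub_ne_zero.2 ne))
  rw [e1, e2, Finset.sum_add_distrib, inv y hy, ← Finset.mul_sum] at this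
  have hw : ‖(1 / 2 : ℝ) • (κ y + y)‖ ≤ R := by
    rw [norm_smul, Real.norm_of_nonneg (by norm_num)]
    linarith [norm_add_le (κ y) y]
  linarith [min' _ hw]

theorem main (H : LIFT n) (h : Imm Ψ l L) (ha : 1 ≤ a) (hL : L ≤ a * l) {N : ℕ} {R η : ℝ}
    (hR : R < 1 / (8 * a ^ 2)) (hs : 256 * n * a ^ 4 * (η + a * R) < 1)
    (hη : a ^ 2 * (n + 2) * η + η ≤ R) (η0 : 0 < η)
    (hN : ∀ S : Finset (Cm n), (∀ p ∈ S, p ∈ ball (0 : Cm n) (1 / 2) ∧ Ψ p = Ψ 0) → S.card ≤ N) :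
    InjOn Ψ (ball 0 (η / (2 * a ^ 2) / (N + 1))) := by
  classical
  intro p hp p' hp' e
  have a0 : 0 < a := by linarith
  have N0 : (0 : ℝ) ≤ N := N.cast_nonneg
  have q0 : 0 ≤ a ^ 2 * (n + 2) * η := by positivity
  have s1 := s_le ha
  have r1 := r_le ha
  have a2 : 1 ≤ a ^ 2 := one_le_pow₀ ha
  rw [mem_ball_zero_iff, div_div, lt_div_iff₀ (by positivity)] at hp hp'
  have b1 : ∀ q : Cm n, ‖q‖ * (2 * a ^ 2 * (N + 1)) < η → ‖q‖ ≤ η := fun q hq => by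
    nlinarith [norm_nonneg q, mul_nonneg (norm_nonneg q) N0,
      mul_nonneg (mul_nonneg (norm_nonneg q) N0) (sub_nonneg.2 a2)]
  have hp1 := b1 p hp
  have hp2 := b1 p' hp'
  obtain ⟨k, kp, hk⟩ := ex H h ha hL (c := p) (p := p') (by linarith) (by linarith) e.symm
  have sp : ball (0 : Cm n) (1 / (8 * a ^ 2)) ⊆ ball p (1 / (4 * a)) :=
    ball_subset_ball' (by rw [dist_zero_left]; linarith)
  have s0 : (0 : Cm n) ∈ ball (0 : Cm n) (1 / (8 * a ^ 2)) := mem_ball_self (by positivity)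
  have sp' : p ∈ ball (0 : Cm n) (1 / (8 * a ^ 2)) := mem_ball_zero_iff.2 (by linarith)
  have k0 : (N + 1) * (a * ‖k 0‖) ≤ η := by
    have h1 := (hk 0 (sp s0)).2.2 p (sp sp')
    rw [kp, zero_sub, norm_neg] at h1
    have h2 := norm_sub_norm_le (k 0) p'
    have h3 : ‖k 0‖ ≤ a * (‖p‖ + ‖p'‖) := by nlinarith [norm_nonneg p']
    have h4 := mul_le_mul_of_nonneg_left h3 (show 0 ≤ (N + 1) * a by positivity)
    nlinarith
  have k1 : ‖k 0‖ ≤ η := by
    nlinarith [norm_nonneg (k 0), mul_nonneg (norm_nonneg (k 0)) N0,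
      mul_nonneg (mul_nonneg (norm_nonneg (k 0)) N0) (sub_nonneg.2 ha)]
  have k2 : k 0 ∈ ball (0 : Cm n) (1 / (8 * a ^ 2)) := mem_ball_zero_iff.2 (by linarith)
  have : ∀ q : Cm n, ∃ K : Cm n → Cm n, ‖q‖ ≤ 1 / 2 → Ψ q = Ψ 0 → K 0 = q ∧ Dk Ψ a 0 K := fun q => by
    by_cases hq : ‖q‖ ≤ 1 / 2 ∧ Ψ q = Ψ 0
    · exact (ex H h ha hL (by simp) hq.1 hq.2).imp fun K hK _ _ => hK
    · exact ⟨id, fun h1 h2 => (hq ⟨h1, h2⟩).elim⟩
  choose K hK using this
  let P : ℕ → Cm n := fun m => Nat.rec 0 (fun _ q => K q (k 0)) m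
  have e0 : Ψ (k 0) = Ψ 0 := (hk 0 (sp s0)).2.1
  have bd : ∀ m : ℕ, m ≤ N + 1 → m * (a * ‖k 0‖) ≤ η := fun m hm =>
    (mul_le_mul_of_nonneg_right (by exact_mod_cast hm) (by positivity)).trans k0
  have hP : ∀ m ≤ N + 1, ‖P m‖ ≤ m * (a * ‖k 0‖) ∧ Ψ (P m) = Ψ 0 := fun m hm => by
    induction m with
    | zero => exact ⟨by simp [P], rfl⟩
    | succ m ih =>
      obtain ⟨i1, i2⟩ := ih (by omega)
      obtain ⟨j1, j2⟩ := hK (P m) (by linarith [bd m (by omega)]) i2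
      have := j2.norm_le (sub_s ha k2)
      rw [j1] at this
      exact ⟨by push_cast; change ‖K (P m) (k 0)‖ ≤ _; linarith,
        (j2 _ (sub_s ha k2)).2.1.trans e0⟩
  have hP' : ∀ m ≤ N + 1, ‖P m‖ ≤ η := fun m hm => (hP m hm).1.trans (bd m hm)
  have hD : ∀ m ≤ N + 1, K (P m) 0 = P m ∧ Dk Ψ a 0 (K (P m)) := fun m hm =>
    hK _ (by linarith [hP' m hm]) (hP m hm).2
  obtain ⟨κ0, hκ⟩ := hK (k 0) (by linarith) e0
  have mκ : MapsTo (K (k 0)) (ball 0 (1 / (8 * a ^ 2))) (ball 0 (1 / (4 * a))) := fun v hv => by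
    have n3 := mul_lt_mul_of_pos_left (mem_ball_zero_iff.1 hv) a0
    have := hκ.norm_le (sub_s ha hv)
    rw [as_eq ha] at n3
    rw [κ0] at this
    rw [mem_ball_zero_iff]
    linarith
  obtain ⟨i, j, ij, jN, eij⟩ : ∃ i j, i < j ∧ j ≤ N ∧ P i = P j := by
    by_contra! hne
    have inj : InjOn P (Finset.range (N + 1)) := fun i hi j hj e => by
      simp only [Finset.coe_range, mem_Iio] at hi hj
      rcases lt_trichotomy i j with l | l | l
      exacts [(hne i j l (by omega) e).elim, l, (hne j i l (by omega) e.symm).elim]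
    have := hN ((Finset.range (N + 1)).image P) fun q hq => by
      obtain ⟨m, hm, rfl⟩ := Finset.mem_image.1 hq
      have hm : m ≤ N + 1 := (Finset.mem_range.1 hm).le
      exact ⟨mem_ball_zero_iff.2 (by linarith [hP' m hm]), (hP m hm).2⟩
    rw [Finset.card_image_of_injOn inj, Finset.card_range] at this
    omega
  obtain ⟨y, hy, fy⟩ := fix H h ha hL (S := Finset.Ico i j) (Finset.nonempty_Ico.2 ij)
    (k := fun m => K (P m)) (κ := K (k 0)) (fun m hm => by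
      have hm : m ≤ N + 1 := by have := (Finset.mem_Ico.1 hm).2; omega
      exact ⟨(hD m hm).2, (hD m hm).1.symm ▸ hP' m hm⟩) hκ (κ0.symm ▸ k1) hR hs hη fun y hy => by
      have e1 : ∑ m ∈ Finset.Ico i j, en (K (P m) (K (k 0) y)) =
          ∑ m ∈ Finset.Ico i j, en (K (P (m + 1)) y) := Finset.sum_congr rfl fun m hm => by
        have hm := (Finset.mem_Ico.1 hm).2
        exact congrArg en (comp H h ha hκ (hD m (by omega)).2 (hD (m + 1) (by omega)).2 mκ s0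
          (by rw [κ0, (hD (m + 1) (by omega)).1]) (mem_ball_zero_iff.2 (hy.trans_lt hR)))
      have e2 := Finset.sum_Ico_add' (fun m => en (K (P m) y)) i j 1
      have e3 := Finset.sum_eq_sum_Ico_succ_bot (Nat.lt_succ_of_lt ij) fun m => en (K (P m) y)
      rw [Finset.sum_Ico_succ_top ij.le, eij] at e3
      rw [e1, e2]
      linarith
  have id0 := dk_id (Ψ := Ψ) ha (c := (0 : Cm n)) (by simp)
  have u1 := comp H h ha id0 hκ id0 (sub_s ha) (mem_ball_zero_iff.2 (hy.trans_lt hR)) fy sp'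
  have u2 := comp H h ha id0 hk hκ sp s0 κ0.symm sp'
  exact u1.symm.trans (u2.symm.trans kp)

end Inj

theorem inj {n : ℕ} (H : LIFT n) : INJ n := by
  intro a
  by_cases ha : 1 ≤ a
  swap
  · exact ⟨1, one_pos, fun Y _ Ψ l L N h hL _ => by nlinarith [h.pos, h.le]⟩
  have n0 : (0 : ℝ) ≤ n := n.cast_nonneg
  have a2 : 1 ≤ a ^ 2 := one_le_pow₀ ha
  have a3 : 1 ≤ a ^ 3 := one_le_pow₀ ha
  set R : ℝ := 1 / (512 * (n + 1) * a ^ 5) with hR
  have R0 : 0 < R := by positivity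
  have e : 512 * (n + 1) * a ^ 5 * R = 1 := by rw [hR]; field_simp
  set η : ℝ := R / (a ^ 2 * (n + 3)) with hη
  have η0 : 0 < η := by positivity
  have e' : a ^ 2 * (n + 3) * η = R := by rw [hη]; field_simp
  have h3 : a ^ 2 * (n + 2) * η + η ≤ R := by nlinarith
  refine ⟨η / (2 * a ^ 2), by positivity, fun Y _ Ψ l L N h hL hN =>
    Inj.main H h ha hL (R := R) ?_ ?_ h3 η0 hN⟩
  · refine one_div_lt_one_div_of_lt (by positivity) ?_
    nlinarith [mul_nonneg n0 (show 0 ≤ a ^ 5 by positivity), mul_le_mul_of_nonneg_left a3 (sq_nonneg a)]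
  · have h4 : η ≤ a * R := by nlinarith [show 0 ≤ a ^ 2 * (n + 2) * η by positivity]
    have h5 := mul_le_mul_of_nonneg_left h4 (show 0 ≤ 256 * n * a ^ 4 by positivity)
    nlinarith [show 0 < a ^ 5 * R by positivity]

end Vale.Agent.P253W.X
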