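import Vale.Agent.P253W.X.Defs

/-!
# P253W, block X: bounds for holomorphic functions and their derivatives on a fibre
-/

open scoped Manifold ContDiff Bundle ENNReal Topology ComplexConjugate ComplexOrder Matrix
open MeasureTheory Set Metric Filter
open Vale.Agent.P272.K (Cm)
open Complex (I)

set_option linter.all false

noncomputable section

namespace Vale.Agent.P253W.X

namespace Bern

variable {n : ℕ}

theorem en_nonneg (y : Cm n) : 0 ≤ en y := Finset.sum_nonneg fun _ _ => by positivity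

theorem en_smul (t : ℝ) (y : Cm n) : en (t • y) = t ^ 2 * en y := by
  unfold en
  rw [Finset.mul_sum]
  refine Finset.sum_congr rfl fun i _ => ?_
  rw [Pi.smul_apply, norm_smul, mul_pow, Real.norm_eq_abs, sq_abs]

theorem en_sm : ContDiff ℝ ∞ (en : Cm n → ℝ) := by
  unfold en
  exact ContDiff.sum fun i _ => (contDiff_apply ℝ ℂ i).norm_sq ℂ

theorem coord_le (y : Cm n) (i : Fin n) : ‖y i‖ ^ 2 ≤ en y :=
  Finset.single_le_sum (f := fun i => ‖y i‖ ^ 2) (fun _ _ => by positivity) (Finset.mem_univ i)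

theorem en_le (y : Cm n) : en y ≤ n * ‖y‖ ^ 2 := by
  unfold en
  calc ∑ i, ‖y i‖ ^ 2 ≤ ∑ _i : Fin n, ‖y‖ ^ 2 :=
        Finset.sum_le_sum fun i _ => pow_le_pow_left₀ (norm_nonneg _) (norm_le_pi_norm y i) 2
    _ = n * ‖y‖ ^ 2 := by simp

theorem en_pos {y : Cm n} (h : y ≠ 0) : 0 < en y := by
  obtain ⟨i, hi⟩ := Function.ne_iff.1 h
  exact lt_of_lt_of_le (pow_pos (norm_pos_iff.2 hi) 2) (coord_le y i)

theorem cs (a b : Cm n) : ‖a ⬝ᵥ star b‖ ^ 2 ≤ en a * en b := by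
  have h1 : ‖a ⬝ᵥ star b‖ ≤ ∑ i, ‖a i‖ * ‖b i‖ := by
    refine (norm_sum_le _ _).trans (le_of_eq (Finset.sum_congr rfl fun i _ => ?_))
    rw [norm_mul, Pi.star_apply, norm_star]
  exact (pow_le_pow_left₀ (norm_nonneg _) h1 2).trans (Finset.sum_mul_sq_le_sq_mul_sq _ _ _)

theorem qf_fr {P W : Mx n} (h : P * W * Pᴴ = 1) (θ : Cm n) : qf W (θ ᵥ* P) = en θ := by
  unfold qf en
  rw [Matrix.star_vecMul, Matrix.mulVec_mulVec, Matrix.dotProduct_mulVec, Matrix.vecMul_vecMul,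
    ← Matrix.mul_assoc, h, Matrix.vecMul_one, dotProduct, Complex.re_sum]
  refine Finset.sum_congr rfl fun i _ => ?_
  rw [Pi.star_apply, RCLike.star_def, Complex.mul_conj, Complex.normSq_eq_norm_sq]
  norm_cast

theorem cpt (ρ : ℝ) : IsCompact {q : Cm n | en q ≤ ρ} := by
  refine (isCompact_closedBall (0 : Cm n) (√ρ)).of_isClosed_subset
    (isClosed_le en_sm.continuous continuous_const) fun q hq => ?_
  rw [mem_closedBall_zero_iff, pi_norm_le_iff_of_nonneg (Real.sqrt_nonneg _)]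
  exact fun i => Real.le_sqrt_of_sq_le ((coord_le q i).trans hq)

theorem lv2_congr {u w : Cm n → ℝ} {z : Cm n} (h : u =ᶠ[𝓝 z] w) (v : Cm n) :
    lv2 u z v = lv2 w z v := by
  unfold lv2
  rw [h.fderiv.fderiv_eq]

theorem qf_sm {E : Type} [NormedAddCommGroup E] [NormedSpace ℝ E] {W : E → Mx n} {X : E → Cm n}
    {z : E} {k : WithTop ℕ∞} (hW : ∀ i j, ContDiffAt ℝ k (fun p => W p i j) z)
    (hX : ContDiffAt ℝ k X z) : ContDiffAt ℝ k (fun p => qf (W p) (X p)) z := by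
  have hi := fun i => contDiffAt_pi.1 hX i
  refine Complex.reCLM.contDiff.contDiffAt.comp z (f := fun p => X p ⬝ᵥ W p *ᵥ star (X p)) ?_
  simp only [dotProduct, Matrix.mulVec, Pi.star_apply]
  refine ContDiffAt.sum fun i _ => (hi i).mul (ContDiffAt.sum fun j _ => (hW i j).mul ?_)
  exact Complex.conjCLE.contDiff.contDiffAt.comp z (hi j)

variable {κ : ℝ} (Φ : Fb n κ)

theorem en_eq {i : Φ.A.ι} {q : Cm n} (hq : q ∈ (Φ.A.c i).source) (v : Cm n) :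
    en (Φ.Θ q v) = qf (Φ.w i (Φ.A.c i q)) (fderiv ℝ (Φ.A.c i) q v) := by
  rw [Φ.dc i q hq, qf_fr (Φ.uni i q hq)]

theorem en_cont {q : Cm n} (hq : q ∈ UB n) (v : Cm n) :
    ContinuousAt (fun p : Cm n × Cm n => en (Φ.Θ p.1 p.2)) (q, v) := by
  obtain ⟨i, hi⟩ := Φ.A.cover q hq
  have hc := Φ.A.sm i q hi
  have h1 : ContDiffAt ℝ 0 (fun p : Cm n × Cm n =>
      qf (Φ.w i (Φ.A.c i p.1)) (fderiv ℝ (Φ.A.c i) p.1 p.2)) (q, v) := by
    refine qf_sm (fun j k => ?_) ?_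
    · exact (((Φ.km i).sm _ ((Φ.A.c i).map_source hi) j k).comp (q, v)
        (f := fun p : Cm n × Cm n => Φ.A.c i p.1) (hc.comp (q, v) contDiffAt_fst)).of_le (by simp)
    · exact ((hc.fderiv_right (m := 0) (by simp)).comp (q, v) contDiffAt_fst).clm_apply
        contDiffAt_snd
  refine h1.continuousAt.congr ?_
  filter_upwards [continuousAt_fst.preimage_mem_nhds ((Φ.A.c i).open_source.mem_nhds hi)] with p hp
  exact (en_eq Φ hp p.2).symm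

theorem two_le : (2 : WithTop ℕ∞) ≤ ((⊤ : ℕ∞) : WithTop ℕ∞) :=
  WithTop.coe_le_coe.2 (le_top : (2 : ℕ∞) ≤ ⊤)

/-- a local plurisubharmonic support function for the logarithm of the gradient -/
theorem loc (c1 : Φ.A.Cal1) (c2 : Φ.A.Cal2) (h1 : PSH n) {Z : Cm n → ℂ} {q₀ v₀ : Cm n}
    (hq : q₀ ∈ UB n) (hZ : ∀ᶠ p in 𝓝 q₀, CR Φ.Θ Z p) (hv : fderiv ℝ Z q₀ v₀ ≠ 0) :
    ∃ g : Cm n → ℝ, ContDiffAt ℝ 2 g q₀ ∧ (∀ v, 0 ≤ Φ.A.lev g q₀ v) ∧
      Real.exp (g q₀) = ‖fderiv ℝ Z q₀ v₀‖ ^ 2 / en (Φ.Θ q₀ v₀) ∧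
      ∀ᶠ p in 𝓝 q₀, ∃ v, v ≠ 0 ∧ Real.exp (g p) = ‖fderiv ℝ Z p v‖ ^ 2 / en (Φ.Θ p v) := by
  obtain ⟨i, hi⟩ := Φ.A.cover q₀ hq
  set c := Φ.A.c i with hcd
  have hc := Φ.A.sm i q₀ hi
  have hcc : ContinuousAt c q₀ := hc.continuousAt
  have hv0 : v₀ ≠ 0 := fun h => hv (by rw [h, map_zero])
  have hne : ∀ p ∈ c.source, ∀ v, v ≠ 0 → fderiv ℝ c p v ≠ 0 := fun p hp v h0 h => by
    obtain ⟨L, hL⟩ := Φ.A.lin i p hp
    rw [hL, L.map_eq_zero_iff] at h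
    exact h0 ((c1.bij p (Φ.A.sub i hp)).1 (h.trans (map_zero _).symm))
  obtain ⟨X, hX, hX0, hXl⟩ := h1 c.target (Φ.w i) c.open_target (Φ.km i) (c q₀) (c.map_source hi)
    _ (hne q₀ hi v₀ hv0)
  have hf : AnalyticAt ℂ (fun z => Z (c.symm z)) (c q₀) := (c1.an ℂ Z i q₀ hi hZ).1
  set f : Cm n → ℂ := fun z => Z (c.symm z) with hfd
  have hH : AnalyticAt ℂ (fun z => fderiv ℂ f z (X z)) (c q₀) :=
    ((ContinuousLinearMap.apply ℂ ℂ : Cm n →L[ℂ] (Cm n →L[ℂ] ℂ) →L[ℂ] ℂ).analyticAt_bilinear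
      (X (c q₀), fderiv ℂ f (c q₀))).comp₂ hX hf.fderiv
  set H : Cm n → ℂ := fun z => fderiv ℂ f z (X z) with hHd
  have hs : ∀ᶠ p in 𝓝 q₀, p ∈ c.source := c.open_source.mem_nhds hi
  have hcr : ∀ᶠ p in 𝓝 q₀, CR Φ.Θ (fun p => H (c p)) p := by
    filter_upwards [hs, hcc.eventually hH.eventually_analyticAt] with p hp hp'
    refine (c1.cr_iff ℂ _ i p hp).2 (hp'.differentiableAt.congr_of_eventuallyEq ?_)
    filter_upwards [c.open_target.mem_nhds (c.map_source hp)] with z hz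
    rw [c.right_inv hz]
  have hd : ∀ᶠ p in 𝓝 q₀, ∀ v, fderiv ℝ Z p v = fderiv ℂ f (c p) (fderiv ℝ c p v) := by
    filter_upwards [hs, hcc.eventually hf.eventually_analyticAt] with p hp hp' v
    have e1 : Z =ᶠ[𝓝 p] fun p => f (c p) := by
      filter_upwards [c.open_source.mem_nhds hp] with z hz
      simp only [hfd, c.left_inv hz]
    have e2 := (hp'.differentiableAt.hasFDerivAt.restrictScalars ℝ).comp p
      ((Φ.A.sm i p hp).differentiableAt (by simp)).hasFDerivAt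
    rw [e1.fderiv_eq, show (fun p => f (c p)) = f ∘ c from rfl, e2.fderiv]
    rfl
  have hH0 : H (c q₀) ≠ 0 := by
    rw [hHd]
    simp only [hX0]
    rwa [← hd.self_of_nhds]
  have hXr : ContDiffAt ℝ ∞ X (c q₀) := hX.contDiffAt.restrict_scalars ℝ
  have hN : ContDiffAt ℝ ∞ (fun z => qf (Φ.w i z) (X z)) (c q₀) :=
    qf_sm ((Φ.km i).sm _ (c.map_source hi)) hXr
  have hN0 : 0 < qf (Φ.w i (c q₀)) (X (c q₀)) := by
    rw [hX0, ← en_eq Φ hi]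
    exact en_pos fun h => hv0 ((c1.bij q₀ hq).1 (h.trans (map_zero _).symm))
  have s1 : ContDiffAt ℝ 2 (fun p => Real.log (‖H (c p)‖ ^ 2)) q₀ :=
    ((((hH.contDiffAt.restrict_scalars ℝ).comp q₀ hc).norm_sq ℂ).log
      (pow_ne_zero 2 (norm_ne_zero_iff.2 hH0))).of_le two_le
  have s2 : ContDiffAt ℝ 2 (fun p => Real.log (qf (Φ.w i (c p)) (X (c p)))) q₀ :=
    ((hN.comp q₀ hc).log hN0.ne').of_le two_le
  have s3 : ContDiffAt ℝ 2 (fun p => -1 * Real.log (qf (Φ.w i (c p)) (X (c p)))) q₀ :=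
    contDiffAt_const.mul s2
  have ex : ∀ p, H (c p) ≠ 0 → 0 < qf (Φ.w i (c p)) (X (c p)) →
      Real.exp (Real.log (‖H (c p)‖ ^ 2) + -1 * Real.log (qf (Φ.w i (c p)) (X (c p)))) =
        ‖H (c p)‖ ^ 2 / qf (Φ.w i (c p)) (X (c p)) := fun p a b => by
    rw [neg_one_mul, Real.exp_add, Real.exp_neg, Real.exp_log b,
      Real.exp_log (pow_pos (norm_pos_iff.2 a) 2), div_eq_mul_inv]
  refine ⟨fun p => Real.log (‖H (c p)‖ ^ 2) + -1 * Real.log (qf (Φ.w i (c p)) (X (c p))),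
    s1.add s3, fun v => ?_, ?_, ?_⟩
  · rw [c2.add _ _ q₀ hq s1 s3, c2.smul _ _ q₀ hq s2, (c2.nsq _ q₀ hq hcr v).2 hH0,
      c2.eq _ i q₀ hi s2]
    have e : (fun z => Real.log (qf (Φ.w i (c (c.symm z))) (X (c (c.symm z))))) =ᶠ[𝓝 (c q₀)]
        fun z => Real.log (qf (Φ.w i z) (X z)) := by
      filter_upwards [c.open_target.mem_nhds (c.map_source hi)] with z hz
      rw [c.right_inv hz]
    have := hXl (fderiv ℝ c q₀ v)
    rw [← lv2_congr e] at this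
    unfold At.lv
    linarith
  · rw [ex q₀ hH0 hN0, en_eq Φ hi, hd.self_of_nhds, hHd]
    simp only [hX0]
    rfl
  · filter_upwards [hs, hd, (hH.continuousAt.comp hcc).eventually_ne hH0,
      (hN.continuousAt.comp hcc).eventually (lt_mem_nhds hN0)] with p hp hdp a b
    obtain ⟨L, hL⟩ := Φ.A.lin i p hp
    obtain ⟨v, hv'⟩ := (c1.bij p (Φ.A.sub i hp)).2 (L.symm (X (c p)))
    have e : fderiv ℝ c p v = X (c p) := by rw [hL, hv', L.apply_symm_apply]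
    refine ⟨v, fun h => a ?_, ?_⟩
    · show fderiv ℂ f (c p) (X (c p)) = 0
      rw [← e, h, map_zero, map_zero]
    · rw [ex p a b, en_eq Φ hp, hdp, e]

/-- the distance function to the boundary of a ball -/
theorem eta (c2 : Φ.A.Cal2) (hκ : κ ≤ 1) (ρ : ℝ) {q v v' : Cm n} (hq : q ∈ UB n)
    (hv : Φ.Θ q v' = I • Φ.Θ q v) :
    -5 * en (Φ.Θ q v) ≤ Φ.A.lev (fun p => ρ - en p) q v ∧
      fderiv ℝ (fun p => ρ - en p) q v ^ 2 + fderiv ℝ (fun p => ρ - en p) q v' ^ 2 ≤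
        4 * en (Φ.Θ q v) * en q := by
  have hq1 : en q < 1 := hq
  have hE := en_nonneg (Φ.Θ q v)
  constructor
  · have h := c2.comp en (fun t => ρ - t) q hq (en_sm.contDiffAt.of_le two_le) (by fun_prop) v v' hv
    have d1 : deriv (fun t : ℝ => ρ - t) = fun _ => -1 := by
      funext t
      simp
    rw [d1] at h
    simp only [deriv_const, zero_mul, add_zero] at h
    rw [h]
    have h2 := (abs_le.1 (Φ.lev q hq v)).2
    have h3 : κ * en q ≤ 1 := mul_le_one₀ hκ (en_nonneg q) hq1.le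
    nlinarith
  · have hd : DifferentiableAt ℝ (en : Cm n → ℝ) q := (en_sm.differentiable (by simp)) q
    rw [fderiv_const_sub, ContinuousLinearMap.neg_apply, ContinuousLinearMap.neg_apply,
      Φ.dD q hq, Φ.dD q hq, hv, smul_dotProduct]
    have h := cs (Φ.Θ q v) q
    rw [← Complex.normSq_eq_norm_sq, Complex.normSq_apply] at h
    simp only [smul_eq_mul, Complex.mul_re, Complex.I_re, Complex.I_im]
    nlinarith

theorem pw (m : ℕ) {t : ℝ} (ht : t ≠ 0) : (m : ℝ) * t ^ (m - 1) = m * t ^ m / t := by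
  cases m with
  | zero => simp
  | succ k =>
    rw [Nat.add_sub_cancel, pow_succ]
    field_simp

theorem alg {η E R e x y L L₁ L₂ L₃ d A m a b s t : ℝ} (hp : 0 < η) (hE : 0 ≤ E) (hη : η ≤ R)
    (he : e ≤ R) (h1 : -5 * E ≤ L) (h2 : x ^ 2 + y ^ 2 ≤ 4 * E * e) (hA : 0 < A) (hm : 0 ≤ m)
    (hd : 0 ≤ d) (l1 : L₁ = L / η - (x ^ 2 + y ^ 2) / η ^ 2)
    (l2 : L₂ = m * A / η * L + d * (x ^ 2 + y ^ 2))
    (l3 : L₃ = A * (4 * (s * s + t * t)) + (a * a + b * b) * L₂ +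
      2 * (m * A * (x / η) * (2 * (a * s + b * t)) + m * A * (y / η) * (2 * (b * s - a * t)))) :
    -9 * (R * E / η ^ 2) ≤ L₁ ∧ 2 * A * (s * s + t * t) - (5 * m + 8 * m ^ 2) *
      (A * (a * a + b * b)) * (R * E / η ^ 2) ≤ L₃ := by
  obtain ⟨T, hT⟩ : ∃ T, T = R * E / η ^ 2 := ⟨_, rfl⟩
  have t1 : E / η ≤ T := by
    rw [hT, div_le_div_iff₀ hp (by positivity)]
    nlinarith [mul_le_mul_of_nonneg_left hη (mul_nonneg hE hp.le)]
  have t2 : (x ^ 2 + y ^ 2) / η ^ 2 ≤ 4 * T := by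
    rw [hT, ← mul_div_assoc]
    refine div_le_div_of_nonneg_right (h2.trans ?_) (by positivity)
    nlinarith [mul_le_mul_of_nonneg_left he hE]
  have t3 : -5 * T ≤ L / η := by
    have := div_le_div_of_nonneg_right h1 hp.le
    rw [mul_div_assoc] at this
    linarith
  rw [← hT]
  refine ⟨by linarith, ?_⟩
  have t4 : -5 * m * A * T ≤ L₂ := by
    have a1 := mul_le_mul_of_nonneg_left t3 (mul_nonneg hm hA.le)
    have a2 := mul_nonneg hd (add_nonneg (sq_nonneg x) (sq_nonneg y))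
    have a3 : m * A / η * L = m * A * (L / η) := by ring
    linarith
  rw [add_div, ← div_pow, ← div_pow] at t2
  generalize x / η = P at *
  generalize y / η = Q at *
  have hb : 0 ≤ a * a + b * b := add_nonneg (mul_self_nonneg a) (mul_self_nonneg b)
  have u1 := mul_le_mul_of_nonneg_left t4 hb
  have u2 := mul_le_mul_of_nonneg_left t2 (mul_nonneg (mul_nonneg hA.le hb) (sq_nonneg m))
  have u3 := mul_nonneg hA.le (add_nonneg (sq_nonneg (s + m * (P * a + Q * b)))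
    (sq_nonneg (t + m * (P * b - Q * a))))
  rw [l3]
  linarith

/-- the Levi form of the test function -/
theorem levS (c2 : Φ.A.Cal2) (hκ : κ ≤ 1) {ρ R : ℝ} (m : ℕ) {Z : Cm n → ℂ} {q v v' : Cm n}
    (hq : q ∈ UB n) (hZ : ∀ᶠ p in 𝓝 q, CR Φ.Θ Z p) (hs : ContDiffAt ℝ 2 Z q) (hρ : en q < ρ)
    (hR : ρ ≤ R) (hv : Φ.Θ q v' = I • Φ.Θ q v) :
    -9 * (R * en (Φ.Θ q v) / (ρ - en q) ^ 2) ≤ Φ.A.lev (fun p => Real.log (ρ - en p)) q v ∧
    2 * (ρ - en q) ^ m * ‖fderiv ℝ Z q v‖ ^ 2 - (5 * m + 8 * m ^ 2) *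
      ((ρ - en q) ^ m * ‖Z q‖ ^ 2) * (R * en (Φ.Θ q v) / (ρ - en q) ^ 2) ≤
      Φ.A.lev (fun p => (ρ - en p) ^ m * ‖Z p‖ ^ 2) q v := by
  obtain ⟨h1, h2⟩ := eta Φ c2 hκ ρ hq hv
  have hη : ContDiffAt ℝ 2 (fun p => ρ - en p) q :=
    contDiffAt_const.sub (en_sm.contDiffAt.of_le two_le)
  have hE := en_nonneg (Φ.Θ q v)
  have hq0 := en_nonneg q
  have hp : 0 < ρ - en q := sub_pos.2 hρ
  have l1 := c2.log _ q hq hη hp.ne' v v' hv
  have l2 := c2.comp _ (fun t => t ^ m) q hq hη (by fun_prop) v v' hv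
  have l3 := c2.mul _ _ q hq (hη.pow m) (hs.norm_sq ℂ) v v' hv
  have l4 := (c2.nsq Z q hq hZ v).1
  have d1 : ∀ w, fderiv ℝ (fun p => (ρ - en p) ^ m) q w =
      m * (ρ - en q) ^ m * (fderiv ℝ (fun p => ρ - en p) q w / (ρ - en q)) := fun w => by
    rw [((hη.differentiableAt (by simp)).hasFDerivAt.pow m).fderiv,
      ContinuousLinearMap.smul_apply, nsmul_eq_mul, pw m hp.ne', smul_eq_mul]
    ring
  have d2 : ∀ w, fderiv ℝ (fun p => ‖Z p‖ ^ 2) q w =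
      2 * ((Z q).re * (fderiv ℝ Z q w).re + (Z q).im * (fderiv ℝ Z q w).im) := fun w => by
    rw [(hs.differentiableAt (by simp)).hasFDerivAt.norm_sq.fderiv]
    simp [Complex.inner]
    ring
  have d3 : deriv (fun t : ℝ => t ^ m) = fun t => (m : ℝ) * t ^ (m - 1) := by
    funext t
    simp
  have d4 : 0 ≤ deriv (fun t : ℝ => (m : ℝ) * t ^ (m - 1)) (ρ - en q) := by
    simp only [deriv_const_mul_field', deriv_pow_field]
    positivity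
  rw [d3] at l2
  simp only [pw m hp.ne'] at l2
  rw [d1, d1, d2, d2, hZ.self_of_nhds.2 v v' hv, l4] at l3
  simp only [← Complex.normSq_eq_norm_sq (Z q), ← Complex.normSq_eq_norm_sq (fderiv ℝ Z q v),
    Complex.normSq_apply] at l3 ⊢
  refine alg hp hE (by linarith) (hρ.le.trans hR) h1 h2 (pow_pos hp m) (Nat.cast_nonneg m) d4 l1 l2
    (l3.trans ?_)
  simp only [smul_eq_mul, Complex.mul_re, Complex.mul_im, Complex.I_re, Complex.I_im]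
  ring

theorem fin {β η E R m A D S G L₁ L₃ e C B : ℝ} (hβ : 0 < β) (hη : 0 < η) (hE : 0 < E) (hR : 0 < R)
    (hm : 0 ≤ m) (hA : 0 < A) (hD : 0 ≤ D) (hS : S ≤ β) (hG : 0 ≤ G)
    (l1 : -9 * (R * E / η ^ 2) ≤ L₁)
    (l2 : 2 * A * D - (5 * m + 8 * m ^ 2) * S * (R * E / η ^ 2) ≤ L₃)
    (h0 : G + (m + 2) * L₁ + β⁻¹ * L₃ ≤ 0) (he : e ≤ 3) (hC : C = 9 * (m + 2) + (5 * m + 8 * m ^ 2))
    (hB : B = A * η ^ 2) : D / E * B * e ≤ 3 * C * R * β := by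
  obtain ⟨T, hT⟩ : ∃ T, T = R * E / η ^ 2 := ⟨_, rfl⟩
  have hT0 : 0 ≤ T := by rw [hT]; positivity
  rw [← hT] at l1 l2
  have a1 : β⁻¹ * L₃ ≤ 9 * (m + 2) * T := by
    have := mul_le_mul_of_nonneg_left l1 (by positivity : 0 ≤ m + 2)
    linarith
  rw [inv_mul_le_iff₀ hβ] at a1
  have a2 := mul_le_mul_of_nonneg_left hS (by positivity : 0 ≤ (5 * m + 8 * m ^ 2) * T)
  have a3 : A * D ≤ C * β * T := by
    have := mul_nonneg hA.le hD
    rw [hC]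
    linarith
  have a4 : D / E * B ≤ C * R * β := by
    rw [hT, ← mul_div_assoc, le_div_iff₀ (by positivity)] at a3
    rw [hB, div_mul_eq_mul_div, div_le_iff₀ hE]
    linarith
  have a5 : 0 ≤ D / E * B := by rw [hB]; positivity
  have := mul_le_mul_of_nonneg_left he a5
  linarith

/-- the gradient estimate -/
theorem grad (c1 : Φ.A.Cal1) (c2 : Φ.A.Cal2) (h1 : PSH n) (hκ : κ ≤ 1) {Z : Cm n → ℂ} {ρ R β : ℝ}
    (m : ℕ) (hρ : ρ < R) (hR : R ≤ 1) (hZ : ∀ q, en q < R → CR Φ.Θ Z q) (hβ : 0 < β)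
    (hS : ∀ q, en q ≤ ρ → (ρ - en q) ^ m * ‖Z q‖ ^ 2 ≤ β) {q : Cm n} (hq : en q ≤ ρ) (v : Cm n) :
    ‖fderiv ℝ Z q v‖ ^ 2 * (ρ - en q) ^ (m + 2) ≤
      3 * (9 * (m + 2) + (5 * m + 8 * m ^ 2)) * R * β * en (Φ.Θ q v) := by
  have hR0 : 0 < R := (en_nonneg q).trans_lt (hq.trans_lt hρ)
  have hU : ∀ p : Cm n, en p ≤ ρ → p ∈ UB n := fun p hp => (hp.trans_lt hρ).trans_le hR
  have hZ' : ∀ p : Cm n, en p ≤ ρ → ∀ᶠ p' in 𝓝 p, CR Φ.Θ Z p' := fun p hp =>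
    (en_sm.continuous.continuousAt.eventually (gt_mem_nhds (hp.trans_lt hρ))).mono hZ
  have hsm : ∀ p : Cm n, en p ≤ ρ → ContDiffAt ℝ ∞ Z p := fun p hp => by
    obtain ⟨i, hi⟩ := Φ.A.cover p (hU p hp)
    exact (c1.an ℂ Z i p hi (hZ' p hp)).2
  have hE : ∀ p : Cm n, en p ≤ ρ → ∀ w, w ≠ 0 → 0 < en (Φ.Θ p w) := fun p hp w hw =>
    en_pos fun h => hw ((c1.bij p (hU p hp)).1 (h.trans (map_zero _).symm))
  obtain ⟨C, hC⟩ : ∃ C : ℝ, C = 9 * (m + 2) + (5 * m + 8 * m ^ 2) := ⟨_, rfl⟩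
  have hC0 : 0 ≤ C := by rw [hC]; positivity
  rw [← hC]
  rcases eq_or_ne v 0 with rfl | hv
  · simp only [map_zero, norm_zero]
    have := en_nonneg (0 : Cm n)
    rw [zero_pow two_ne_zero, zero_mul]
    positivity
  obtain ⟨Ψ, hΨ⟩ : ∃ Ψ : Cm n × Cm n → ℝ, Ψ = fun p => ‖fderiv ℝ Z p.1 p.2‖ ^ 2 / en (Φ.Θ p.1 p.2) *
    (ρ - en p.1) ^ (m + 2) * Real.exp (β⁻¹ * ((ρ - en p.1) ^ m * ‖Z p.1‖ ^ 2)) := ⟨_, rfl⟩
  have hn : ∀ p w : Cm n, w ≠ 0 → Ψ (p, ‖w‖⁻¹ • w) = Ψ (p, w) := fun p w hw => by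
    have : (‖w‖⁻¹) ^ 2 ≠ 0 := pow_ne_zero 2 (inv_ne_zero (norm_ne_zero_iff.2 hw))
    simp only [hΨ, map_smul, en_smul, norm_smul, mul_pow, norm_inv, norm_norm,
      mul_div_mul_left _ _ this]
  have hm : ∀ p w : Cm n, en p ≤ ρ → w ≠ 0 →
      (p, ‖w‖⁻¹ • w) ∈ {q : Cm n | en q ≤ ρ} ×ˢ sphere (0 : Cm n) 1 := fun p w hp hw =>
    ⟨hp, by simp [norm_smul, norm_ne_zero_iff.2 hw]⟩
  have hc : ContinuousOn Ψ ({q : Cm n | en q ≤ ρ} ×ˢ sphere (0 : Cm n) 1) := by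
    rintro ⟨p, w⟩ ⟨hp, hw⟩
    have a1 : ContinuousAt (fun x : Cm n × Cm n => fderiv ℝ Z x.1 x.2) (p, w) :=
      (((hsm p hp).continuousAt_fderiv (by simp)).comp (f := Prod.fst)
        continuousAt_fst).clm_apply continuousAt_snd
    have a2 : ContinuousAt (fun x : Cm n × Cm n => Z x.1) (p, w) :=
      (hsm p hp).continuousAt.comp (f := Prod.fst) continuousAt_fst
    have a3 : ContinuousAt (fun x : Cm n × Cm n => ρ - en x.1) (p, w) :=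
      (continuous_const.sub (en_sm.continuous.comp continuous_fst)).continuousAt
    rw [hΨ]
    exact ((((a1.norm.pow 2).div (en_cont Φ (hU p hp) w) (hE p hp w (ne_zero_of_mem_unit_sphere
      ⟨w, hw⟩)).ne').mul (a3.pow _)).mul (Real.continuous_exp.continuousAt.comp
        (continuousAt_const.mul ((a3.pow _).mul (a2.norm.pow 2))))).continuousWithinAt
  obtain ⟨⟨q₀, v₀⟩, ⟨hq₀, hv₀⟩, hmax⟩ :=
    ((cpt ρ).prod (isCompact_sphere 0 1)).exists_isMaxOn ⟨_, hm q v hq hv⟩ hc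
  have hv₀' : v₀ ≠ 0 := ne_zero_of_mem_unit_sphere ⟨v₀, hv₀⟩
  have hq₀' : en q₀ ≤ ρ := hq₀
  have hle : ∀ p w : Cm n, en p ≤ ρ → w ≠ 0 → Ψ (p, w) ≤ Ψ (q₀, v₀) := fun p w hp hw =>
    hn p w hw ▸ hmax (hm p w hp hw)
  have key : Ψ (q₀, v₀) ≤ 3 * C * R * β := by
    by_contra hcon
    have hpos : Ψ (q₀, v₀) ≠ 0 := (lt_of_le_of_lt (by positivity) (not_le.1 hcon)).ne'
    apply hcon
    have hD : fderiv ℝ Z q₀ v₀ ≠ 0 := fun h => hpos (by simp [hΨ, h])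
    have hη : en q₀ < ρ := lt_of_le_of_ne hq₀' fun h => hpos (by simp [hΨ, h])
    have hp : 0 < ρ - en q₀ := sub_pos.2 hη
    obtain ⟨g, g1, g2, g3, g4⟩ := loc Φ c1 c2 h1 (hU q₀ hq₀') (hZ' q₀ hq₀') hD
    obtain ⟨v', hv'⟩ := (c1.bij q₀ (hU q₀ hq₀')).2 (I • Φ.Θ q₀ v₀)
    have hs := (hsm q₀ hq₀').of_le two_le
    obtain ⟨l1, l2⟩ := levS Φ c2 hκ m (hU q₀ hq₀') (hZ' q₀ hq₀') hs hη hρ.le hv'
    have s0 : ContDiffAt ℝ 2 (fun p => ρ - en p) q₀ :=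
      contDiffAt_const.sub (en_sm.contDiffAt.of_le two_le)
    have s1 := s0.log hp.ne'
    have s2 := (s0.pow m).mul (hs.norm_sq ℂ)
    have s3 : ContDiffAt ℝ 2 (fun p => ((m + 2 : ℕ) : ℝ) * Real.log (ρ - en p)) q₀ :=
      contDiffAt_const.mul s1
    have s4 : ContDiffAt ℝ 2 (fun p => β⁻¹ * ((ρ - en p) ^ m * ‖Z p‖ ^ 2)) q₀ :=
      contDiffAt_const.mul s2
    have ex : ∀ p w : Cm n, en p < ρ → Real.exp (g p) = ‖fderiv ℝ Z p w‖ ^ 2 / en (Φ.Θ p w) →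
        Real.exp (g p + ((m + 2 : ℕ) : ℝ) * Real.log (ρ - en p) +
          β⁻¹ * ((ρ - en p) ^ m * ‖Z p‖ ^ 2)) = Ψ (p, w) := fun p w a b => by
      rw [Real.exp_add, Real.exp_add, b, Real.exp_nat_mul, Real.exp_log (sub_pos.2 a), hΨ]
    have hl : IsLocalMax (fun p => g p + ((m + 2 : ℕ) : ℝ) * Real.log (ρ - en p) +
        β⁻¹ * ((ρ - en p) ^ m * ‖Z p‖ ^ 2)) q₀ := by
      filter_upwards [g4, en_sm.continuous.continuousAt.eventually (gt_mem_nhds hη)] with p a b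
      obtain ⟨w, hw, a⟩ := a
      rw [← Real.exp_le_exp, ex p w b a, ex q₀ v₀ hη g3]
      exact hle p w b.le hw
    have h0 := c2.max _ q₀ (hU q₀ hq₀') ((g1.add s3).add s4) hl v₀
    rw [c2.add _ _ q₀ (hU q₀ hq₀') (g1.add s3) s4, c2.add _ _ q₀ (hU q₀ hq₀') g1 s3,
      c2.smul _ _ q₀ (hU q₀ hq₀') s1, c2.smul _ _ q₀ (hU q₀ hq₀') s2] at h0
    have hE0 := hE q₀ hq₀' v₀ hv₀'
    have hS0 := hS q₀ hq₀'
    have g5 := g2 v₀
    simp only [hΨ]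
    push_cast at h0
    have e3 : Real.exp (β⁻¹ * ((ρ - en q₀) ^ m * ‖Z q₀‖ ^ 2)) ≤ 3 := by
      refine (Real.exp_le_exp.2 ?_).trans (Real.exp_one_lt_three).le
      rw [inv_mul_le_iff₀ hβ, mul_one]
      exact hS0
    exact fin hβ hp hE0 hR0 (Nat.cast_nonneg m) (pow_pos hp m) (by positivity) hS0 g5 l1 l2 h0 e3 hC
      (pow_add _ _ _)
  have h := (hle q v hq hv).trans key
  simp only [hΨ] at h
  have hEv := hE q hq v hv
  have hη : 0 ≤ ρ - en q := sub_nonneg.2 hq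
  have h2 : ‖fderiv ℝ Z q v‖ ^ 2 / en (Φ.Θ q v) * (ρ - en q) ^ (m + 2) ≤ 3 * C * R * β :=
    (le_mul_of_one_le_right (by positivity) (Real.one_le_exp (by positivity))).trans h
  rwa [div_mul_eq_mul_div, div_le_iff₀ hEv] at h2

theorem grad0 (c1 : Φ.A.Cal1) (c2 : Φ.A.Cal2) (h1 : PSH n) (hκ : κ ≤ 1) {Z : Cm n → ℂ} {ρ R β : ℝ}
    (m : ℕ) (hρ : ρ < R) (hR : R ≤ 1) (hZ : ∀ q, en q < R → CR Φ.Θ Z q) (hβ : 0 ≤ β)
    (hS : ∀ q, en q ≤ ρ → (ρ - en q) ^ m * ‖Z q‖ ^ 2 ≤ β) {q : Cm n} (hq : en q ≤ ρ) (v : Cm n) :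
    ‖fderiv ℝ Z q v‖ ^ 2 * (ρ - en q) ^ (m + 2) ≤
      3 * (9 * (m + 2) + (5 * m + 8 * m ^ 2)) * R * β * en (Φ.Θ q v) := by
  have h : Tendsto (fun b : ℝ => 3 * (9 * (m + 2) + (5 * m + 8 * m ^ 2)) * R * b * en (Φ.Θ q v))
      (𝓝[>] β) (𝓝 (3 * (9 * (m + 2) + (5 * m + 8 * m ^ 2)) * R * β * en (Φ.Θ q v))) :=
    (Continuous.tendsto (by fun_prop) β).mono_left nhdsWithin_le_nhds
  exact ge_of_tendsto h (eventually_nhdsWithin_of_forall fun b hb => grad Φ c1 c2 h1 hκ m hρ hR hZ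
    (hβ.trans_lt hb) (fun p hp => (hS p hp).trans (le_of_lt hb)) hq v)

theorem en_ball {q₁ q : Cm n} {r s : ℝ} (hr : 0 < r) (h1 : en q₁ ≤ r ^ 2) (hs : 0 < s) (hsr : s ≤ r)
    (hq : q ∈ ball q₁ s) : en q ≤ en q₁ + 3 * n * (r * s) := by
  have h : ∀ i, ‖q i‖ ^ 2 ≤ ‖q₁ i‖ ^ 2 + 3 * (r * s) := fun i => by
    have a1 : ‖q₁ i‖ ≤ r := (pow_le_pow_iff_left₀ (norm_nonneg _) hr.le two_ne_zero).1
      ((coord_le q₁ i).trans h1)
    have a2 : ‖q i‖ ≤ ‖q₁ i‖ + s := by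
      have := (norm_le_pi_norm (q - q₁) i).trans (mem_ball_iff_norm.1 hq).le
      exact (norm_le_norm_add_norm_sub' _ _).trans (add_le_add le_rfl this)
    have a3 := pow_le_pow_left₀ (norm_nonneg _) a2 2
    nlinarith
  refine (Finset.sum_le_sum fun i _ => h i).trans (le_of_eq ?_)
  rw [Finset.sum_add_distrib, Finset.sum_const, Finset.card_univ, Fintype.card_fin, nsmul_eq_mul]
  unfold en
  ring

theorem vol_ball (q : Cm n) {s : ℝ} (hs : 0 < s) :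
    ENNReal.ofReal (s ^ (2 * n)) ≤ volume (ball q s) := by
  rw [volume_pi_ball q hs]
  simp only [Complex.volume_ball]
  rw [Finset.prod_const, Finset.card_univ, Fintype.card_fin, pow_mul, ENNReal.ofReal_pow
    (by positivity), ENNReal.ofReal_pow hs.le]
  refine pow_le_pow_left' (le_mul_of_one_le_right' ?_) n
  have : (1 : NNReal) ≤ NNReal.pi := by
    rw [← NNReal.coe_le_coe]
    exact le_trans (by norm_num) Real.two_le_pi
  exact_mod_cast this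

/-- the value at a point of maximum -/
theorem sup {Z : Cm n → ℂ} {r ρ A D G : ℝ} {q₁ : Cm n} (hr : 0 < r) (hρ : ρ < r ^ 2)
    (hZ : ∀ q, en q < r ^ 2 → DifferentiableAt ℝ Z q) (hq : en q₁ < ρ) (hD : 1 ≤ D)
    (hDn : 3 * n ≤ D) (hG : 0 ≤ G) (hGD : 2 ^ (2 * n + 1 + 2) * G ≤ D)
    (hg : ∀ q, en q ≤ ρ → ∀ v, ‖fderiv ℝ Z q v‖ ^ 2 * (ρ - en q) ^ (2 * n + 1 + 2) ≤
      G * r ^ 2 * ((ρ - en q₁) ^ (2 * n + 1) * ‖Z q₁‖ ^ 2) * ‖v‖ ^ 2)
    (hI : ∫⁻ q in {q | en q < r ^ 2}, ENNReal.ofReal (‖Z q‖ ^ 2) ≤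
      ENNReal.ofReal (A ^ 2 * r ^ (2 * n))) :
    (ρ - en q₁) ^ (2 * n + 1) * ‖Z q₁‖ ^ 2 ≤ 4 * (2 * D) ^ (2 * n) * A ^ 2 * (r ^ 2) ^ (2 * n + 1) := by
  have h0 := en_nonneg q₁
  obtain ⟨η, hη⟩ : ∃ η, η = ρ - en q₁ := ⟨_, rfl⟩
  have hp : 0 < η := hη ▸ sub_pos.2 hq
  have hηr : η ≤ r ^ 2 := by linarith
  obtain ⟨s, hs⟩ : ∃ s, s = η / (2 * D * r) := ⟨_, rfl⟩
  have hs0 : 0 < s := by rw [hs]; positivity
  have hs1 : η = 2 * D * (r * s) := by rw [hs]; field_simp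
  have hrs : 0 < r * s := mul_pos hr hs0
  have hsr : s ≤ r := le_of_mul_le_mul_left (a := r) (by nlinarith) hr
  have hb : ∀ q ∈ ball q₁ s, η / 2 ≤ ρ - en q := fun q h => by
    have := en_ball hr (hq.trans hρ).le hs0 hsr h
    nlinarith
  have hb' : ∀ q ∈ ball q₁ s, en q < r ^ 2 := fun q h => by linarith [hb q h]
  rw [← hη] at hg ⊢
  have hd : ∀ q ∈ ball q₁ s, ‖fderiv ℝ Z q‖ ≤ D * r * ‖Z q₁‖ / η := fun q h => by
    refine ContinuousLinearMap.opNorm_le_bound _ (by positivity) fun v => ?_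
    have a1 := (mul_le_mul_of_nonneg_left (pow_le_pow_left₀ (by positivity) (hb q h)
      (2 * n + 1 + 2)) (sq_nonneg ‖fderiv ℝ Z q v‖)).trans (hg q (by linarith [hb q h]) v)
    rw [div_pow, ← mul_div_assoc, div_le_iff₀ (by positivity), pow_add η _ 2] at a1
    have a2 : ‖fderiv ℝ Z q v‖ ^ 2 * η ^ 2 ≤
        2 ^ (2 * n + 1 + 2) * G * (r * ‖Z q₁‖ * ‖v‖) ^ 2 :=
      le_of_mul_le_mul_left (a := η ^ (2 * n + 1)) (by linarith) (by positivity)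
    have a3 := mul_le_mul_of_nonneg_right (hGD.trans (le_self_pow₀ hD two_ne_zero))
      (sq_nonneg (r * ‖Z q₁‖ * ‖v‖))
    rw [div_mul_eq_mul_div, le_div_iff₀ hp]
    refine (pow_le_pow_iff_left₀ (by positivity) (by positivity) two_ne_zero).1 ?_
    linarith
  have hl : ∀ q ∈ ball q₁ s, ‖Z q₁‖ ^ 2 / 4 ≤ ‖Z q‖ ^ 2 := fun q h => by
    have a1 := (convex_ball q₁ s).norm_image_sub_le_of_norm_fderiv_le
      (fun p hp => hZ p (hb' p hp)) hd (mem_ball_self hs0) h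
    have a2 : D * r * ‖Z q₁‖ / η * ‖q - q₁‖ ≤ ‖Z q₁‖ / 2 := by
      refine (mul_le_mul_of_nonneg_left (mem_ball_iff_norm.1 h).le (by positivity)).trans
        (le_of_eq ?_)
      rw [hs1]
      field_simp
    have a3 := norm_le_norm_add_norm_sub (Z q) (Z q₁)
    have a4 : ‖Z q₁‖ / 2 ≤ ‖Z q‖ := by linarith
    have := pow_le_pow_left₀ (by positivity) a4 2
    linarith
  have hv : ENNReal.ofReal (‖Z q₁‖ ^ 2 / 4 * s ^ (2 * n)) ≤ ENNReal.ofReal (A ^ 2 * r ^ (2 * n)) :=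
    calc ENNReal.ofReal (‖Z q₁‖ ^ 2 / 4 * s ^ (2 * n))
        ≤ ENNReal.ofReal (‖Z q₁‖ ^ 2 / 4) * volume (ball q₁ s) := by
          rw [ENNReal.ofReal_mul (by positivity)]
          exact mul_le_mul_right (vol_ball q₁ hs0) _
      _ = ∫⁻ _q in ball q₁ s, ENNReal.ofReal (‖Z q₁‖ ^ 2 / 4) := (setLIntegral_const _ _).symm
      _ ≤ ∫⁻ q in ball q₁ s, ENNReal.ofReal (‖Z q‖ ^ 2) :=
          setLIntegral_mono' measurableSet_ball fun q h => ENNReal.ofReal_le_ofReal (hl q h)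
      _ ≤ _ := (lintegral_mono_set hb').trans hI
  rw [ENNReal.ofReal_le_ofReal_iff (by positivity)] at hv
  have e1 : η ^ (2 * n) = (2 * D) ^ (2 * n) * (r ^ (2 * n) * s ^ (2 * n)) := by
    rw [hs1, mul_pow, mul_pow r]
  have e2 : (r ^ 2) ^ (2 * n + 1) = r ^ (2 * n) * r ^ (2 * n) * r ^ 2 := by ring
  have e3 := mul_le_mul hv hηr hp.le (by positivity)
  have e4 := mul_le_mul_of_nonneg_left e3
    (by positivity : 0 ≤ 4 * (2 * D) ^ (2 * n) * r ^ (2 * n))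
  rw [pow_succ η, e1, e2]
  linarith

end Bern

open Bern in
/-- **BERN** -/
theorem bern {n : ℕ}
    (c1 : ∀ (T : Set (Cm n)) (Θ : Cm n → Cm n →L[ℝ] Cm n) (A : At T Θ), A.Cal1)
    (c2 : ∀ (T : Set (Cm n)) (Θ : Cm n → Cm n →L[ℝ] Cm n) (A : At T Θ), A.Cal2)
    (h1 : PSH n) (h2 : FW n) : BERN n := by
  obtain ⟨κ₀, hκ₀, h2⟩ := h2
  obtain ⟨G, hG⟩ : ∃ G : ℝ, G = 3 * (9 * (((2 * n + 1 : ℕ) : ℝ) + 2) +
    (5 * ((2 * n + 1 : ℕ) : ℝ) + 8 * ((2 * n + 1 : ℕ) : ℝ) ^ 2)) := ⟨_, rfl⟩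
  have hG1 : 1 ≤ G := by
    have : (0 : ℝ) ≤ ((2 * n + 1 : ℕ) : ℝ) := Nat.cast_nonneg _
    nlinarith
  obtain ⟨D, hD⟩ : ∃ D : ℝ, D = 2 ^ (2 * n + 1 + 2) * (G * (2 * n)) + (3 * n + 1) := ⟨_, rfl⟩
  have hn : (0 : ℝ) ≤ n := Nat.cast_nonneg n
  have hD0 : (0 : ℝ) ≤ 2 ^ (2 * n + 1 + 2) * (G * (2 * n)) := by positivity
  have hD1 : 1 ≤ D := by linarith
  obtain ⟨B, hB⟩ : ∃ B : ℝ, B = 4 * (2 * D) ^ (2 * n) := ⟨_, rfl⟩
  have hB1 : 1 ≤ B := by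
    have := one_le_pow₀ (by linarith : 1 ≤ 2 * D) (n := 2 * n)
    linarith
  obtain ⟨C, hC⟩ : ∃ C : ℝ, C = 2 ^ (2 * n + 1) * 2 ^ 2 * G * B := ⟨_, rfl⟩
  have hP : (1 : ℝ) ≤ 2 ^ (2 * n + 1) := one_le_pow₀ (by norm_num)
  have hC2 : 2 ^ (2 * n + 1) * B ≤ C := by
    have := mul_le_mul_of_nonneg_left hG1 (by positivity : 0 ≤ 2 ^ (2 * n + 1) * B)
    have : (0 : ℝ) ≤ 2 ^ (2 * n + 1) * B * G := by positivity
    linarith
  have hC1 : 1 ≤ C := (one_le_mul_of_one_le_of_one_le hP hB1).trans hC2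
  refine ⟨min κ₀ 1, C, lt_min hκ₀ one_pos, hC1, fun κ hκ Φ Z r A hr hr1 hA hZ hI => ?_⟩
  have hw := (h2 κ (hκ.trans (min_le_left _ _)) Φ).2.1
  have hr2 : 0 < r ^ 2 := by positivity
  have hR : r ^ 2 ≤ 1 := pow_le_one₀ hr.le hr1
  obtain ⟨ρ, hρ⟩ : ∃ ρ, ρ = 3 / 4 * r ^ 2 := ⟨_, rfl⟩
  have hρ1 : ρ < r ^ 2 := by linarith
  have hc : ContinuousOn (fun q => (ρ - en q) ^ (2 * n + 1) * ‖Z q‖ ^ 2) {q | en q ≤ ρ} :=
    fun q hq => (((continuous_const.sub en_sm.continuous).pow _).continuousAt.mul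
      ((hZ q (lt_of_le_of_lt hq hρ1)).1.continuousAt.norm.pow 2)).continuousWithinAt
  obtain ⟨q₁, hq₁, hmax⟩ := (cpt ρ).exists_isMaxOn ⟨0, by simp [en]; linarith⟩ hc
  have hq₁' : en q₁ ≤ ρ := hq₁
  have hη₁ : 0 ≤ ρ - en q₁ := sub_nonneg.2 hq₁'
  have hg := fun q hq v => grad0 Φ (c1 _ _ _) (c2 _ _ _) h1 (hκ.trans (min_le_right _ _))
    (2 * n + 1) hρ1 hR hZ (by positivity) (fun p hp => hmax hp) (q := q) hq v
  rw [← hG] at hg
  have hβ : (ρ - en q₁) ^ (2 * n + 1) * ‖Z q₁‖ ^ 2 ≤ B * A ^ 2 * (r ^ 2) ^ (2 * n + 1) := by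
    rcases hq₁'.eq_or_lt with h | h
    · rw [h, sub_self, zero_pow (Nat.succ_ne_zero _), zero_mul]
      positivity
    rw [hB]
    refine sup (G := G * (2 * n)) hr hρ1 (fun q hq => (hZ q hq).1) h hD1 (by linarith)
      (by positivity) (by linarith) (fun q hq v => (hg q hq v).trans ?_) hI
    have a1 := ((hw q ((hq.trans_lt hρ1).trans_le hR) v).2).trans
      (mul_le_mul_of_nonneg_left (en_le v) zero_le_two)
    have := mul_le_mul_of_nonneg_left a1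
      (by positivity : 0 ≤ G * r ^ 2 * ((ρ - en q₁) ^ (2 * n + 1) * ‖Z q₁‖ ^ 2))
    linarith
  intro q hq
  have hq' : en q ≤ ρ := by linarith
  have hη : r ^ 2 / 2 ≤ ρ - en q := by linarith
  have hCA := mul_le_mul_of_nonneg_right (le_self_pow₀ hC1 two_ne_zero) (sq_nonneg A)
  constructor
  · have a1 := (mul_le_mul_of_nonneg_right (pow_le_pow_left₀ (by positivity) hη (2 * n + 1))
      (sq_nonneg ‖Z q‖)).trans ((hmax hq').trans hβ)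
    rw [div_pow, div_mul_eq_mul_div, div_le_iff₀ (by positivity)] at a1
    have a2 : ‖Z q‖ ^ 2 ≤ 2 ^ (2 * n + 1) * B * A ^ 2 :=
      le_of_mul_le_mul_left (a := (r ^ 2) ^ (2 * n + 1)) (by linarith) (by positivity)
    refine (pow_le_pow_iff_left₀ (norm_nonneg _) (by positivity) two_ne_zero).1 ?_
    have := mul_le_mul_of_nonneg_right hC2 (sq_nonneg A)
    linarith
  · intro v
    have hE := en_nonneg (Φ.Θ q v)
    have a1 := (mul_le_mul_of_nonneg_left (pow_le_pow_left₀ (by positivity) hη (2 * n + 1 + 2))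
      (sq_nonneg ‖fderiv ℝ Z q v‖)).trans ((hg q hq' v).trans (mul_le_mul_of_nonneg_right
        (mul_le_mul_of_nonneg_left hβ (by positivity)) hE))
    rw [div_pow, ← mul_div_assoc, div_le_iff₀ (by positivity), pow_add (r ^ 2) _ 2,
      pow_add (2 : ℝ) _ 2] at a1
    have a2 : ‖fderiv ℝ Z q v‖ ^ 2 * r ^ 2 ≤ C * A ^ 2 * en (Φ.Θ q v) :=
      le_of_mul_le_mul_left (a := (r ^ 2) ^ (2 * n + 1) * r ^ 2) (by rw [hC]; linarith)
        (by positivity)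
    have := mul_le_mul_of_nonneg_right hCA hE
    linarith

end Vale.Agent.P253W.X
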