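import Vale.Agent.P253W.X.Defs
import Vale.Agent.P268.Hol

/-! P253W, row X.CAL1: the calculus of holomorphic maps, construction of an atlas. -/

open scoped ContDiff Topology
open Set Filter
open Complex (I)

noncomputable section

namespace Vale.Agent.P253W.X

namespace C1

section

variable {E G : Type} [NormedAddCommGroup E] [NormedSpace ℝ E] [NormedSpace ℂ E]
  [IsScalarTower ℝ ℂ E] [NormedAddCommGroup G] [NormedSpace ℝ G] [NormedSpace ℂ G]
  [IsScalarTower ℝ ℂ G] {f : E → G} {x : E}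

/-- the Cauchy-Riemann equations -/
theorem cdiff_iff : DifferentiableAt ℂ f x ↔
    DifferentiableAt ℝ f x ∧ ∀ v, fderiv ℝ f x (I • v) = I • fderiv ℝ f x v := by
  refine ⟨fun h => ⟨h.restrictScalars ℝ, fun v => ?_⟩, fun ⟨h, k⟩ => ?_⟩
  · rw [h.fderiv_restrictScalars ℝ]
    exact (fderiv ℂ f x).map_smul I v
  · refine (differentiableAt_iff_restrictScalars ℝ h).2
      ⟨⟨⟨(fderiv ℝ f x).toLinearMap.toAddHom, fun c v => ?_⟩, (fderiv ℝ f x).cont⟩, rfl⟩
    have e : ∀ {H : Type} [NormedAddCommGroup H] [NormedSpace ℝ H] [NormedSpace ℂ H]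
        [IsScalarTower ℝ ℂ H] (w : H), c • w = c.re • w + c.im • I • w := fun w => by
      rw [← algebraMap_smul ℂ c.re, ← algebraMap_smul ℂ c.im, smul_smul, ← add_smul]
      exact congrArg (· • w) (Complex.re_add_im c).symm
    change fderiv ℝ f x (c • v) = c • fderiv ℝ f x v
    rw [e v, e (fderiv ℝ f x v), map_add, map_smul, map_smul, k]

omit [NormedSpace ℝ E] [IsScalarTower ℝ ℂ E] [NormedSpace ℝ G] [IsScalarTower ℝ ℂ G] in
theorem an_of [FiniteDimensional ℂ E] [FiniteDimensional ℂ G]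
    (h : ∀ᶠ w in 𝓝 x, DifferentiableAt ℂ f w) : AnalyticAt ℂ f x := by
  have := FiniteDimensional.complete ℂ G
  obtain ⟨U, h1, h2, h3⟩ := eventually_nhds_iff.1 h
  exact P268.analyticAt_of_differentiableOn h2 (fun w hw => (h1 w hw).differentiableWithinAt) h3

theorem sm_of [FiniteDimensional ℂ G] (h : AnalyticAt ℂ f x) : ContDiffAt ℝ ∞ f x :=
  have := FiniteDimensional.complete ℂ G
  h.contDiffAt.restrict_scalars ℝ

theorem ex_equiv [FiniteDimensional ℂ E] {D : E →L[ℝ] E} (h : Function.Injective D) :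
    ∃ L : E ≃L[ℝ] E, (L : E →L[ℝ] E) = D :=
  have : FiniteDimensional ℝ E := Module.Finite.trans ℂ E
  ⟨(LinearEquiv.ofInjectiveEndo D.toLinearMap h).toContinuousLinearEquiv, by ext; rfl⟩

end

variable {V : Type} [NormedAddCommGroup V] [NormedSpace ℝ V] [NormedSpace ℂ V]
  {T : Set V} {Θ : V → V →L[ℝ] V} (A : At T Θ) {i : A.ι} {q : V}

theorem d1 (h : q ∈ (A.c i).source) : DifferentiableAt ℝ (A.c i) q :=
  (A.sm i q h).differentiableAt (by simp)

theorem d2 (h : q ∈ (A.c i).source) : DifferentiableAt ℝ (A.c i).symm (A.c i q) :=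
  (A.sm' i _ ((A.c i).map_source h)).differentiableAt (by simp)

theorem left (h : q ∈ (A.c i).source) (v : V) :
    fderiv ℝ (A.c i).symm (A.c i q) (fderiv ℝ (A.c i) q v) = v := by
  have := (fderiv_comp q (d2 A h) (d1 A h)).symm.trans
    (EventuallyEq.fderiv_eq (f := id) ((A.c i).eventually_left_inverse h))
  simpa using congrArg (· v) this

theorem right (h : q ∈ (A.c i).source) (v : V) :
    fderiv ℝ (A.c i) q (fderiv ℝ (A.c i).symm (A.c i q) v) = v := by
  have := (fderiv_comp _ (((A.c i).left_inv h).symm ▸ d1 A h) (d2 A h)).symm.trans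
    (EventuallyEq.fderiv_eq (f := id) ((A.c i).eventually_right_inverse' h))
  simpa [(A.c i).left_inv h] using congrArg (· v) this

theorem key (h : q ∈ (A.c i).source) {v v' : V} :
    Θ q v' = I • Θ q v ↔ fderiv ℝ (A.c i) q v' = I • fderiv ℝ (A.c i) q v := by
  obtain ⟨L, hL⟩ := A.lin i q h
  rw [hL, hL, ← map_smul L, L.injective.eq_iff]

include A in
theorem bij (h : q ∈ T) : Function.Bijective (Θ q) := by
  obtain ⟨i, h⟩ := A.cover q h
  obtain ⟨L, hL⟩ := A.lin i q h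
  refine ⟨fun a b e => ?_, fun w => ⟨fderiv ℝ (A.c i).symm (A.c i q) (L w), L.injective ?_⟩⟩
  · rw [← left A h a, hL, e, ← hL, left A h]
  · rw [← hL, right A h]

variable [IsScalarTower ℝ ℂ V] {G : Type} [NormedAddCommGroup G] [NormedSpace ℝ G]
  [NormedSpace ℂ G] [IsScalarTower ℝ ℂ G]

theorem cr_iff {u : V → G} (h : q ∈ (A.c i).source) :
    CR Θ u q ↔ DifferentiableAt ℂ (fun z => u ((A.c i).symm z)) (A.c i q) := by
  have e := (A.c i).left_inv h
  rw [cdiff_iff]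
  refine ⟨fun ⟨a, b⟩ => ?_, fun ⟨a, b⟩ => ?_⟩
  · have k := (e.symm ▸ a).hasFDerivAt.comp _ (d2 A h).hasFDerivAt
    refine ⟨k.differentiableAt, fun v => ?_⟩
    rw [show fderiv ℝ (fun z => u ((A.c i).symm z)) (A.c i q) = _ from k.fderiv, e]
    exact b _ _ ((key A h).2 ((right A h _).trans (congrArg _ (right A h v).symm)))
  · have k := (a.hasFDerivAt.comp q (d1 A h).hasFDerivAt).congr_of_eventuallyEq (f₁ := u)
      (((A.c i).eventually_left_inverse h).mono fun p hp => (congrArg u hp).symm)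
    refine ⟨k.differentiableAt, fun v v' w => ?_⟩
    rw [k.fderiv, ContinuousLinearMap.comp_apply, (key A h).1 w, b]
    rfl

theorem hm_at {p : G → V} {y : G} (h : p y ∈ (A.c i).source) (d : DifferentiableAt ℝ p y) :
    (∀ v, Θ (p y) (fderiv ℝ p y (I • v)) = I • Θ (p y) (fderiv ℝ p y v)) ↔
      DifferentiableAt ℂ (fun w => A.c i (p w)) y := by
  have k := (d1 A h).hasFDerivAt.comp y d.hasFDerivAt
  rw [cdiff_iff, show fderiv ℝ (fun w => A.c i (p w)) y = _ from k.fderiv]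
  exact ⟨fun a => ⟨k.differentiableAt, fun v => (key A h).1 (a v)⟩, fun a v => (key A h).2 (a.2 v)⟩

variable [FiniteDimensional ℂ V] [FiniteDimensional ℂ G]

theorem an {u : V → G} (h : q ∈ (A.c i).source) (k : ∀ᶠ p in 𝓝 q, CR Θ u p) :
    AnalyticAt ℂ (fun z => u ((A.c i).symm z)) (A.c i q) ∧ ContDiffAt ℝ ∞ u q := by
  have a : AnalyticAt ℂ (fun z => u ((A.c i).symm z)) (A.c i q) := by
    refine an_of ?_
    filter_upwards [((A.c i).tendsto_symm h).eventually k,
      (A.c i).open_target.mem_nhds ((A.c i).map_source h)] with w h1 h2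
    have := (cr_iff A ((A.c i).map_target h2)).1 h1
    rwa [(A.c i).right_inv h2] at this
  exact ⟨a, ((sm_of a).comp q (A.sm i q h)).congr_of_eventuallyEq
    (((A.c i).eventually_left_inverse h).mono fun p hp => (congrArg u hp).symm)⟩

theorem hm_iff {p : G → V} {y : G} (h : p y ∈ (A.c i).source) :
    (∀ᶠ w in 𝓝 y, HM Θ p w) ↔ ContinuousAt p y ∧ AnalyticAt ℂ (fun w => A.c i (p w)) y := by
  have := FiniteDimensional.complete ℂ V
  refine ⟨fun k => ?_, fun ⟨c, a⟩ => ?_⟩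
  · have c := k.self_of_nhds.1.continuousAt
    refine ⟨c, an_of ?_⟩
    filter_upwards [k, c.eventually ((A.c i).open_source.mem_nhds h)] with w h1 h2
    exact (hm_at A h2 (h1.1.differentiableAt (by simp))).1 h1.2
  · filter_upwards [a.eventually_analyticAt,
      (c.eventually ((A.c i).open_source.mem_nhds h)).eventually_nhds] with w h1 h2
    have s : ContDiffAt ℝ ∞ p w := ((A.sm' i _ ((A.c i).map_source h2.self_of_nhds)).comp w
      (sm_of h1)).congr_of_eventuallyEq (h2.mono fun x hx => ((A.c i).left_inv hx).symm)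
    exact ⟨s, (hm_at A h2.self_of_nhds (s.differentiableAt (by simp))).2 h1.differentiableAt⟩

theorem line (h : q ∈ (A.c i).source) (v : V) : A.line i q v 0 = q ∧
    fderiv ℝ (A.line i q v) 0 1 = v ∧ ∀ᶠ ζ in 𝓝 0, HM Θ (A.line i q v) ζ := by
  have e : A.line i q v 0 = q := by simp [At.line, (A.c i).left_inv h]
  have a : AnalyticAt ℂ (fun ζ : ℂ => A.c i q + ζ • fderiv ℝ (A.c i) q v) 0 := by fun_prop
  have l : HasFDerivAt (fun ζ : ℂ => A.c i q + ζ • fderiv ℝ (A.c i) q v) _ 0 :=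
    (((hasDerivAt_id (0 : ℂ)).smul_const _).const_add _).hasFDerivAt.restrictScalars ℝ
  have k := HasFDerivAt.comp (0 : ℂ) (g := (A.c i).symm)
    (by simpa using (d2 A h).hasFDerivAt) l
  refine ⟨e, ?_, (hm_iff A (i := i) (e.symm ▸ h)).2 ⟨k.continuousAt, a.congr ?_⟩⟩
  · rw [show fderiv ℝ (A.line i q v) 0 = _ from k.fderiv]
    simpa using left A h v
  · filter_upwards [a.continuousAt.eventually ((A.c i).open_target.mem_nhds
      (by simpa using (A.c i).map_source h))] with ζ hζ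
    exact ((A.c i).right_inv hζ).symm

include A in
theorem inv {O : Set V} {Z : V → V} (h1 : IsOpen O) (h2 : O ⊆ T) (h3 : ∀ q ∈ O, CR Θ Z q)
    (h4 : ∀ q ∈ O, Function.Injective (fderiv ℝ Z q)) : IsOpen (Z '' O) ∧ ∀ g : V → V,
      (∀ q ∈ O, g (Z q) = q) → ∀ q ∈ O, HM Θ g (Z q) ∧
        ∀ v, fderiv ℝ Z q (fderiv ℝ g (Z q) v) = v := by
  have := FiniteDimensional.complete ℂ V
  have k : ∀ q ∈ O, ∃ L : V ≃L[ℝ] V, (L : V →L[ℝ] V) = fderiv ℝ Z q ∧ ContDiffAt ℝ ∞ Z q ∧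
      HasFDerivAt Z (L : V →L[ℝ] V) q := fun q hq => by
    obtain ⟨i, hi⟩ := A.cover q (h2 hq)
    obtain ⟨L, hL⟩ := ex_equiv (h4 q hq)
    exact ⟨L, hL, (an A hi (eventually_of_mem (h1.mem_nhds hq) h3)).2, hL ▸ (h3 q hq).1.hasFDerivAt⟩
  refine ⟨isOpen_iff_mem_nhds.2 ?_, fun g hg q hq => ?_⟩
  · rintro _ ⟨q, hq, rfl⟩
    obtain ⟨L, -, s, d⟩ := k q hq
    rw [← (s.hasStrictFDerivAt' d (by simp)).map_nhds_eq_of_equiv]
    exact image_mem_map (h1.mem_nhds hq)
  · obtain ⟨L, e, s, d⟩ := k q hq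
    have st := s.hasStrictFDerivAt' d (by simp)
    have ev := eventually_of_mem (h1.mem_nhds hq) hg
    rw [HM, (st.to_local_left_inverse ev).hasFDerivAt.fderiv, hg q hq, ← e]
    refine ⟨⟨(s.to_localInverse d (by simp)).congr_of_eventuallyEq (st.localInverse_unique ev),
      fun v => ?_⟩, L.apply_symm_apply⟩
    obtain ⟨a, ha⟩ := (bij A (h2 hq)).2 (I • Θ q (L.symm v))
    have := (h3 q hq).2 _ _ ha
    rw [← e] at this
    exact (congrArg (Θ q) (L.symm_apply_eq.2 (by simpa using this.symm))).trans ha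

end C1

variable {V : Type} [NormedAddCommGroup V] [NormedSpace ℝ V] [NormedSpace ℂ V]
  [IsScalarTower ℝ ℂ V] [FiniteDimensional ℂ V]

theorem cal1 {T : Set V} {Θ : V → V →L[ℝ] V} (A : At T Θ) : A.Cal1 where
  bij _ := C1.bij A
  hol i j _ h k := (A.c i).right_inv h ▸ (C1.an A ((A.c i).map_target h) (eventually_of_mem
    ((A.c j).open_source.mem_nhds k) fun _ hp => ⟨C1.d1 A hp, fun _ _ => (C1.key A hp).1⟩)).1
  cr_iff _ _ _ _ _ _ _ _ := C1.cr_iff A
  an _ _ _ _ _ _ _ _ _ := C1.an A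
  hm_iff _ _ _ _ _ _ _ _ _ := C1.hm_iff A
  line _ _ := C1.line A
  inv _ _ h1 h2 h3 _ := C1.inv A h1 h2 h3

variable (V) in
theorem mkat : MKAT V := by
  intro T Θ J U Φ hT hU cov inj h
  have := FiniteDimensional.complete ℂ V
  have k : ∀ j, ∀ q ∈ T, q ∈ U j → ∃ L : V ≃L[ℝ] V, HasFDerivAt (Φ j) (L : V →L[ℝ] V) q :=
    fun j q a b => by
      obtain ⟨s, L, hL⟩ := h j q a b
      obtain ⟨L', e⟩ := C1.ex_equiv (D := fderiv ℝ (Φ j) q) fun v w e =>
        inj q a (L.injective (by rwa [← hL, ← hL]))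
      exact ⟨L', e ▸ (s.differentiableAt (by simp)).hasFDerivAt⟩
  have k' : ∀ q : T, ∃ (j : J) (e : OpenPartialHomeomorph V V), q.1 ∈ e.source ∧
      e.source ⊆ T ∩ U j ∧ (e : V → V) = Φ j := fun q => by
    obtain ⟨j, hj⟩ := cov q q.2
    obtain ⟨L, d⟩ := k j q q.2 hj
    have s := (h j q q.2 hj).1
    exact ⟨j, (s.toOpenPartialHomeomorph _ d (by simp)).restrOpen _ (hT.inter (hU j)),
      ⟨s.mem_toOpenPartialHomeomorph_source d (by simp), q.2, hj⟩, inter_subset_right, rfl⟩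
  choose j e a b c using k'
  refine ⟨⟨T, e, hT, fun i q hq => (b i hq).1, fun q hq => ⟨⟨q, hq⟩, a _⟩,
    fun i q hq => c i ▸ (h _ q (b i hq).1 (b i hq).2).1, fun i z hz => ?_,
    fun i q hq => c i ▸ (h _ q (b i hq).1 (b i hq).2).2⟩, j,
    fun i => ⟨fun q hq => (b i hq).2, congrFun (c i)⟩⟩
  have m := b i ((e i).map_target hz)
  obtain ⟨L, d⟩ := k _ _ m.1 m.2
  have s := (h _ _ m.1 m.2).1
  rw [← c i] at d s
  exact (e i).contDiffAt_symm hz d s

end Vale.Agent.P253W.X
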