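import Vale.Agent.P253W.X.Mat
import Vale.Agent.P253W.X.Cal1
import Vale.Agent.P253W.X.Cal2

/-!
# P253W, block X, row FW: the weights on a fibre
-/

open scoped ContDiff Topology Matrix ComplexOrder
open Set Filter
open Vale.Agent.P272.K (Cm)
open Complex (I)

noncomputable section

namespace Vale.Agent.P253W.X

namespace Fw

variable {n : ℕ}

theorem en_sm {m : WithTop ℕ∞} : ContDiff ℝ m (en : Cm n → ℝ) := by
  unfold en
  refine ContDiff.sum fun i _ => ?_
  exact (contDiff_norm_sq ℝ).comp (contDiff_apply ℝ ℂ i)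

theorem en_zero : en (0 : Cm n) = 0 := by simp [en]

theorem en_pos {v : Cm n} (h : v ≠ 0) : 0 < en v :=
  lt_of_lt_of_le (pow_pos (norm_pos_iff.2 h) 2) (sq_le_en v)

theorem en_add_le (a b : Cm n) : √(en (a + b)) ≤ √(en a) + √(en b) := by
  have h := nr_add_le (A := (1 : Mx n)) a b Matrix.PosSemidef.one
  simpa only [nr, qf_one] using h

theorem en_neg (a : Cm n) : en (-a) = en a := by simp [en]

theorem en_smul (c : ℂ) (a : Cm n) : en (c • a) = ‖c‖ ^ 2 * en a := by
  rw [← qf_one, qf_smul, qf_one]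

theorem cs2 (a b : Cm n) : ‖a ⬝ᵥ star b‖ ^ 2 ≤ en a * en b := by
  have h := X.cs (A := (1 : Mx n)) a b Matrix.PosSemidef.one
  rw [hf_one, nr, nr, qf_one, qf_one] at h
  refine (pow_le_pow_left₀ (norm_nonneg _) h 2).trans (le_of_eq ?_)
  rw [mul_pow, Real.sq_sqrt (en_nonneg _), Real.sq_sqrt (en_nonneg _)]

theorem isCompact_en (c : ℝ) : IsCompact {q : Cm n | en q ≤ c} :=
  (isCompact_closedBall (0 : Cm n) √c).of_isClosed_subset
    (isClosed_le (en_sm (m := 0)).continuous continuous_const) fun q hq =>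
    mem_closedBall_zero_iff.2 (Real.le_sqrt_of_sq_le ((sq_le_en q).trans hq))

variable {κ : ℝ} (Φ : Fb n κ) {q : Cm n}

theorem grad (hq : q ∈ UB n) {v v' : Cm n} (h : Φ.Θ q v' = I • Φ.Θ q v) :
    fderiv ℝ en q v ^ 2 + fderiv ℝ en q v' ^ 2 ≤ 4 * (en (Φ.Θ q v) * en q) := by
  rw [Φ.dD q hq, Φ.dD q hq, h, smul_dotProduct]
  have h1 := cs2 (Φ.Θ q v) q
  generalize Φ.Θ q v ⬝ᵥ star q = t at h1 ⊢
  rw [Complex.sq_norm, Complex.normSq_apply] at h1
  simp only [smul_eq_mul, Complex.mul_re, Complex.I_re, Complex.I_im]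
  nlinarith

theorem cmp (hκ : κ ≤ 1 / 4) (hq : q ∈ UB n) (v : Cm n) :
    en v ≤ 2 * en (Φ.Θ q v) ∧ en (Φ.Θ q v) ≤ 2 * en v := by
  have h0 := Φ.κ_pos
  have h1 : en q < 1 := hq
  have h2 := en_nonneg q
  have h3 : κ * en q ≤ 1 / 4 := by nlinarith
  have h4 : √(en (Φ.Θ q v - v)) ≤ 1 / 4 * √(en v) := by
    refine Real.sqrt_le_iff.2 ⟨by positivity, (Φ.near q hq v).trans ?_⟩
    rw [mul_pow (1 / 4), Real.sq_sqrt (en_nonneg _)]
    exact mul_le_mul_of_nonneg_right (pow_le_pow_left₀ (by positivity) h3 2) (en_nonneg _)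
  have h5 := en_add_le (Φ.Θ q v - v) v
  have h6 := en_add_le (-(Φ.Θ q v - v)) (Φ.Θ q v)
  rw [sub_add_cancel] at h5
  rw [en_neg, neg_sub, sub_add_cancel] at h6
  have h7 := Real.sq_sqrt (en_nonneg v)
  have h8 := Real.sq_sqrt (en_nonneg (Φ.Θ q v))
  have h9 := Real.sqrt_nonneg (en v)
  have h10 := Real.sqrt_nonneg (en (Φ.Θ q v))
  generalize √(en v) = a at *
  generalize √(en (Φ.Θ q v)) = b at *
  constructor <;> nlinarith

end Fw

open Fw in
/-- **the row FW** -/
theorem fw (n : ℕ) : FW n := by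
  refine ⟨1 / (4 * (n + 3)), by positivity, fun κ hκ Φ => ?_⟩
  have c1 := cal1 Φ.A
  have c2 := cal2 Φ.A c1
  have h0 := Φ.κ_pos
  have hκ1 : κ * (n + 3) ≤ 1 / 4 := by
    rw [le_div_iff₀ (by positivity)] at hκ
    linarith
  have hκ2 : κ ≤ 1 / 4 := by nlinarith [Nat.cast_nonneg (α := ℝ) n]
  have hl : ∀ q ∈ UB n, ∀ v, (4 - κ * en q) * en (Φ.Θ q v) ≤ Φ.A.lev en q v := fun q hq v => by
    linarith [(abs_le.1 (Φ.lev q hq v)).1]
  refine ⟨⟨Φ.A.op, subset_rfl, fun q hq => ?_, fun q hq v hv => ?_, fun c => ?_⟩,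
    fun q hq => cmp Φ hκ2 hq, fun p δ hp hp' hδ q hq v => ?_⟩
  · exact ((contDiffAt_const.sub en_sm.contDiffAt).log (sub_pos.2 hq).ne').neg
  · obtain ⟨v', hv'⟩ := (c1.bij q hq).2 (I • Φ.Θ q v)
    have h1 : 0 < 1 - en q := sub_pos.2 hq
    have s1 : ContDiffAt ℝ 2 (fun p : Cm n => (-1) * en p + 1) q :=
      (contDiffAt_const.mul en_sm.contDiffAt).add contDiffAt_const
    have e1 : (fun p : Cm n => -Real.log (1 - en p)) =
        fun p => (-1) * Real.log ((-1) * en p + 1) := by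
      funext p
      rw [show -1 * en p + 1 = 1 - en p by ring]
      ring
    have h2 : (-1) * en q + 1 ≠ 0 := by linarith
    have e2 : Φ.A.lev (fun _ => (1 : ℝ)) q v = 0 := by
      have := c2.smul (fun _ => (1 : ℝ)) 0 q hq contDiffAt_const v
      have h3 := c2.smul (fun _ => (1 : ℝ)) 1 q hq contDiffAt_const v
      have h4 := c2.max (fun _ => (1 : ℝ)) q hq contDiffAt_const isMaxFilter_const v
      have h5 := c2.max (fun _ => (-1) * (1 : ℝ)) q hq contDiffAt_const isMaxFilter_const v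
      rw [c2.smul _ _ q hq contDiffAt_const] at h5
      linarith
    rw [e1, c2.smul _ _ q hq (s1.log h2), c2.log _ q hq s1 h2 v v' hv',
      c2.add _ _ q hq (contDiffAt_const.mul en_sm.contDiffAt) contDiffAt_const,
      c2.smul _ _ q hq en_sm.contDiffAt, e2]
    have h3 : 0 < en (Φ.Θ q v) := by linarith [(cmp Φ hκ2 hq v).1, en_pos hv]
    have h4 : 0 < Φ.A.lev en q v := by
      refine lt_of_lt_of_le (mul_pos ?_ h3) (hl q hq v)
      nlinarith [en_nonneg q]
    have h5 : 0 < -1 * en q + 1 := by linarith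
    have h6 := div_pos h4 h5
    have h7 : 0 ≤ (fderiv ℝ (fun p : Cm n => -1 * en p + 1) q v ^ 2 +
      fderiv ℝ (fun p : Cm n => -1 * en p + 1) q v' ^ 2) / (-1 * en q + 1) ^ 2 := by positivity
    rw [add_zero, mul_div_assoc]
    linarith
  · refine (isCompact_en (1 - Real.exp (-c))).of_isClosed_subset ?_ fun q hq => ?_
    · have e : {q : Cm n | q ∈ UB n ∧ -Real.log (1 - en q) ≤ c} =
          {q | en q ≤ 1 - Real.exp (-c)} := by
        ext q
        refine ⟨fun h => ?_, fun h => ?_⟩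
        · have := (Real.le_log_iff_exp_le (sub_pos.2 h.1)).1 (neg_le.1 h.2)
          change en q ≤ _
          linarith
        · have h1 : en q ≤ 1 - Real.exp (-c) := h
          have h2 : en q < 1 := by linarith [Real.exp_pos (-c)]
          exact ⟨h2, neg_le.1 ((Real.le_log_iff_exp_le (sub_pos.2 h2)).2 (by linarith))⟩
      rw [e]
      exact isClosed_le (en_sm (m := 0)).continuous continuous_const
    · have := (Real.le_log_iff_exp_le (sub_pos.2 hq.1)).1 (neg_le.1 hq.2)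
      change en q ≤ _
      linarith
  · obtain ⟨v', hv'⟩ := (c1.bij q hq).2 (I • Φ.Θ q v)
    have h1 := en_nonneg q
    have h2 : 0 < en q + δ := by linarith
    have s1 : ContDiffAt ℝ 2 (fun p : Cm n => en p + δ) q := en_sm.contDiffAt.add contDiffAt_const
    have e2 : Φ.A.lev (fun _ => δ) q v = 0 := by
      have h4 := c2.max (fun _ => δ) q hq contDiffAt_const isMaxFilter_const v
      have h5 := c2.max (fun _ => (-1) * δ) q hq contDiffAt_const isMaxFilter_const v
      rw [c2.smul _ _ q hq contDiffAt_const] at h5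
      linarith
    have e3 : fderiv ℝ (fun p : Cm n => en p + δ) q = fderiv ℝ en q := fderiv_add_const _
    rw [c2.add _ _ q hq (contDiffAt_const.mul (s1.log h2.ne')) en_sm.contDiffAt,
      c2.smul _ _ q hq (s1.log h2.ne'), c2.log _ q hq s1 h2.ne' v v' hv',
      c2.add _ _ q hq en_sm.contDiffAt contDiffAt_const, e2, e3, add_zero]
    have h3 := grad Φ hq hv'
    have h4 := hl q hq v
    have h5 := en_nonneg (Φ.Θ q v)
    have h6 : en q < 1 := hq
    generalize fderiv ℝ en q v ^ 2 + fderiv ℝ en q v' ^ 2 = g at h3 ⊢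
    generalize Φ.A.lev en q v = L at h4 ⊢
    generalize en (Φ.Θ q v) = W at *
    have h7 : -(κ * W) ≤ L / (en q + δ) - g / (en q + δ) ^ 2 := by
      have a1 : g / (en q + δ) ^ 2 ≤ 4 * W / (en q + δ) := by
        rw [div_le_div_iff₀ (by positivity) h2]
        have : g ≤ 4 * W * (en q + δ) := by nlinarith
        nlinarith
      have a2 : (4 * W - κ * W * (en q + δ)) / (en q + δ) ≤ L / (en q + δ) := by
        refine div_le_div_of_nonneg_right ?_ h2.le
        nlinarith [mul_nonneg (mul_nonneg h0 h5) hδ.le]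
      rw [sub_div, mul_div_assoc (κ * W), div_self h2.ne', mul_one] at a2
      linarith
    have h8 := mul_le_mul_of_nonneg_left h7 hp
    have h9 : κ * en q * W ≤ κ * W := by nlinarith [mul_nonneg h0 h5]
    have h10 : p * (κ * W) ≤ (n + 2) * (κ * W) :=
      mul_le_mul_of_nonneg_right hp' (mul_nonneg h0 h5)
    nlinarith [mul_le_mul_of_nonneg_right hκ1 h5]

end Vale.Agent.P253W.X
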