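import Vale.Agent.P253W.X.Defs

/-!
# P253W, block X, row LINA: linear algebra and integrals
-/

open scoped ENNReal Topology ComplexConjugate ComplexOrder Matrix MatrixOrder
open MeasureTheory Set Metric Filter Matrix
open Vale.Agent.P272.K (Cm)

noncomputable section

namespace Vale.Agent.P253W.X

namespace Lina

variable {n : ℕ} {H S N P : Mx n} {a b r : ℝ} {v w : Cm n}

theorem qf_conj (S H : Mx n) (v : Cm n) : qf (S * H * Sᴴ) v = qf H (v ᵥ* S) := by
  rw [qf, qf, star_vecMul, ← mulVec_mulVec, ← mulVec_mulVec, dotProduct_mulVec]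

theorem qf_diag (l : Fin n → ℝ) (v : Cm n) :
    qf (diagonal fun i => (l i : ℂ)) v = ∑ i, l i * ‖v i‖ ^ 2 := by
  simp only [qf, dotProduct, mulVec_diagonal, Complex.re_sum, Pi.star_apply]
  refine Finset.sum_congr rfl fun i _ => ?_
  rw [mul_left_comm, Complex.star_def, Complex.mul_conj', Complex.re_ofReal_mul,
    ← Complex.ofReal_pow, Complex.ofReal_re]

theorem qf_one (t : ℝ) (v : Cm n) : qf ((t : ℂ) • 1) v = t * en v := by
  rw [smul_one_eq_diagonal, qf_diag, en, Finset.mul_sum]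

theorem en_vecMul (N : Mx n) (v : Cm n) : en (v ᵥ* N) = qf (N * Nᴴ) v := by
  simpa using (qf_one 1 _).symm.trans (qf_conj N _ v).symm

theorem en_nonneg (v : Cm n) : 0 ≤ en v := Finset.sum_nonneg fun _ _ => sq_nonneg _

theorem en_single (i : Fin n) : en (Pi.single i 1 : Cm n) = 1 := by
  simp [en, Pi.single_apply, apply_ite]

theorem norm_le (v : Cm n) : ‖v‖ ^ 2 ≤ en v := by
  rw [← Real.le_sqrt (norm_nonneg _) (en_nonneg v)]
  exact (pi_norm_le_iff_of_nonneg (Real.sqrt_nonneg _)).2 fun i => Real.le_sqrt_of_sq_le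
    (Finset.single_le_sum (f := fun i => ‖v i‖ ^ 2) (fun _ _ => sq_nonneg _) (Finset.mem_univ i))

theorem en_le (v : Cm n) : en v ≤ n * ‖v‖ ^ 2 :=
  (Finset.sum_le_card_nsmul _ _ _ fun i _ =>
    pow_le_pow_left₀ (norm_nonneg _) (norm_le_pi_norm v i) 2).trans_eq (by simp)

/-- the spectral theorem -/
theorem spec (h : H.IsHermitian) : ∃ (l : Fin n → ℝ) (U : Mx n), H.det.re = ∏ i, l i ∧
    (∀ v, en (v ᵥ* U) = en v ∧ qf H v = ∑ i, l i * ‖(v ᵥ* U) i‖ ^ 2) ∧
      ∀ i, ∃ v, en v = 1 ∧ qf H v = l i := by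
  have e : ∀ v, en (v ᵥ* h.eigenvectorUnitary.1) = en v ∧
      qf H v = ∑ i, h.eigenvalues i * ‖(v ᵥ* h.eigenvectorUnitary.1) i‖ ^ 2 := fun v => ⟨by
    rw [en_vecMul, show _ * h.eigenvectorUnitary.1ᴴ = 1 from h.eigenvectorUnitary.2.2]
    simpa using qf_one 1 v, by
    rw [← qf_diag, ← qf_conj]
    exact congrArg (qf · v) h.spectral_theorem⟩
  refine ⟨h.eigenvalues, _, ?_, e, fun i => ⟨Pi.single i 1 ᵥ* h.eigenvectorUnitary.1ᴴ, ?_⟩⟩
  · rw [h.det_eq_prod_eigenvalues, ← RCLike.ofReal_prod]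
    exact Complex.ofReal_re _
  rw [← (e _).1, (e _).2, vecMul_vecMul,
    show h.eigenvectorUnitary.1ᴴ * _ = 1 from h.eigenvectorUnitary.2.1, vecMul_one]
  exact ⟨en_single i, by simp [Pi.single_apply, apply_ite]⟩

theorem det (h : H.IsHermitian) (ha : 0 ≤ a) (h1 : ∀ v, a * en v ≤ qf H v)
    (h2 : ∀ v, qf H v ≤ b * en v) : a ^ n ≤ H.det.re ∧ H.det.re ≤ b ^ n := by
  obtain ⟨l, U, e, -, k⟩ := spec h
  have k1 : ∀ i, a ≤ l i ∧ l i ≤ b := fun i => by
    obtain ⟨v, v1, v2⟩ := k i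
    exact ⟨by simpa [v1, v2] using h1 v, by simpa [v1, v2] using h2 v⟩
  rw [e]
  exact ⟨by simpa using Finset.prod_le_prod (s := .univ) (fun _ _ => ha) fun i _ => (k1 i).1,
    by simpa using (Finset.prod_le_prod (s := .univ) (fun i _ => ha.trans (k1 i).1)
      fun i _ => (k1 i).2)⟩

theorem up (h : H.IsHermitian) (ha : 0 < a) (h1 : ∀ v, a * en v ≤ qf H v) (h2 : H.det.re ≤ b)
    (v : Cm n) : a ^ n * qf H v ≤ a * b * en v := by
  obtain ⟨l, U, e, k, k'⟩ := spec h
  have k1 : ∀ i, a ≤ l i := fun i => by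
    obtain ⟨v, v1, v2⟩ := k' i
    simpa [v1, v2] using h1 v
  rw [← (k v).1, (k v).2, en, Finset.mul_sum, Finset.mul_sum]
  refine Finset.sum_le_sum fun i _ => ?_
  rw [← mul_assoc]
  refine mul_le_mul_of_nonneg_right ?_ (sq_nonneg _)
  have := Finset.prod_le_prod (s := Finset.univ.erase i) (fun _ _ => ha.le) fun j _ => k1 j
  rw [Finset.prod_const, Finset.card_erase_of_mem (Finset.mem_univ i), Finset.card_fin] at this
  rw [e, ← Finset.prod_erase_mul _ _ (Finset.mem_univ i)] at h2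
  rw [← Nat.sub_add_cancel i.pos, pow_succ', mul_assoc]
  exact mul_le_mul_of_nonneg_left
    ((mul_le_mul_of_nonneg_right this (ha.le.trans (k1 i))).trans h2) ha.le

theorem det_mul_conj (S H : Mx n) : (S * H * Sᴴ).det = (‖S.det‖ ^ 2 : ℝ) * H.det := by
  rw [det_mul, det_mul, det_conjTranspose, mul_right_comm, Complex.star_def, Complex.mul_conj']
  simp

theorem hada (h : ∀ v, en (v ᵥ* N) ≤ b * en v) : ‖N.det‖ ^ 2 ≤ b ^ n := by
  have := (det (isHermitian_mul_conjTranspose_self N) le_rfl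
    (fun v => by simpa [← en_vecMul] using en_nonneg _) fun v => en_vecMul N v ▸ h v).2
  have e := det_mul_conj N 1
  rw [Matrix.mul_one, det_one, mul_one] at e
  rwa [e, Complex.ofReal_re] at this

theorem sq (h : H.PosDef) (r : ℝ) : ∃ S : Mx n, S * H * Sᴴ = ((r ^ 2 : ℝ) : ℂ) • 1 := by
  obtain ⟨C, rfl⟩ : ∃ C : Mx n, H = Cᴴ * C :=
    CStarAlgebra.nonneg_iff_eq_star_mul_self.1 h.posSemidef.nonneg
  have u : IsUnit C.det := by
    have := (isUnit_iff_isUnit_det _).1 h.isUnit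
    rw [det_mul] at this
    exact isUnit_of_mul_isUnit_right this
  refine ⟨(r : ℂ) • C⁻¹ᴴ, ?_⟩
  rw [conjTranspose_smul, conjTranspose_conjTranspose, Matrix.smul_mul, Matrix.smul_mul,
    Matrix.mul_smul, ← Matrix.mul_assoc, ← conjTranspose_mul, mul_nonsing_inv _ u,
    conjTranspose_one, Matrix.one_mul, mul_nonsing_inv _ u, smul_smul]
  simp [pow_two]

/-- the multiplication by `P` as a real linear map -/
def vm (P : Mx n) : Cm n →ₗ[ℝ] Cm n := (toLin' Pᵀ).restrictScalars ℝ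

theorem vm_apply (P : Mx n) (v : Cm n) : vm P v = v ᵥ* P := mulVec_transpose P v

theorem det_vm (P : Mx n) : (vm P).det = ‖P.det‖ ^ 2 := by
  rw [vm, LinearMap.det_restrictScalars, Algebra.norm_complex_apply, Complex.normSq_eq_norm_sq,
    LinearMap.det_toLin', det_transpose]

theorem blk {V W : Type} [AddCommGroup V] [Module ℝ V] [AddCommGroup W] [Module ℝ W]
    [FiniteDimensional ℝ V] [FiniteDimensional ℝ W] (L : V × W →ₗ[ℝ] V × W) (L' : W →ₗ[ℝ] W)
    (h : ∀ v, (L v).1 = v.1) (h' : ∀ v, L' v = (L (0, v)).2) : L.det = L'.det := by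
  classical
  let b := Module.Free.chooseBasis ℝ V
  let c := Module.Free.chooseBasis ℝ W
  rw [← LinearMap.det_toMatrix (b.prod c), ← LinearMap.det_toMatrix c,
    ← fromBlocks_toBlocks (LinearMap.toMatrix _ _ L), show toBlocks₁₂ _ = 0 from ?_,
    det_fromBlocks_zero₁₂, show toBlocks₁₁ _ = 1 from ?_, det_one, one_mul]
  · congr 1
    ext i j
    simp [toBlocks₂₂, LinearMap.toMatrix_apply, h']
  · ext i j
    simp [toBlocks₁₁, LinearMap.toMatrix_apply, h, one_apply, Finsupp.single_apply, eq_comm]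
  · ext i j
    simp [toBlocks₁₂, LinearMap.toMatrix_apply, h]

theorem det_sq (h : S * H * Sᴴ = ((r ^ 2 : ℝ) : ℂ) • 1) : ‖S.det‖ ^ 2 * H.det.re = r ^ (2 * n) := by
  have := congrArg (fun A : Mx n => A.det.re) h
  simp only [det_mul_conj, Complex.re_ofReal_mul, det_smul, det_one, mul_one,
    ← Complex.ofReal_pow, Complex.ofReal_re, Fintype.card_fin] at this
  rw [this, pow_mul]

theorem det_ne (hr : 0 < r) (h : S * H * Sᴴ = ((r ^ 2 : ℝ) : ℂ) • 1) : (vm S).det ≠ 0 := by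
  rw [det_vm]
  exact left_ne_zero_of_mul ((det_sq h).trans_ne (pow_pos hr _).ne')

theorem near : ∃ δ : ℝ, 0 < δ ∧ ∀ (H : Mx n) (L : Cm n →L[ℝ] Cm n), H.PosDef →
    (∀ v, qf H (L v - v) ≤ δ * qf H v) → 1 / 2 ≤ |L.det| ∧ |L.det| ≤ 2 := by
  obtain ⟨ε, e0, he⟩ := Metric.continuousAt_iff.1 ((ContinuousLinearMap.continuous_det (𝕜 := ℝ)
    (E := Cm n)).continuousAt (x := 1)) (1 / 2) one_half_pos
  refine ⟨(ε / 2) ^ 2 / (n + 1), by positivity, fun H L hH h => ?_⟩
  obtain ⟨S, hS⟩ := sq hH 1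
  let T := LinearMap.equivOfDetNeZero _ (det_ne one_pos hS)
  have q : ∀ v, qf H (T v) = en v := fun v => by
    rw [show T v = v ᵥ* S from vm_apply S v, ← qf_conj, hS, qf_one, one_pow, one_mul]
  let L' : Cm n →L[ℝ] Cm n := LinearMap.toContinuousLinearMap
    ((T.symm : Cm n →ₗ[ℝ] Cm n) ∘ₗ L.toLinearMap ∘ₗ (T.symm.symm : Cm n →ₗ[ℝ] Cm n))
  have := he (x := L') ((dist_eq_norm _ _).trans_lt ((ContinuousLinearMap.opNorm_le_bound _
    (half_pos e0).le fun v => ?_).trans_lt (half_lt_self e0)))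
  · rw [show L'.det = L.det from LinearMap.det_conj _ _, show (1 : Cm n →L[ℝ] Cm n).det = 1 from
      LinearMap.det_id, Real.dist_eq, abs_lt] at this
    rw [abs_of_pos (by linarith)]
    constructor <;> linarith
  have k := h (T v)
  rw [show L (T v) - T v = T ((L' - 1) v) by simp [L'], q, q] at k
  refine (pow_le_pow_iff_left₀ (norm_nonneg _) (by positivity) two_ne_zero).1
    ((norm_le _).trans (k.trans ?_))
  rw [mul_pow, div_mul_eq_mul_div, mul_div_assoc]
  refine mul_le_mul_of_nonneg_left ((div_le_iff₀ (by positivity)).2 ?_) (sq_nonneg _)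
  nlinarith [en_le v, sq_nonneg ‖v‖]

theorem chg (hr : 0 < r) (e : S * H * Sᴴ = ((r ^ 2 : ℝ) : ℂ) • 1)
    (g : Cm n → ℝ≥0∞) : (∫⁻ y, g y) * ENNReal.ofReal H.det.re =
      ENNReal.ofReal (r ^ (2 * n)) * ∫⁻ y, g (y ᵥ* S) := by
  have d := det_ne hr e
  have : ∫⁻ y, g y ∂Measure.map (vm S) volume = ∫⁻ y, g (vm S y) := lintegral_map_equiv g
    (LinearMap.equivOfDetNeZero _ d).toContinuousLinearEquiv.toHomeomorph.toMeasurableEquiv
  rw [Measure.map_linearMap_addHaar_eq_smul_addHaar volume d, lintegral_smul_measure] at this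
  rw [← lintegral_congr fun y => congrArg g (vm_apply S y), ← this,
    smul_eq_mul, ← mul_assoc, ← ENNReal.ofReal_mul (by positivity), mul_comm, ← det_sq e, ← det_vm,
    abs_of_nonneg (by rw [det_vm]; positivity), mul_right_comm, mul_inv_cancel₀ d, one_mul]

theorem int (hn : 1 ≤ n) : ∃ C : ℝ, ∀ (H : Mx n) (r : ℝ), H.PosDef → 0 < r →
    (∫⁻ y in {y | qf H y < r ^ 2}, ENNReal.ofReal (qf H y ^ (1 / 2 - n : ℝ))) *
      ENNReal.ofReal H.det.re ≤ ENNReal.ofReal (C * r) := by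
  have n1 : (1 : ℝ) ≤ n := Nat.one_le_cast.2 hn
  have f : Module.finrank ℝ (Cm n) = n * 2 := by simp [Module.finrank_pi_fintype]
  have I := (integrableOn_ball_of_norm_le_rpow (μ := volume) (f := fun y : Cm n =>
    ‖y‖ ^ (1 - 2 * n : ℝ)) (C := 1) (α := 2 * n - 1) (r := 1) (by omega) (by simp [f, mul_comm])
    (.of_forall fun y => by simp [abs_of_nonneg (Real.rpow_nonneg (norm_nonneg y) _)])
    (measurable_norm.pow_const _).aestronglyMeasurable).lintegral_lt_top
  refine ⟨(∫⁻ y in ball (0 : Cm n) 1, ENNReal.ofReal (‖y‖ ^ (1 - 2 * n : ℝ))).toReal,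
    fun H r hH hr => ?_⟩
  obtain ⟨S, hS⟩ := sq hH r
  have c : Continuous (qf H) := by unfold qf; fun_prop
  rw [← lintegral_indicator (isOpen_lt c continuous_const).measurableSet, chg hr hS,
    ENNReal.ofReal_mul ENNReal.toReal_nonneg, ENNReal.ofReal_toReal I.ne, mul_comm _ (ENNReal.ofReal r),
    ← lintegral_const_mul' _ _ ENNReal.ofReal_ne_top, ← lintegral_const_mul' _ _
      ENNReal.ofReal_ne_top, ← lintegral_indicator measurableSet_ball]
  refine lintegral_mono fun y => ?_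
  have q : qf H (y ᵥ* S) = r ^ 2 * en y := by rw [← qf_conj, hS, qf_one]
  by_cases k : y ᵥ* S ∈ {y | qf H y < r ^ 2}
  swap
  · simp [indicator_of_notMem k]
  have k1 : en y < 1 := by
    rw [mem_ofPred_eq, q] at k
    exact (mul_lt_iff_lt_one_right (by positivity)).1 k
  rw [indicator_of_mem k, indicator_of_mem (mem_ball_zero_iff.2 (by
    nlinarith [norm_le y, norm_nonneg y])), ← ENNReal.ofReal_mul (by positivity),
    ← ENNReal.ofReal_mul hr.le, q, Real.mul_rpow (sq_nonneg r) (en_nonneg y), ← mul_assoc,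
    ← Real.rpow_natCast, ← Real.rpow_natCast, ← Real.rpow_mul hr.le, ← Real.rpow_add hr,
    show ((2 * n : ℕ) + (2 : ℕ) * (1 / 2 - n) : ℝ) = 1 by push_cast; ring, Real.rpow_one]
  refine ENNReal.ofReal_le_ofReal (mul_le_mul_of_nonneg_left ?_ hr.le)
  rcases eq_or_ne y 0 with rfl | y0
  · rw [show en (0 : Cm n) = 0 by simp [en], norm_zero, Real.zero_rpow (by linarith),
      Real.zero_rpow (by linarith)]
  refine (Real.rpow_le_rpow_of_nonpos (pow_pos (norm_pos_iff.2 y0) 2) (norm_le y)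
    (by linarith)).trans_eq ?_
  rw [← Real.rpow_natCast, ← Real.rpow_mul (norm_nonneg y)]
  congr 1
  push_cast
  ring

end Lina

open Lina

/-- **LINA** -/
theorem lina (n : ℕ) : LINA n where
  sq _ r h _ := Lina.sq h r
  near := near
  mul L L' P h := by
    rw [show L'.det = (vm P ∘ₗ L.toLinearMap).det from congrArg _
      (LinearMap.ext fun v => (h v).trans (vm_apply _ _).symm), LinearMap.det_comp, det_vm, abs_mul,
      abs_of_nonneg (sq_nonneg _)]
  mul' L L' P c h := by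
    let T : ℂ × Cm n →ₗ[ℝ] ℂ × Cm n := (LinearMap.fst ℝ _ _).prod (vm P ∘ₗ (LinearMap.snd ℝ _ _ +
      (LinearMap.toSpanSingleton ℂ _ c).restrictScalars ℝ ∘ₗ LinearMap.fst ℝ _ _))
    rw [show L'.det = (T ∘ₗ L.toLinearMap).det from congrArg _
      (LinearMap.ext fun v => (h v).trans (by simp [T, vm_apply])), LinearMap.det_comp,
      blk T (vm P) (fun _ => rfl) (by simp [T]), det_vm, abs_mul, abs_of_nonneg (sq_nonneg _)]
  blk L L' := blk L.toLinearMap L'.toLinearMap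
  det _ _ _ h ha := Lina.det h ha.le
  up _ _ _ := up
  tr N b h := (norm_sum_le _ _).trans ((Finset.sum_le_card_nsmul _ _ b fun i _ => by
    simpa [hf, en_single] using h (Pi.single i 1) (Pi.single i 1)).trans_eq (by simp))
  hada _ _ := hada
  chg _ _ _ _ := chg
  int := int

end Vale.Agent.P253W.X
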