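import Vale.Agent.P253W.X.Defs

/-!
# P253W, block X: row VAN (vanishing which is forced by singular weights)
-/

open scoped Topology ENNReal
open MeasureTheory Set Metric Filter Asymptotics
open Vale.Agent.P272.K (Cm)

noncomputable section

namespace Vale.Agent.P253W.X

namespace VanL

variable {n : ℕ} {Y : Type} [MeasurableSpace Y]

/-- `D` is a product over `ℂⁿ` -/
def Tb (μ : Measure Y) (π : Y → Cm n) (D : Set Y) : Prop := ∃ d : ℝ, 0 < d ∧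
  ∀ (x : Cm n) (r : ℝ), MeasurableSet (D ∩ π ⁻¹' ball x r) ∧
    ENNReal.ofReal d * volume (ball x r) ≤ μ (D ∩ π ⁻¹' ball x r)

/-- the weighted integrals are bounded -/
def Bd (μ : Measure Y) (π : Y → Cm n) (w : Y → ℂ) (O : Set Y) (p : ℝ) : Prop :=
  ∃ C : ℝ≥0∞, C < ⊤ ∧ ∀ k : ℕ,
    ∫⁻ q in O, ENNReal.ofReal (‖w q‖ ^ 2 * (‖π q‖ ^ 2 + 1 / (k + 1)) ^ (-p)) ∂μ ≤ C

variable {μ : Measure Y} {π : Y → Cm n} {D O : Set Y} {w : Y → ℂ} {p : ℝ}

theorem norm_le {v y : Cm n} {s ρ : ℝ} (hs : 0 < s) (h : y ∈ ball (s • v) (s * ρ)) :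
    ‖y‖ ≤ s * (‖v‖ + ρ) := by
  have a1 := mem_ball_iff_norm.1 h
  have a2 := norm_add_le (y - s • v) (s • v)
  rw [sub_add_cancel, norm_smul, Real.norm_of_nonneg hs.le] at a2
  linarith

theorem key (hD : Tb μ π D) (hB : Bd μ π w O p) {v : Cm n} {ρ c ε : ℝ} (j : ℕ) (hρ : 0 < ρ)
    (hc : 0 < c) (hε : 0 < ε) (hp : (n : ℝ) + j < p) (hS : ∀ s ∈ Ioo 0 ε, ∀ q ∈ D,
      π q ∈ ball (s • v) (s * ρ) → q ∈ O ∧ c * s ^ j ≤ ‖w q‖) : False := by
  obtain ⟨d, hd, hD⟩ := hD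
  obtain ⟨C, hC, hB⟩ := hB
  have hp0 : -p ≤ 0 := by
    have : (0 : ℝ) ≤ n + j := by positivity
    linarith
  set b := (volume (ball (0 : Cm n) 1)).toReal with hb
  have hb0 : 0 < b := ENNReal.toReal_pos (measure_ball_pos _ _ one_pos).ne' measure_ball_lt_top.ne
  have hb1 : volume (ball (0 : Cm n) 1) = ENNReal.ofReal b :=
    (ENNReal.ofReal_toReal measure_ball_lt_top.ne).symm
  have hfr : Module.finrank ℝ (Cm n) = 2 * n := by simp [Module.finrank_pi_fintype, mul_comm]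
  set R := (‖v‖ + ρ) ^ 2 + 1 with hR
  have hR0 : 0 < R := by positivity
  have hK : 0 < c ^ 2 * R ^ (-p) * d * ρ ^ (2 * n) * b := by positivity
  have t1 : Tendsto (fun k : ℕ => 1 / ((k : ℝ) + 1)) atTop (𝓝[>] 0) :=
    tendsto_nhdsWithin_iff.2 ⟨tendsto_one_div_add_atTop_nhds_zero_nat,
      Eventually.of_forall fun k => mem_Ioi.2 (by positivity)⟩
  have t2 := ((tendsto_rpow_neg_nhdsGT_zero (y := n + j - p) (by linarith)).comp t1).const_mul_atTop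
    hK
  have t3 := (tendsto_one_div_add_atTop_nhds_zero_nat (𝕜 := ℝ)).eventually
    (gt_mem_nhds (pow_pos hε 2))
  obtain ⟨k, h1, h2⟩ := ((t2.eventually (eventually_gt_atTop C.toReal)).and t3).exists
  have h3 := hB k
  have hδ : 0 < 1 / ((k : ℝ) + 1) := by positivity
  simp only [Function.comp_apply] at h1
  generalize 1 / ((k : ℝ) + 1) = δ at h1 h2 h3 hδ
  obtain ⟨s, hs, rfl⟩ : ∃ s : ℝ, 0 < s ∧ δ = s ^ 2 :=
    ⟨√δ, Real.sqrt_pos.2 hδ, (Real.sq_sqrt hδ.le).symm⟩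
  have hsε : s ∈ Ioo 0 ε := ⟨hs, lt_of_pow_lt_pow_left₀ 2 hε.le h2⟩
  obtain ⟨hm, hv⟩ := hD (s • v) (s * ρ)
  have a1 : ENNReal.ofReal ((c * s ^ j) ^ 2 * (s ^ 2 * R) ^ (-p)) *
      μ (D ∩ π ⁻¹' ball (s • v) (s * ρ)) ≤ C := by
    rw [← setLIntegral_const]
    refine le_trans (setLIntegral_mono' hm fun q hq => ENNReal.ofReal_le_ofReal ?_)
      ((lintegral_mono_set fun q hq => (hS s hsε q hq.1 hq.2).1).trans h3)
    have b1 := norm_le hs hq.2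
    have b2 : ‖π q‖ ^ 2 ≤ (s * (‖v‖ + ρ)) ^ 2 := by gcongr
    refine mul_le_mul (pow_le_pow_left₀ (by positivity) (hS s hsε q hq.1 hq.2).2 2)
      (Real.rpow_le_rpow_of_nonpos (by positivity) ?_ hp0) (by positivity) (by positivity)
    rw [hR]
    linarith
  rw [Measure.addHaar_ball_of_pos _ _ (by positivity), hfr, hb1,
    ← ENNReal.ofReal_mul (by positivity), ← ENNReal.ofReal_mul hd.le] at hv
  have a2 := (mul_le_mul_right hv _).trans a1
  rw [← ENNReal.ofReal_mul (by positivity), ENNReal.ofReal_le_iff_le_toReal hC.ne] at a2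
  refine h1.not_ge (le_trans (le_of_eq ?_) a2)
  rw [Real.mul_rpow hδ.le hR0.le, sub_eq_add_neg, Real.rpow_add hδ, Real.rpow_add hδ,
    Real.rpow_natCast, Real.rpow_natCast]
  ring

theorem keyA (hD : Tb μ π D) (hB : Bd μ π w O p) (hp : (n : ℝ) < p) {c ε : ℝ} (hc : 0 < c)
    (hε : 0 < ε) (h : ∀ q ∈ D, ‖π q‖ < ε → q ∈ O ∧ c ≤ ‖w q‖) : False :=
  key hD hB (v := 0) 0 one_pos hc hε (by simpa using hp) fun s hs q hq hb => by
    simpa using h q hq (lt_trans (by simpa using hb) hs.2)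

theorem keyB (L : Cm n →L[ℝ] ℂ) {v : Cm n} (hv : L v ≠ 0) : ∃ η : ℝ, 0 < η ∧
    ∀ {D : Set Y} {ε : ℝ}, Tb μ π D → Bd μ π w O p → (n : ℝ) + 1 < p → 0 < ε →
      (∀ q ∈ D, ‖π q‖ < ε → q ∈ O ∧ ‖w q - L (π q)‖ ≤ η * ‖π q‖) → False := by
  have ha : 0 < ‖L v‖ := norm_pos_iff.2 hv
  obtain ⟨ρ, hρ, h1⟩ : ∃ ρ : ℝ, 0 < ρ ∧ ‖L‖ * ρ ≤ ‖L v‖ / 4 :=
    ⟨‖L v‖ / 4 / (‖L‖ + 1), by positivity, by
      rw [← mul_div_assoc, div_le_iff₀ (by positivity)]
      nlinarith⟩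
  have hR : 0 < ‖v‖ + ρ := by positivity
  refine ⟨‖L v‖ / 4 / (‖v‖ + ρ), by positivity, fun {D ε} hD hB hp hε h => ?_⟩
  refine key hD hB (v := v) (c := ‖L v‖ / 2) (ε := ε / (‖v‖ + ρ)) 1 hρ (by positivity)
    (by positivity) (by simpa using hp) fun s hs q hq hb => ?_
  have b1 := norm_le hs.1 hb
  obtain ⟨b2, b3⟩ := h q hq (b1.trans_lt ((lt_div_iff₀ hR).1 hs.2))
  refine ⟨b2, ?_⟩
  have b4 : ‖w q - L (π q)‖ ≤ s * (‖L v‖ / 4) := by
    refine b3.trans ((mul_le_mul_of_nonneg_left b1 (by positivity)).trans (le_of_eq ?_))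
    field_simp
  have b5 : ‖L (π q) - s • L v‖ ≤ s * (‖L v‖ / 4) := by
    rw [← map_smul, ← map_sub]
    refine (L.le_of_opNorm_le_of_le le_rfl (mem_ball_iff_norm.1 hb).le).trans ?_
    nlinarith [hs.1]
  have b6 := norm_sub_norm_le (s • L v) (w q)
  have b7 := norm_sub_le_norm_sub_add_norm_sub (w q) (L (π q)) (s • L v)
  rw [norm_smul, Real.norm_of_nonneg hs.1.le, norm_sub_rev] at b6
  rw [pow_one]
  linarith

theorem tb_fib : Tb (volume : Measure (Cm n)) (fun y => y) univ :=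
  ⟨1, one_pos, fun x r => by simpa using measurableSet_ball⟩

theorem tb_tub (τ : ℂ) {ε : ℝ} (hε : 0 < ε) :
    Tb (volume : Measure (ℂ × Cm n)) Prod.snd (ball τ ε ×ˢ univ) := by
  refine ⟨(volume (ball τ ε)).toReal,
    ENNReal.toReal_pos (measure_ball_pos _ _ hε).ne' measure_ball_lt_top.ne, fun x r => ?_⟩
  have e : (ball τ ε ×ˢ univ ∩ Prod.snd ⁻¹' ball x r : Set (ℂ × Cm n)) = ball τ ε ×ˢ ball x r := by
    ext q
    simp
  rw [e, ENNReal.ofReal_toReal measure_ball_lt_top.ne]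
  exact ⟨measurableSet_ball.prod measurableSet_ball, (Measure.prod_prod _ _).ge⟩

theorem near {τ : ℂ} {P : ℂ × Cm n → Prop} (h : ∀ᶠ q in 𝓝 (τ, (0 : Cm n)), P q) :
    ∃ ε : ℝ, 0 < ε ∧ ∀ q ∈ (ball τ ε ×ˢ univ : Set (ℂ × Cm n)), ‖q.2‖ < ε → P q := by
  obtain ⟨ε, hε, h⟩ := Metric.eventually_nhds_iff_ball.1 h
  refine ⟨ε, hε, fun q hq h2 => h q ?_⟩
  rw [← ball_prod_same]
  exact ⟨hq.1, mem_ball_zero_iff.2 h2⟩

theorem tub0 {w : ℂ × Cm n → ℂ} {τ : ℂ} {O : Set (ℂ × Cm n)} (hO : O ∈ 𝓝 (τ, (0 : Cm n)))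
    (hw : ContinuousAt w (τ, 0)) (hB : Bd volume Prod.snd w O p) (hp : (n : ℝ) < p) :
    w (τ, 0) = 0 := by
  by_contra h
  have hc : 0 < ‖w (τ, 0)‖ := norm_pos_iff.2 h
  obtain ⟨ε, hε, H⟩ := near ((show ∀ᶠ q in 𝓝 (τ, (0 : Cm n)), q ∈ O from hO).and
    (hw.norm.eventually (le_mem_nhds (half_lt_self hc))))
  exact keyA (tb_tub τ hε) hB hp (half_pos hc) hε H

end VanL

open VanL

theorem van (n : ℕ) : VAN n where
  fib := fun w O p C hO hw hC h => by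
    have hB : Bd volume (fun y => y) w O p := ⟨C, hC, h⟩
    have h0 : (n : ℝ) < p → w 0 = 0 := fun hp => by
      by_contra h
      have hc : 0 < ‖w 0‖ := norm_pos_iff.2 h
      obtain ⟨ε, hε, H⟩ := Metric.eventually_nhds_iff_ball.1
        ((show ∀ᶠ q in 𝓝 (0 : Cm n), q ∈ O from hO).and
          (hw.continuousAt.norm.eventually (le_mem_nhds (half_lt_self hc))))
      exact keyA tb_fib hB hp (half_pos hc) hε fun q _ hq => H q (mem_ball_zero_iff.2 hq)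
    refine ⟨h0, fun hp v => ?_⟩
    by_contra hv
    obtain ⟨η, hη, K⟩ := keyB (μ := volume) (π := fun y => y) (w := w) (O := O) (p := p) _ hv
    obtain ⟨ε, hε, H⟩ := Metric.eventually_nhds_iff_ball.1
      ((show ∀ᶠ q in 𝓝 (0 : Cm n), q ∈ O from hO).and
        ((hw.differentiableAt one_ne_zero).hasFDerivAt.isLittleO.bound hη))
    refine K tb_fib hB hp hε fun q _ hq => ?_
    simpa [h0 (by linarith)] using H q (mem_ball_zero_iff.2 hq)
  tub := fun w τ O p C hO hw hC h hp => by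
    have hB : Bd volume Prod.snd w O p := ⟨C, hC, h⟩
    refine ⟨tub0 hO hw.continuousAt hB (by linarith), fun v => ?_⟩
    by_contra hv
    obtain ⟨η, hη, K⟩ := keyB (μ := volume) (π := Prod.snd) (w := w) (O := O) (p := p)
      ((fderiv ℝ w (τ, 0)).comp (ContinuousLinearMap.inr ℝ ℂ (Cm n))) (v := v) hv
    have t : Tendsto (fun q : ℂ × Cm n => (q.1, (0 : Cm n))) (𝓝 (τ, 0)) (𝓝 (τ, 0)) :=
      Continuous.tendsto' (by fun_prop) _ _ rfl
    have e1 : ∀ᶠ q in 𝓝 (τ, (0 : Cm n)), w (q.1, 0) = 0 := by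
      filter_upwards [t.eventually (eventually_mem_nhds_iff.2 hO),
        t.eventually (hw.eventually (by simp))] with q h1 h2
      exact tub0 h1 h2.continuousAt hB (by linarith)
    have e2 := (tendsto_id.prodMk_nhds t).eventually
      ((hw.hasStrictFDerivAt one_ne_zero).isLittleO.bound hη)
    obtain ⟨ε, hε, H⟩ := near ((show ∀ᶠ q in 𝓝 (τ, (0 : Cm n)), q ∈ O from hO).and (e1.and e2))
    refine K (tb_tub τ hε) hB hp hε fun q hq h2 => ?_
    obtain ⟨a1, a2, a3⟩ := H q hq h2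
    have e : q - (q.1, 0) = (0, q.2) := Prod.ext (sub_self _) (sub_zero _)
    refine ⟨a1, ?_⟩
    simpa [a2, e] using a3

end Vale.Agent.P253W.X
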