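import Vale.Agent.P253W.X.Psh
import Vale.Agent.P253W.X.Fw
import Vale.Agent.P253W.X.Bern
import Vale.Agent.P253W.X.Van
import Vale.Agent.P253W.X.Lina

/-!
# P253W, row X.G1A: holomorphic maps which are near the identity (helper16)
-/

open scoped ContDiff ENNReal Topology ComplexConjugate ComplexOrder Matrix
open MeasureTheory Set Metric Filter
open Vale.Agent.P272.K (Cm)
open Complex (I)

noncomputable section

namespace Vale.Agent.P253W.X

namespace G1a

variable {n : ℕ}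

theorem ub_open : IsOpen (UB n) := isOpen_lt (Bern.en_sm (n := n)).continuous continuous_const

theorem ub_zero : (0 : Cm n) ∈ UB n := by simp [UB, en]

theorem ub_vol : volume (UB n) < ⊤ :=
  (measure_mono (show UB n ⊆ {q | en q ≤ 1} from fun q h => show en q ≤ 1 from le_of_lt h)).trans_lt
    (Bern.cpt (n := n) 1).measure_lt_top

theorem int_le {f g : Cm n → ℝ} {c : ℝ} (hc : 0 ≤ c) (h : ∀ q ∈ UB n, f q ≤ c * g q) :
    ∫⁻ q in UB n, ENNReal.ofReal (f q) ≤ ENNReal.ofReal c * ∫⁻ q in UB n, ENNReal.ofReal (g q) := by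
  rw [← lintegral_const_mul' _ _ ENNReal.ofReal_ne_top]
  refine setLIntegral_mono' ub_open.measurableSet fun q hq => ?_
  rw [← ENNReal.ofReal_mul hc]
  exact ENNReal.ofReal_le_ofReal (h q hq)

/-- the weights -/
def wt (n k : ℕ) (q : Cm n) : ℝ := (n + 3 / 2) * Real.log (en q + 1 / (k + 1)) + en q

theorem exp_wt (k : ℕ) (q : Cm n) : Real.exp (-wt n k q) =
    (en q + 1 / (k + 1)) ^ (-(n + 3 / 2 : ℝ)) * Real.exp (-en q) := by
  have := en_nonneg q
  rw [wt, neg_add, Real.exp_add, Real.rpow_def_of_pos (by positivity)]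
  congr 2
  ring

theorem exp_le (q : Cm n) : Real.exp (-en q) ≤ 1 := Real.exp_le_one_iff.2 (by
  linarith [en_nonneg q])

theorem le_exp {q : Cm n} (h : q ∈ UB n) : 1 / 3 ≤ Real.exp (-en q) := by
  have h1 : Real.exp (en q) ≤ 3 :=
    (Real.exp_le_exp.2 (le_of_lt h)).trans (by linarith [Real.exp_one_lt_d9])
  rw [Real.exp_neg, ← one_div]
  exact one_div_le_one_div_of_le (Real.exp_pos _) h1

variable {κ : ℝ} (Φ : Fb n κ) {q : Cm n}

theorem low (hq : q ∈ UB n) (k : ℕ) {a x : ℝ} (hx : 0 ≤ x) (h : en q + 1 / (k + 1) ≤ a) :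
    x * a ^ (-(n + 3 / 2 : ℝ)) ≤ 6 * (x * Real.exp (-wt n k q) * |(Φ.Θ q).det|) := by
  have e0 : 0 < en q + 1 / (k + 1) := by have := en_nonneg q; positivity
  have e1 := Real.rpow_le_rpow_of_nonpos e0 h (z := -(n + 3 / 2 : ℝ)) (neg_nonpos.2 (by positivity))
  have e2 := le_exp hq
  have e3 := (Φ.ν_bd q hq).1
  calc _ ≤ 6 * (x * ((en q + 1 / (k + 1)) ^ (-(n + 3 / 2 : ℝ)) * (1 / 3)) * (1 / 2)) := by
        nlinarith [mul_le_mul_of_nonneg_left e1 hx]
    _ ≤ _ := by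
        rw [exp_wt]
        gcongr

theorem up (hq : q ∈ UB n) (k : ℕ) {a x : ℝ} (hx : 0 ≤ x) (ha : 0 < a)
    (h : a ≤ en q + 1 / (k + 1)) :
    x * Real.exp (-wt n k q) * |(Φ.Θ q).det| ≤ 2 * (x * a ^ (-(n + 3 / 2 : ℝ))) := by
  have e1 := Real.rpow_le_rpow_of_nonpos ha h (z := -(n + 3 / 2 : ℝ)) (neg_nonpos.2 (by positivity))
  have e2 := exp_le q
  have e3 := (Φ.ν_bd q hq).2
  calc _ ≤ x * (a ^ (-(n + 3 / 2 : ℝ)) * 1) * 2 := by
        rw [exp_wt]
        gcongr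
    _ = _ := by ring

theorem fd (i : Fin n) (q v : Cm n) : fderiv ℝ (fun y : Cm n => y i) q v = v i := by
  rw [← fd_apply differentiableAt_fun_id, fderiv_fun_id]; rfl

theorem sm (i : Fin n) (q : Cm n) : ContDiffAt ℝ ∞ (fun y : Cm n => y i) q :=
  contDiffAt_apply ℝ ℂ i q

theorem db (hq : q ∈ UB n) (i : Fin n) (h : ∀ v, en v ≤ 2 * en (Φ.Θ q v)) {Q : Cm n → ℝ}
    (hQ : ∀ v, en (Φ.Θ q v) ≤ Q v) :
    DB Φ.Θ (fun y => y i) q fun v => 8 * (κ * en q) ^ 2 * Q v := fun v v' hv => by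
  have e : v i + I * v' i = I * -(Φ.Θ q v' - v') i - (Φ.Θ q v - v) i := by
    simp only [hv, Pi.sub_apply, Pi.smul_apply, smul_eq_mul]
    linear_combination (Φ.Θ q v i) * Complex.I_mul_I
  have e1 := norm_sub_le (I * -(Φ.Θ q v' - v') i) ((Φ.Θ q v - v) i)
  rw [norm_mul, Complex.norm_I, one_mul, norm_neg] at e1
  have e2 := (Bern.coord_le _ i).trans (Φ.near q hq v)
  have e3 := (Bern.coord_le _ i).trans (Φ.near q hq v')
  have e4 := h v
  have e5 := h v'
  rw [hv, Fw.en_smul, Complex.norm_I, one_pow, one_mul] at e5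
  have e6 := hQ v
  rw [fd, fd, e]
  calc _ ≤ (‖(Φ.Θ q v' - v') i‖ + ‖(Φ.Θ q v - v) i‖) ^ 2 := by gcongr
    _ ≤ 2 * ‖(Φ.Θ q v' - v') i‖ ^ 2 + 2 * ‖(Φ.Θ q v - v) i‖ ^ 2 := by
        nlinarith [sq_nonneg (‖(Φ.Θ q v' - v') i‖ - ‖(Φ.Θ q v - v) i‖)]
    _ ≤ 2 * ((κ * en q) ^ 2 * (2 * Q v)) + 2 * ((κ * en q) ^ 2 * (2 * Q v)) := by
        gcongr
        · exact e3.trans (by gcongr; linarith)
        · exact e2.trans (by gcongr; linarith)
    _ = _ := by ring

theorem hd {C : ℝ} (hC : 0 ≤ C)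
    (hI : ∫⁻ y in UB n, ENNReal.ofReal (en y ^ (1 / 2 - n : ℝ)) ≤ ENNReal.ofReal C) (i : Fin n)
    (k : ℕ) (h : ∀ q ∈ UB n, ∀ v, en v ≤ 2 * en (Φ.Θ q v))
    (lv : ∀ q ∈ UB n, ∀ v, en (Φ.Θ q v) ≤ Φ.A.lev (wt n k) q v) :
    Φ.A.HD volume (UB n) (fun q => |(Φ.Θ q).det|) (wt n k) (fun q => 8 * (κ * en q) ^ 2)
      (fun y => y i) (16 * κ ^ 2 * C) where
  ψ_sm q _ := by
    have := en_nonneg q
    exact (contDiffAt_const.mul ((Bern.en_sm.contDiffAt.add contDiffAt_const).log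
      (by positivity))).add Bern.en_sm.contDiffAt
  ψ_pos q hq v := (en_nonneg _).trans (lv q hq v)
  s_sm q _ := sm i q
  fin := by
    refine (int_le (g := fun _ => 1) (c := 2 * (1 / (k + 1)) ^ (-(n + 3 / 2 : ℝ))) (by positivity)
      fun q hq => ?_).trans_lt (ENNReal.mul_lt_top ENNReal.ofReal_lt_top (by simpa using ub_vol))
    have e2 : ‖q i‖ ^ 2 ≤ 1 := (Bern.coord_le q i).trans (le_of_lt hq)
    refine (up Φ hq k (a := 1 / (k + 1)) (sq_nonneg _) (by positivity)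
      (by linarith [en_nonneg q])).trans ?_
    rw [mul_one]
    exact mul_le_mul_of_nonneg_left (mul_le_of_le_one_left (by positivity) e2) zero_le_two
  Λ_cont := by
    have := (Bern.en_sm (n := n)).continuous
    fun_prop
  Λ_pos q _ := by positivity
  db q hq := db Φ hq i (h q hq) (lv q hq)
  C_pos := by positivity
  le := by
    refine (int_le (g := fun q => en q ^ (1 / 2 - n : ℝ)) (c := 16 * κ ^ 2) (by positivity)
      fun q hq => ?_).trans ((mul_le_mul_right hI _).trans_eq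
        (ENNReal.ofReal_mul (by positivity)).symm)
    rcases (en_nonneg q).eq_or_lt with e | e
    · rw [← e]
      simp only [mul_zero, ne_eq, OfNat.ofNat_ne_zero, not_false_eq_true, zero_pow, zero_mul]
      positivity
    · refine (up Φ hq k (by positivity) e (le_add_of_nonneg_right (by positivity))).trans_eq ?_
      rw [show (1 / 2 - n : ℝ) = (2 : ℕ) + -(n + 3 / 2 : ℝ) by push_cast; ring,
        Real.rpow_add e, Real.rpow_natCast]
      ring

/-- the solution of the `∂̄` problem for a coordinate -/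
theorem sol (hn : 1 ≤ n) (h : HORS (volume : Measure (Cm n))) : ∃ κ₀ B : ℝ, 0 < κ₀ ∧ 0 < B ∧
    ∀ κ, κ ≤ κ₀ → ∀ (Φ : Fb n κ) (i : Fin n), ∃ s : Cm n → ℂ, (∀ q ∈ UB n, CR Φ.Θ s q) ∧ s 0 = 0 ∧
      (∀ v, fderiv ℝ s 0 v = v i) ∧
      ∫⁻ q in UB n, ENNReal.ofReal (‖s q - q i‖ ^ 2) ≤ ENNReal.ofReal (B * κ ^ 2) := by
  obtain ⟨κ₀, h0, hw⟩ := fw n
  obtain ⟨C, hC⟩ := (lina n).int hn
  have hI : ∫⁻ y in UB n, ENNReal.ofReal (en y ^ (1 / 2 - n : ℝ)) ≤ ENNReal.ofReal (|C| + 1) := by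
    have := hC 1 1 Matrix.PosDef.one one_pos
    simp only [qf_one, one_pow, Matrix.det_one, Complex.one_re, ENNReal.ofReal_one, mul_one] at this
    exact this.trans (ENNReal.ofReal_le_ofReal (by linarith [le_abs_self C]))
  refine ⟨κ₀, 6 * 2 ^ (n + 3 / 2 : ℝ) * (16 * (|C| + 1)), h0, by positivity, fun κ hκ Φ i => ?_⟩
  obtain ⟨w1, w2, w3⟩ := hw κ hκ Φ
  obtain ⟨s, s1, s2⟩ := h _ _ Φ.A _ _ _ Φ.den w1 (wt n) _ _ _ (fun k => hd Φ (by positivity) hI i k
    (fun q hq v => (w2 q hq v).1) (w3 _ _ (by positivity) (by linarith) (by positivity)))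
    fun k q _ => by
      have := en_nonneg q
      unfold wt
      gcongr
      linarith
  have sw : ContDiffAt ℝ 1 (fun q => s q - q i) 0 := by
    obtain ⟨j, hj⟩ := Φ.A.cover 0 ub_zero
    exact (((cal1 Φ.A).an _ s j 0 hj ((ub_open.eventually_mem ub_zero).mono s1)).2.sub
      (sm i 0)).of_le (by simp)
  have hn' : (1 : ℝ) ≤ n := by exact_mod_cast hn
  obtain ⟨v1, v2⟩ := (van n).fib (fun q => s q - q i) (UB n) (n + 3 / 2)
    (ENNReal.ofReal (n ^ (n + 3 / 2 : ℝ) * 6) * ENNReal.ofReal (16 * κ ^ 2 * (|C| + 1)))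
    (ub_open.mem_nhds ub_zero) sw (ENNReal.mul_lt_top ENNReal.ofReal_lt_top ENNReal.ofReal_lt_top)
    fun k => (int_le (by positivity) fun q hq => by
      have e0 : (0 : ℝ) < 1 / (k + 1) := by positivity
      have e1 := low Φ hq k (a := n * (‖q‖ ^ 2 + 1 / (k + 1))) (sq_nonneg ‖s q - q i‖)
        (by nlinarith [en_le q])
      rw [Real.mul_rpow (by positivity) (by positivity), Real.rpow_neg (Nat.cast_nonneg n),
        mul_left_comm, inv_mul_le_iff₀ (by positivity), ← mul_assoc] at e1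
      exact e1).trans (mul_le_mul_right (s2 k) _)
  refine ⟨s, s1, by simpa using v1 (by linarith), fun v => ?_, ?_⟩
  · have := v2 (by linarith) v
    rwa [fderiv_fun_sub (s1 0 ub_zero).1 ((sm i 0).differentiableAt (by simp)),
      _root_.sub_apply, fd, sub_eq_zero] at this
  · refine (int_le (c := 2 ^ (n + 3 / 2 : ℝ) * 6) (by positivity) fun q hq => ?_).trans
      ((mul_le_mul_right (s2 0) _).trans_eq ?_)
    · have e1 := low Φ hq 0 (a := 2) (sq_nonneg ‖s q - q i‖)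
        (by have : en q < 1 := hq; simp; linarith)
      rwa [Real.rpow_neg zero_le_two, mul_inv_le_iff₀' (by positivity), ← mul_assoc] at e1
    · rw [← ENNReal.ofReal_mul (by positivity)]
      congr 1
      ring

/-- a Lipschitz function which is small in the mean is small -/
theorem small {w : Cm n → ℂ} {L τ s D : ℝ} (hL : 0 < L) (hs : 0 < s) (hs1 : s ≤ 1 / 4)
    (hns : n * s ≤ 1 / 4) (hτ : 2 * L * s ≤ τ) (hD : D < (τ / 2) ^ 2 * s ^ (2 * n))
    (hw : ∀ q, en q ≤ 1 / 4 → DifferentiableAt ℝ w q ∧ ‖fderiv ℝ w q‖ ≤ L)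
    (hI : ∫⁻ q in UB n, ENNReal.ofReal (‖w q‖ ^ 2) ≤ ENNReal.ofReal D) {q : Cm n}
    (hq : en q ≤ 1 / 16) : ‖w q‖ ≤ τ := by
  by_contra h
  have hb : ∀ p ∈ ball q s, en p ≤ 1 / 4 := fun p hp => by
    have := Bern.en_ball (r := 1 / 4) (by norm_num) (by linarith) hs hs1 hp
    linarith
  have hτ0 : 0 < τ := lt_of_lt_of_le (by positivity) hτ
  have h1 : ∀ p ∈ ball q s, (τ / 2) ^ 2 ≤ ‖w p‖ ^ 2 := fun p hp => by
    have h2 := (convex_ball q s).norm_image_sub_le_of_norm_fderiv_le (fun p hp => (hw p (hb p hp)).1)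
      (fun p hp => (hw p (hb p hp)).2) hp (mem_ball_self hs)
    have h3 : ‖q - p‖ ≤ s := by rw [← dist_eq_norm, dist_comm]; exact (mem_ball.1 hp).le
    have h4 := norm_sub_norm_le (w q) (w p)
    have h5 : L * ‖q - p‖ ≤ L * s := by gcongr
    gcongr
    linarith [not_le.1 h]
  have h2 : ENNReal.ofReal ((τ / 2) ^ 2 * s ^ (2 * n)) ≤ ENNReal.ofReal D := calc
    _ ≤ ENNReal.ofReal ((τ / 2) ^ 2) * volume (ball q s) := by
        rw [ENNReal.ofReal_mul (sq_nonneg _)]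
        exact mul_le_mul_right (Bern.vol_ball q hs) _
    _ = ∫⁻ _ in ball q s, ENNReal.ofReal ((τ / 2) ^ 2) := (setLIntegral_const _ _).symm
    _ ≤ ∫⁻ p in ball q s, ENNReal.ofReal (‖w p‖ ^ 2) :=
        setLIntegral_mono' measurableSet_ball fun p hp => ENNReal.ofReal_le_ofReal (h1 p hp)
    _ ≤ _ := (lintegral_mono_set fun p hp => (hb p hp).trans_lt (by norm_num)).trans hI
  exact absurd ((ENNReal.ofReal_lt_ofReal_iff (by positivity)).2 hD) (not_lt.2 h2)

theorem l2 {s : Cm n → ℂ} {i : Fin n} {B : ℝ} (hB : 0 ≤ B)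
    (h : ∫⁻ q in UB n, ENNReal.ofReal (‖s q - q i‖ ^ 2) ≤ ENNReal.ofReal B) :
    ∫⁻ q in UB n, ENNReal.ofReal (‖s q‖ ^ 2) ≤
      ENNReal.ofReal (2 * B + 2 * (volume (UB n)).toReal) := calc
  _ ≤ ∫⁻ q in UB n, (2 * ENNReal.ofReal (‖s q - q i‖ ^ 2) + 2) := by
      refine setLIntegral_mono' ub_open.measurableSet fun q hq => ?_
      have e2 : ‖q i‖ ^ 2 ≤ 1 := (Bern.coord_le q i).trans (le_of_lt hq)
      have e3 : ‖s q‖ ≤ ‖s q - q i‖ + ‖q i‖ := by simpa using norm_add_le (s q - q i) (q i)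
      rw [← ENNReal.ofReal_ofNat, ← ENNReal.ofReal_mul zero_le_two,
        ← ENNReal.ofReal_add (by positivity) zero_le_two]
      refine ENNReal.ofReal_le_ofReal ((pow_le_pow_left₀ (norm_nonneg _) e3 2).trans ?_)
      nlinarith [sq_nonneg (‖s q - q i‖ - ‖q i‖)]
  _ ≤ 2 * ENNReal.ofReal B + 2 * volume (UB n) := by
      rw [lintegral_add_right _ measurable_const, lintegral_const_mul' _ _ (by simp),
        setLIntegral_const]
      gcongr
  _ = _ := by
      rw [ENNReal.ofReal_add (by positivity) (by positivity), ENNReal.ofReal_mul zero_le_two,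
        ENNReal.ofReal_mul zero_le_two, ENNReal.ofReal_toReal ub_vol.ne, ENNReal.ofReal_ofNat]

end G1a

open G1a

/-- **G1A** -/
theorem g1a {n : ℕ} (hn : 1 ≤ n) (h : HORS (volume : Measure (Cm n))) : G1A n := by
  obtain ⟨κ₁, B, h1, hB, hs⟩ := sol hn h
  obtain ⟨κ₂, C, h2, hC, hb⟩ := bern (fun _ _ A => cal1 A) (fun _ _ A => cal2 A (cal1 A))
    (psh n) (fw n)
  obtain ⟨κ₃, h3, hw⟩ := fw n
  have hn' : (1 : ℝ) ≤ n := by exact_mod_cast hn
  set A := √(2 * B + 2 * (volume (UB n)).toReal) with hA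
  have A0 : 0 ≤ A := Real.sqrt_nonneg _
  set L := C * A * √(2 * n) + 1 with hL
  have L0 : 0 < L := by positivity
  refine ⟨1 + n * (C * A) ^ 2, le_add_of_nonneg_right (by positivity), fun ε hε => ?_⟩
  set τ := √(ε / n) with hτ
  have τ0 : 0 < τ := Real.sqrt_pos.2 (by positivity)
  set s : ℝ := min (1 / (4 * n)) (τ / (2 * L)) with hs'
  have s0 : 0 < s := by positivity
  have s1 : n * s ≤ 1 / 4 := by
    have : s ≤ 1 / (4 * n) := min_le_left _ _
    rw [le_div_iff₀ (by positivity)] at this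
    linarith
  have s2 : 2 * L * s ≤ τ := (le_div_iff₀' (by positivity)).1 (min_le_right _ _)
  set D := (τ / 2) ^ 2 * s ^ (2 * n) with hD
  have D0 : 0 < D := by positivity
  refine ⟨min (min κ₁ κ₂) (min κ₃ (min 1 (D / (2 * B)))), by positivity, fun κ hκ Φ => ?_⟩
  simp only [le_min_iff] at hκ
  obtain ⟨⟨k1, k2⟩, k3, k4, k5⟩ := hκ
  have k0 := Φ.κ_pos
  choose z z1 z2 z3 z4 using hs κ k1 Φ
  have sub : ∀ q : Cm n, en q ≤ 1 / 4 → q ∈ UB n := fun q hq => hq.trans_lt (by norm_num)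
  have fz : ∀ q ∈ UB n, ∀ v i, fderiv ℝ (fun q i => z i q) q v i = fderiv ℝ (z i) q v :=
    fun q hq v i => fd_apply (differentiableAt_pi.2 fun i => (z1 i q hq).1) v i
  have gr : ∀ i q, en q ≤ 1 / 4 → ∀ v, ‖fderiv ℝ (z i) q v‖ ^ 2 ≤ (C * A) ^ 2 * en (Φ.Θ q v) :=
    fun i q hq v => by
      have := (hb κ k2 Φ (z i) 1 A one_pos le_rfl A0 (fun q hq => z1 i q (by rwa [one_pow] at hq))
        (by
          rw [one_pow, one_pow, mul_one, hA, Real.sq_sqrt (by positivity)]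
          exact l2 hB.le ((z4 i).trans (ENNReal.ofReal_le_ofReal
            (mul_le_of_le_one_right hB.le (by nlinarith))))) q (by rwa [one_pow])).2 v
      rwa [one_pow, mul_one] at this
  refine ⟨fun q i => z i q, fun q hq => ⟨differentiableAt_pi.2 fun i => (z1 i q hq).1,
    fun v v' hv => funext fun i => ?_⟩, funext z2, fun v => funext fun i => ?_, fun q hq v => ?_,
    fun q hq => ?_⟩
  · rw [Pi.smul_apply, fz q hq, fz q hq, (z1 i q hq).2 v v' hv]
  · rw [fz 0 ub_zero, z3]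
  · calc _ ≤ ∑ _i : Fin n, (C * A) ^ 2 * en (Φ.Θ q v) :=
          Finset.sum_le_sum fun i _ => by rw [fz q (sub q hq)]; exact gr i q hq v
      _ ≤ _ := by
          rw [Finset.sum_const, Finset.card_univ, Fintype.card_fin, nsmul_eq_mul]
          nlinarith [en_nonneg (Φ.Θ q v)]
  · have e : ∀ i, ‖z i q - q i‖ ≤ τ := fun i => small (w := fun q => z i q - q i) L0 s0
      (by nlinarith) s1 s2 (D := B * κ ^ 2) (by
        rw [le_div_iff₀ (by positivity)] at k5
        nlinarith [mul_nonneg hB.le k0]) (fun p hp => by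
        have d1 := (z1 i p (sub p hp)).1
        have d2 := (sm i p).differentiableAt (by simp)
        refine ⟨d1.fun_sub d2, ContinuousLinearMap.opNorm_le_bound _ L0.le fun v => ?_⟩
        have e1 : ‖fderiv ℝ (z i) p v‖ ≤ C * A * √(2 * n) * ‖v‖ := by
          refine (pow_le_pow_iff_left₀ (norm_nonneg _) (by positivity) two_ne_zero).1
            ((gr i p hp v).trans ?_)
          rw [mul_pow _ ‖v‖, mul_pow _ (√(2 * n)), Real.sq_sqrt (by positivity), mul_assoc]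
          gcongr
          linarith [((hw κ k3 Φ).2.1 p (sub p hp) v).2, en_le v]
        rw [fderiv_fun_sub d1 d2, _root_.sub_apply, fd, hL, add_mul, one_mul]
        exact (norm_sub_le _ _).trans (add_le_add e1 (norm_le_pi_norm v i))) (z4 i) hq
    calc _ ≤ ∑ _i : Fin n, τ ^ 2 := Finset.sum_le_sum fun i _ => by
          gcongr
          exact e i
      _ = ε := by
          rw [Finset.sum_const, Finset.card_univ, Fintype.card_fin, nsmul_eq_mul, hτ,
            Real.sq_sqrt (by positivity)]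
          field_simp

end Vale.Agent.P253W.X
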