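import Vale.Agent.P253W.X.Fw
import Vale.Agent.P253W.C.Jb
import Vale.Agent.P253W.C.Basic2

/-!
# P253W, block X, row G1F: holomorphic coordinates of uniform size
-/

open scoped ContDiff Topology Matrix ComplexOrder ENNReal
open Set Filter Metric MeasureTheory
open Vale.Agent.P272.K (Cm)
open Complex (I)

noncomputable section

namespace Vale.Agent.P253W.X

namespace G1f

variable {n : ℕ}

/-- the mean value inequality for plurisubharmonic functions -/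
theorem mean {u : Cm n → ℝ} {c : Cm n} {R : ℝ}
    (hu : ∀ y ∈ ball c R, ContDiffAt ℝ 2 u y ∧ ∀ X, 0 ≤ lv2 u y X) :
    ENNReal.ofReal (u c) * volume (ball (0 : Cm n) R) ≤ ∫⁻ y in ball c R, ENNReal.ofReal (u y) := by
  refine C.Jb.le_ball (fun a => volume_preserving_pi fun _ => C.Jb.rot1 a)
    (fun y hy => (hu y hy).1.continuousAt.continuousWithinAt) fun w hw => ?_
  have m : ∀ s ∈ closedBall (0 : ℂ) 1, c + s • w ∈ ball c R := fun s hs => by
    rw [mem_ball_iff_norm, add_sub_cancel_left, norm_smul]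
    exact (mul_le_of_le_one_left (norm_nonneg _) (by simpa using hs)).trans_lt (by simpa using hw)
  have a : ∀ s : ℂ, AnalyticAt ℂ (fun s : ℂ => c + s • w) s := fun s => by fun_prop
  have sm : ∀ s ∈ closedBall (0 : ℂ) 1, ContDiffAt ℝ 2 (fun s : ℂ => u (c + s • w)) s :=
    fun s hs => (hu _ (m s hs)).1.comp s (Lv.an_sm (a s))
  have := C.submean one_pos sm fun s hs => by
    have k := (hu _ (m s (ball_subset_closedBall hs))).2 (fderiv ℝ (fun s : ℂ => c + s • w) s 1)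
    rw [← Lv.pull (a s) (hu _ (m s (ball_subset_closedBall hs))).1, lv2, smul_eq_mul, mul_one] at k
    rw [P272.GJ.ddb_eq (sm s (ball_subset_closedBall hs))]
    positivity
  simpa using this

/-- the mean value theorem -/
theorem lip {f : Cm n → Cm n} {r K : ℝ} (hK : 0 ≤ K) (h0 : f 0 = 0)
    (hd : ∀ y ∈ ball (0 : Cm n) r, DifferentiableAt ℝ f y ∧ ∀ v, ‖fderiv ℝ f y v‖ ^ 2 ≤ K * ‖v‖ ^ 2)
    {y : Cm n} (hy : y ∈ ball (0 : Cm n) r) : ‖f y‖ ^ 2 ≤ K * ‖y‖ ^ 2 := by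
  have := (convex_ball (0 : Cm n) r).norm_image_sub_le_of_norm_fderiv_le (𝕜 := ℝ) (C := √K)
    (fun y hy => (hd y hy).1) (fun y hy => ContinuousLinearMap.opNorm_le_bound _ (Real.sqrt_nonneg _)
      fun v => by
        refine (pow_le_pow_iff_left₀ (norm_nonneg _) (by positivity) two_ne_zero).1 ?_
        rw [mul_pow, Real.sq_sqrt hK]
        exact (hd y hy).2 v) (mem_ball_self (pos_of_mem_ball hy)) hy
  rw [h0, sub_zero, sub_zero] at this
  refine (pow_le_pow_left₀ (norm_nonneg _) this 2).trans_eq ?_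
  rw [mul_pow, Real.sq_sqrt hK]

variable {κ : ℝ} (Φ : Fb n κ) {z Λ : Cm n → Cm n}

theorem sm {G : Type} [NormedAddCommGroup G] [NormedSpace ℝ G] [NormedSpace ℂ G]
    [IsScalarTower ℝ ℂ G] [FiniteDimensional ℂ G] {u : Cm n → G} (h : ∀ q ∈ UB n, CR Φ.Θ u q)
    {q : Cm n} (hq : q ∈ UB n) : ContDiffAt ℝ ∞ u q := by
  obtain ⟨i, hi⟩ := Φ.A.cover q hq
  exact ((cal1 Φ.A).an G u i q hi (eventually_of_mem (Φ.A.op.mem_nhds hq) h)).2

/-- a continuous section is holomorphic -/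
theorem hol {O S : Set (Cm n)} (hO : IsOpen O) (hS : IsOpen S) (sub : O ⊆ UB n)
    (cr : ∀ q ∈ UB n, CR Φ.Θ z q) (inj : ∀ q ∈ O, Function.Injective (fderiv ℝ z q))
    (ct : ContinuousOn Λ S) (hΛ : ∀ y ∈ S, Λ y ∈ O ∧ z (Λ y) = y) {y : Cm n} (hy : y ∈ S) :
    HM Φ.Θ Λ y ∧ ∀ v, fderiv ℝ z (Λ y) (fderiv ℝ Λ y v) = v := by
  obtain ⟨h1, h2⟩ := hΛ y hy
  obtain ⟨L, hL⟩ := C1.ex_equiv (inj _ h1)
  have s := sm Φ cr (sub h1)
  have st := s.hasStrictFDerivAt' (hL ▸ (cr _ (sub h1)).1.hasFDerivAt) (by simp)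
  have t1 : Tendsto z (𝓝 (Λ y)) (𝓝 y) := by simpa only [ContinuousAt, h2] using s.continuousAt
  have t2 := (ct.continuousAt (hS.mem_nhds hy)).tendsto.comp t1
  have ev : ∀ᶠ q in 𝓝 (Λ y), q ∈ O ∧ Λ (z q) = q := by
    filter_upwards [hO.mem_nhds h1, st.eventually_left_inverse, t2.eventually st.eventually_left_inverse,
      t1.eventually (hS.mem_nhds hy)] with q a b c d
    refine ⟨a, ?_⟩
    rw [Function.comp_apply, (hΛ _ d).2] at c
    exact c.symm.trans b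
  obtain ⟨U, u1, u2, u3⟩ := _root_.eventually_nhds_iff.1 ev
  have := ((cal1 Φ.A).inv U z u2 (fun q hq => sub (u1 q hq).1) (fun q hq => cr q (sub (u1 q hq).1))
    (fun a ha b hb e => by rw [← (u1 a ha).2, e, (u1 b hb).2]) fun q hq => inj q (u1 q hq).1).2 Λ
    (fun q hq => (u1 q hq).2) _ u3
  rwa [h2] at this

/-- the weight is plurisubharmonic -/
theorem psh (hκ : κ ≤ 1) {J : Cm n → ℂ} (hJ : ∀ q ∈ UB n, CR Φ.Θ J q) {q : Cm n} (hq : q ∈ UB n)
    (h0 : J q ≠ 0) :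
    ContDiffAt ℝ 2 (fun p => -1 * Real.log (‖J p‖ ^ 2) +
      (-1 * Real.log (‖Φ.ϖ p‖ ^ 2) + en p)) q ∧ ∀ v,
    0 ≤ Φ.A.lev (fun p => -1 * Real.log (‖J p‖ ^ 2) + (-1 * Real.log (‖Φ.ϖ p‖ ^ 2) + en p)) q v := by
  have c2 := cal2 Φ.A (cal1 Φ.A)
  have s1 : ContDiffAt ℝ 2 (fun p => Real.log (‖J p‖ ^ 2)) q :=
    (((sm Φ hJ hq).of_le ENat.LEInfty.out).norm_sq ℝ).log (pow_ne_zero _ (norm_ne_zero_iff.2 h0))
  have s2 : ContDiffAt ℝ 2 (fun p => Real.log (‖Φ.ϖ p‖ ^ 2)) q :=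
    (((Φ.ϖ_sm q hq).of_le ENat.LEInfty.out).norm_sq ℝ).log
      (pow_ne_zero _ (norm_ne_zero_iff.2 (Φ.ϖ_ne q hq)))
  have s3 := (contDiffAt_const (c := (-1 : ℝ))).mul s2
  refine ⟨(contDiffAt_const.mul s1).add (s3.add Fw.en_sm.contDiffAt), fun v => ?_⟩
  rw [c2.add _ _ q hq (contDiffAt_const.mul s1) (s3.add Fw.en_sm.contDiffAt),
    c2.add _ _ q hq s3 Fw.en_sm.contDiffAt, c2.smul _ _ q hq s1, c2.smul _ _ q hq s2,
    (c2.nsq J q hq (eventually_of_mem (Φ.A.op.mem_nhds hq) hJ) v).2 h0]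
  have h1 := (abs_le.1 (Φ.lev q hq v)).1
  have h2 := (Φ.ϖ_lev q hq v).2
  have h3 := en_nonneg (Φ.Θ q v)
  have h4 : κ * en q ≤ 1 := mul_le_one₀ hκ (en_nonneg q) (le_of_lt hq)
  nlinarith [mul_le_mul_of_nonneg_right h4 h3, mul_le_mul_of_nonneg_right hκ h3]

/-- the upper bound for the metric -/
theorem up (jac : JAC n) (li : LINA n) (hκ : κ ≤ 1) {C ε r : ℝ} (hC : 1 ≤ C) (hr : 0 < r)
    (hz : Zc Φ z C ε) (sub : ∀ q ∈ ball (0 : Cm n) (4 * r), en q ≤ 1 / 16)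
    (hΛ : ∀ y ∈ ball (0 : Cm n) (2 * r), Λ y ∈ ball (0 : Cm n) (4 * r) ∧ z (Λ y) = y ∧
      HM Φ.Θ Λ y ∧ ∀ v, fderiv ℝ z (Λ y) (fderiv ℝ Λ y v) = v)
    {y : Cm n} (hy : y ∈ ball (0 : Cm n) r) (v : Cm n) :
    en (Φ.Θ (Λ y) (fderiv ℝ Λ y v)) ≤ C ^ n * (6 * 4 ^ Module.finrank ℝ (Cm n)) * en v := by
  obtain ⟨N, hN⟩ := jac κ Φ (UB n) z Φ.A.op subset_rfl hz.cr
  have ub : ∀ y ∈ ball (0 : Cm n) (2 * r), Λ y ∈ UB n := fun y hy =>
    (sub _ (hΛ y hy).1).trans_lt (by norm_num)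
  have k1 : ∀ y ∈ ball (0 : Cm n) (2 * r), ∀ v,
      v = Φ.Θ (Λ y) (fderiv ℝ Λ y v) ᵥ* N (Λ y) := fun y hy v => by
    rw [← (hN _ (ub y hy)).1, (hΛ y hy).2.2.2]
  have d1 : ∀ y ∈ ball (0 : Cm n) (2 * r),
      ‖(N (Λ y)).det‖ ^ 2 * (|(Φ.Θ (Λ y)).det| * |(fderiv ℝ Λ y).det|) = 1 := fun y hy => by
    have := li.mul ((Φ.Θ (Λ y)).comp (fderiv ℝ Λ y)) (.id ℝ _) (N (Λ y)) (k1 y hy)
    rw [← abs_mul, ContinuousLinearMap.det, ContinuousLinearMap.det, ← LinearMap.det_comp]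
    exact this.symm.trans (by simp [ContinuousLinearMap.det])
  have d0 : ∀ y ∈ ball (0 : Cm n) (2 * r), (N (Λ y)).det ≠ 0 := fun y hy h => by
    simpa [h] using d1 y hy
  let f : Cm n → ℝ := fun p => -1 * Real.log (‖(N p).det / Φ.ϖ p‖ ^ 2) +
    (-1 * Real.log (‖Φ.ϖ p‖ ^ 2) + en p)
  have hf : ∀ y ∈ ball (0 : Cm n) (2 * r),
      Real.exp (f (Λ y)) * ‖(N (Λ y)).det‖ ^ 2 = Real.exp (en (Λ y)) := fun y hy => by
    have a := norm_pos_iff.2 (d0 y hy)
    have b := norm_pos_iff.2 (Φ.ϖ_ne _ (ub y hy))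
    simp only [f, neg_one_mul, Real.exp_add, Real.exp_neg, norm_div]
    rw [Real.exp_log (by positivity), Real.exp_log (by positivity)]
    field_simp
  have hu : ∀ y ∈ ball (0 : Cm n) (2 * r), ContDiffAt ℝ 2 (fun w => Real.exp (f (Λ w))) y ∧
      ∀ X, 0 ≤ lv2 (fun w => Real.exp (f (Λ w))) y X := fun y hy => by
    obtain ⟨s, p⟩ := psh Φ hκ (fun q hq => (hN q hq).2) (ub y hy)
      (div_ne_zero (d0 y hy) (Φ.ϖ_ne _ (ub y hy)))
    have s' : ContDiffAt ℝ 2 (fun w => f (Λ w)) y :=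
      s.comp y ((hΛ y hy).2.2.1.1.of_le ENat.LEInfty.out)
    refine ⟨s'.exp, fun X => ?_⟩
    rw [Lv.comp s' Real.contDiff_exp.contDiffAt, (cal2 Φ.A (cal1 Φ.A)).pull _ Λ y f (ub y hy)
      (eventually_of_mem (isOpen_ball.mem_nhds hy) fun w hw => (hΛ w hw).2.2.1) s, Real.deriv_exp,
      Real.deriv_exp]
    have := p (fderiv ℝ Λ y X)
    positivity
  have s1 : ball y r ⊆ ball 0 (2 * r) := ball_subset_ball' (by have := mem_ball.1 hy; linarith)
  have y2 := s1 (mem_ball_self hr)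
  have m1 := (mean fun w hw => hu w (s1 hw)).trans ((lintegral_mono_set s1).trans
    (setLIntegral_mono' (g := fun w => ENNReal.ofReal 6 * ENNReal.ofReal |(fderiv ℝ Λ w).det|)
      measurableSet_ball fun w hw => by
        rw [← ENNReal.ofReal_mul (by norm_num)]
        refine ENNReal.ofReal_le_ofReal ?_
        have a1 := hf w hw
        have a2 := d1 w hw
        have a3 := (Φ.ν_bd _ (ub w hw)).2
        have a4 : Real.exp (en (Λ w)) ≤ 3 :=
          (Real.exp_le_exp.2 (le_of_lt (ub w hw))).trans (by linarith [Real.exp_one_lt_d9])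
        have a5 := abs_nonneg (fderiv ℝ Λ w).det
        have a6 := abs_nonneg (Φ.Θ (Λ w)).det
        rw [← mul_one (Real.exp (f (Λ w))), ← a2, ← mul_assoc, a1, ← mul_assoc]
        exact mul_le_mul_of_nonneg_right (by nlinarith) a5))
  rw [lintegral_const_mul' _ _ ENNReal.ofReal_ne_top,
    lintegral_abs_det_fderiv_eq_addHaar_image volume measurableSet_ball
      (fun w hw => ((hΛ w hw).2.2.1.1.differentiableAt (by simp)).hasFDerivAt.hasFDerivWithinAt)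
      fun a ha b hb e => by rw [← (hΛ a ha).2.1, e, (hΛ b hb).2.1]] at m1
  have s2 : Λ '' ball 0 (2 * r) ⊆ ball 0 (4 * r) := image_subset_iff.2 fun w hw => (hΛ w hw).1
  replace m1 := m1.trans (mul_le_mul_right (measure_mono s2) _)
  rw [Measure.addHaar_ball_mul_of_pos _ _ (by norm_num), ← mul_assoc,
    ENNReal.mul_le_mul_iff_left (measure_ball_pos _ _ hr).ne' measure_ball_lt_top.ne,
    ← ENNReal.ofReal_mul (by norm_num), ENNReal.ofReal_le_ofReal_iff (by positivity)] at m1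
  have k2 : ∀ v, en (Φ.Θ (Λ y) (fderiv ℝ Λ y v)) =
      qf ((N (Λ y))⁻¹ * 1 * (N (Λ y))⁻¹ᴴ) v := fun v => by
    rw [qf_pull, qf_one]
    conv_rhs => rw [k1 y y2 v, vecMul_inv _ (d0 y y2)]
  have C0 : 0 < C := one_pos.trans_le hC
  have := li.up _ C⁻¹ (6 * 4 ^ Module.finrank ℝ (Cm n))
    (Matrix.isHermitian_mul_mul_conjTranspose (N (Λ y))⁻¹ Matrix.isHermitian_one) (inv_pos.2 C0)
    (fun v => by
      rw [← k2, inv_mul_le_iff₀ C0]
      simpa only [(hΛ y y2).2.2.2] using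
        hz.gr _ ((sub _ (hΛ y y2).1).trans (by norm_num)) (fderiv ℝ Λ y v))
    (by
      refine le_trans ?_ m1
      have a := pow_pos (norm_pos_iff.2 (d0 y y2)) 2
      rw [mul_one, Matrix.det_mul, Matrix.det_conjTranspose, Complex.star_def, Complex.mul_conj,
        Complex.ofReal_re, Complex.normSq_eq_norm_sq, Matrix.det_nonsing_inv, Ring.inverse_eq_inv,
        norm_inv, inv_pow, ← mul_le_mul_iff_left₀ a, hf y y2, inv_mul_cancel₀ a.ne']
      exact Real.one_le_exp (en_nonneg _)) v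
  rw [← k2, inv_pow, inv_mul_le_iff₀ (by positivity)] at this
  refine this.trans ?_
  have := en_nonneg v
  rw [mul_assoc, mul_assoc (C ^ n)]
  exact mul_le_mul_of_nonneg_left
    (mul_le_of_le_one_left (by positivity) (inv_le_one_of_one_le₀ hC)) (by positivity)

end G1f

open G1f in
/-- **the row G1F** -/
theorem g1f {n : ℕ} (hn : 1 ≤ n) (h1 : G1A n) (h2 : G1B n) (h3 : SEC n) (h4 : JAC n) (h5 : FW n)
    (h6 : LINA n) : G1F n := by
  obtain ⟨C, hC, h1⟩ := h1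
  obtain ⟨c, κ₂, c0, c4, k2, h2⟩ := h2 C hC
  obtain ⟨κ₃, k3, h5⟩ := h5
  have n1 : (1 : ℝ) ≤ n := by exact_mod_cast hn
  obtain ⟨r, hr, er⟩ : ∃ r : ℝ, 0 < r ∧ 4 * r * n = c := ⟨c / (4 * n), by positivity, by field_simp⟩
  have r1 : r ≤ 1 := by nlinarith
  obtain ⟨κ₁, k1, h1⟩ := h1 ((4 * r / 10) ^ 2) (by positivity)
  obtain ⟨B, hB⟩ : ∃ B : ℝ, B = C ^ n * (6 * 4 ^ Module.finrank ℝ (Cm n)) := ⟨_, rfl⟩
  have C0 : 0 < C := one_pos.trans_le hC
  have B0 : 0 ≤ B := by rw [hB]; positivity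
  have p1 : 0 ≤ n * (2 * (B * n)) := by positivity
  have p2 : 0 ≤ r⁻¹ ^ 2 * (C * (2 * n)) := by positivity
  refine ⟨min (min κ₁ κ₂) (min κ₃ 1), r, r / 2, 1 + n * (2 * (B * n)) + r⁻¹ ^ 2 * (C * (2 * n)),
    by positivity, hr, by positivity, by linarith, by linarith, fun κ hκ Φ => ?_⟩
  simp only [le_min_iff] at hκ
  obtain ⟨z, hz⟩ := h1 κ hκ.1.1 Φ
  have cmp := (h5 κ hκ.2.1 Φ).2.1
  have e1 : ∀ q ∈ closedBall (0 : Cm n) (4 * r), en q ≤ c ^ 2 := fun q hq => by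
    have a := pow_le_pow_left₀ (norm_nonneg q) (mem_closedBall_zero_iff.1 hq) 2
    have b := mul_le_mul_of_nonneg_left a (Nat.cast_nonneg (α := ℝ) n)
    refine (en_le q).trans (b.trans ?_)
    rw [← er, mul_pow _ (n : ℝ), mul_comm]
    exact mul_le_mul_of_nonneg_left (by nlinarith) (by positivity)
  have e2 : ∀ q ∈ closedBall (0 : Cm n) (4 * r), en q ≤ 1 / 16 := fun q hq =>
    (e1 q hq).trans (by nlinarith)
  have e3 : closedBall (0 : Cm n) (4 * r) ⊆ UB n := fun q hq => (e2 q hq).trans_lt (by norm_num)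
  have e4 : ∀ q ∈ closedBall (0 : Cm n) (4 * r), ‖z q - q‖ ≤ 4 * r / 10 := fun q hq =>
    (pow_le_pow_iff_left₀ (norm_nonneg _) (by positivity) two_ne_zero).1
      ((sq_le_en _).trans (hz.near q (e2 q hq)))
  have inj := fun q hq => h2 κ hκ.1.2 Φ z _ hz q (e1 q hq)
  obtain ⟨Λ, ct, l0, hΛ, li⟩ := h3 z (4 * r) (by positivity) (fun q hq =>
    ⟨(sm Φ hz.cr (e3 hq)).of_le (by simp), inj q hq, e4 q hq⟩) hz.z0
  rw [show 4 * r / 2 = 2 * r by ring] at ct hΛ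
  rw [show 4 * r / 4 = r by ring] at li
  have hm := fun y hy => hol Φ isOpen_ball isOpen_ball (ball_subset_closedBall.trans e3) hz.cr
    (fun q hq => inj q (ball_subset_closedBall hq)) ct hΛ (y := y) hy
  have m1 : ∀ y ∈ ball (0 : Cm n) 1, r • y ∈ ball (0 : Cm n) r := fun y hy => by
    rw [mem_ball_zero_iff, norm_smul, Real.norm_of_nonneg hr.le] at *
    exact mul_lt_of_lt_one_right hr hy
  have s1 : ball (0 : Cm n) r ⊆ ball 0 (2 * r) := ball_subset_ball (by linarith)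
  have dl : ∀ y ∈ ball (0 : Cm n) 1, HasFDerivAt (fun y => Λ (r • y))
      ((fderiv ℝ Λ (r • y)).comp (r • .id ℝ _)) y := fun y hy =>
    ((hm _ (s1 (m1 y hy))).1.1.differentiableAt (by simp)).hasFDerivAt.comp y
      ((hasFDerivAt_id y).const_smul r)
  have dv : ∀ y ∈ ball (0 : Cm n) 1, ∀ v, fderiv ℝ (fun y => Λ (r • y)) y v =
      fderiv ℝ Λ (r • y) (r • v) := fun y hy v => by rw [(dl y hy).fderiv]; rfl
  have es : ∀ v : Cm n, en (r • v) = r ^ 2 * en v := fun v => by rw [← qf_one, qf_rsmul, qf_one]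
  have m2 : ∀ y ∈ ball (0 : Cm n) 1, Λ (r • y) ∈ closedBall (0 : Cm n) (4 * r) := fun y hy =>
    ball_subset_closedBall (hΛ _ (s1 (m1 y hy))).1
  have ub : ∀ y ∈ ball (0 : Cm n) 1, ∀ v, en (Φ.Θ (Λ (r • y))
      (fderiv ℝ (fun y => Λ (r • y)) y v)) ≤ B * n * ‖v‖ ^ 2 := fun y hy v => by
    rw [dv y hy, mul_assoc]
    refine (up Φ h4 h6 hκ.2.2 hC hr hz (fun q hq => e2 q (ball_subset_closedBall hq))
      (fun w hw => ⟨(hΛ w hw).1, (hΛ w hw).2, hm w hw⟩) (m1 y hy) _).trans ?_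
    rw [← hB, es]
    exact mul_le_mul_of_nonneg_left ((mul_le_of_le_one_left (en_nonneg v)
      (pow_le_one₀ hr.le r1)).trans (en_le v)) B0
  have dz : ∀ q ∈ UB n, HasFDerivAt (fun q => r⁻¹ • z q) (r⁻¹ • fderiv ℝ z q) q := fun q hq =>
    (hz.cr q hq).1.hasFDerivAt.const_smul r⁻¹
  refine ⟨fun q => r⁻¹ • z q, fun y => Λ (r • y), fun q hq => ⟨⟨(dz q hq).differentiableAt,
    fun v v' h => ?_⟩, (sm Φ hz.cr hq).const_smul _⟩, fun y hy => ⟨(hm _ (s1 (m1 y hy))).1.1.comp y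
      (contDiffAt_id.const_smul r), fun v => ?_⟩, by simpa using l0, fun v => ?_,
    fun y hy => ⟨?_, e2 _ (m2 y hy)⟩, fun y hy v => ⟨?_, (ub y hy v).trans ?_⟩, fun y hy => ?_,
    fun q hq => ?_⟩
  · simp only [(dz q hq).fderiv, smul_apply, (hz.cr q hq).2 v v' h, smul_comm r⁻¹]
  · rw [dv y hy, dv y hy, smul_comm r, (hm _ (s1 (m1 y hy))).1.2]
  · have := (hm 0 (mem_ball_self (by positivity))).2 (r • v)
    rw [l0, hz.d0] at this
    rw [dv 0 (mem_ball_self one_pos), smul_zero, this]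
    rfl
  · have := lip (f := fun y => Λ (r • y)) (K := 2 * (B * n)) (by positivity) (by simpa using l0)
      (fun y hy => ⟨(dl y hy).differentiableAt, fun v => (sq_le_en _).trans
        ((cmp _ (e3 (m2 y hy)) _).1.trans (by linarith [ub y hy v]))⟩) hy
    refine ((en_le _).trans (mul_le_mul_of_nonneg_left this (by positivity))).trans ?_
    rw [← mul_assoc]
    exact mul_le_mul_of_nonneg_right (by linarith) (by positivity)
  · have := hz.gr _ ((e2 _ (m2 y hy)).trans (by norm_num)) (fderiv ℝ Λ (r • y) (r • v))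
    rw [(hm _ (s1 (m1 y hy))).2, es, ← dv y hy, ← le_inv_mul_iff₀ (by positivity), ← inv_pow,
      ← mul_assoc] at this
    refine ((sq_le_en v).trans this).trans (mul_le_mul_of_nonneg_right ?_ (en_nonneg _))
    have : r⁻¹ ^ 2 * C ≤ r⁻¹ ^ 2 * (C * (2 * n)) :=
      mul_le_mul_of_nonneg_left (le_mul_of_one_le_right C0.le (by linarith)) (by positivity)
    linarith
  · refine mul_le_mul_of_nonneg_right ?_ (by positivity)
    nlinarith [mul_nonneg B0 (Nat.cast_nonneg (α := ℝ) n)]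
  · rw [(hΛ _ (s1 (m1 y hy))).2, inv_smul_smul₀ hr.ne']
  · have a : ‖q‖ < r / 2 := lt_of_pow_lt_pow_left₀ 2 (by positivity) ((sq_le_en q).trans_lt hq)
    have b : q ∈ ball (0 : Cm n) (4 * r) := mem_ball_zero_iff.2 (by linarith)
    have := lip (f := z) (K := C * (2 * n)) (by positivity) hz.z0 (fun p hp =>
      have hp' := ball_subset_closedBall hp
      ⟨(hz.cr p (e3 hp')).1, fun v => ((sq_le_en _).trans (hz.gr p ((e2 p hp').trans (by norm_num))
        v)).trans (by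
          rw [mul_assoc]
          exact mul_le_mul_of_nonneg_left (by linarith [(cmp p (e3 hp') v).2, en_le v]) C0.le)⟩) b
    rw [norm_smul, smul_inv_smul₀ hr.ne', Real.norm_of_nonneg (by positivity), mul_pow,
      inv_mul_lt_iff₀ hr]
    refine ⟨(mul_le_mul_of_nonneg_left (this.trans (mul_le_mul_of_nonneg_left (sq_le_en q)
      (by positivity))) (by positivity)).trans ?_, ?_, li q (mem_ball_zero_iff.2 (by linarith))⟩
    · rw [← mul_assoc]
      exact mul_le_mul_of_nonneg_right (by linarith) (en_nonneg q)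
    · linarith [e4 q (ball_subset_closedBall b), norm_sub_norm_le (z q) q]

end Vale.Agent.P253W.X
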