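import Vale.Agent.P253W.X.Pre
import Vale.Agent.P253W.X.G1a
import Vale.Agent.P253W.X.G1f

/-!
# P253W, block X: `G1` from the solution of the equation with weights
-/

open scoped Manifold ContDiff Bundle
open Bundle MeasureTheory
open Vale.Agent.P272.K (Cm)

namespace Vale.Agent.P253W.X

variable {n : ℕ}

theorem g1f' (hn : 1 ≤ n) (H : HORD (volume : Measure (Cm n))) : G1F n :=
  g1f hn (g1a hn (hors n H)) (g1b' hn H) (sec n) (jac n) (fw n) (lina n)

variable {M : Type} [MetricSpace M] [ChartedSpace (Cm n) M] [IsManifold 𝓘(ℂ, Cm n) 1 M]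
  [RiemannianBundle fun x : M => TangentSpace 𝓘(ℝ, Cm n) x] [MeasurableSpace M] [BorelSpace M]
  [IsManifold 𝓘(ℝ, Cm n) ∞ M] [ConnectedSpace M] [NoncompactSpace M] {μ : Measure M}

theorem g1_hord (H : 1 ≤ n → HORD (volume : Measure (Cm n))) :
    Of2 n μ fun F A _ => F.G1 μ A.d :=
  g1_pre fun hn => g1f' hn (H hn)

end Vale.Agent.P253W.X
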