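import Vale.Agent.P253W.X.Defs
import Vale.Agent.P272.K.MP.Local

/-!
# P253W, block X: the calculus of `lv2`
-/

open scoped ContDiff Topology
open Set Filter
open Complex (I)

noncomputable section

namespace Vale.Agent.P253W.X.Lv

section real

variable {E F G : Type} [NormedAddCommGroup E] [NormedSpace ℝ E] [NormedAddCommGroup F]
  [NormedSpace ℝ F] [NormedAddCommGroup G] [NormedSpace ℝ G]

theorem evd {u : E → F} {z : E} (h : ContDiffAt ℝ 2 u z) : ∀ᶠ y in 𝓝 z, DifferentiableAt ℝ u y :=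
  (h.eventually (by simp)).mono fun _ k => k.differentiableAt two_ne_zero

theorem hd2 {u : E → F} {z : E} (h : ContDiffAt ℝ 2 u z) :
    HasFDerivAt (fderiv ℝ u) (fderiv ℝ (fderiv ℝ u) z) z :=
  ((h.fderiv_right (m := 1) le_rfl).differentiableAt one_ne_zero).hasFDerivAt

theorem hd1 {u : E → F} {z : E} (h : ContDiffAt ℝ 2 u z) : HasFDerivAt u (fderiv ℝ u z) z :=
  (h.differentiableAt two_ne_zero).hasFDerivAt

/-- the chain rule for second derivatives -/
theorem d2_comp {u : F → G} {T : E → F} {p : E} (hu : ContDiffAt ℝ 2 u (T p))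
    (hT : ContDiffAt ℝ 2 T p) (a b : E) : fderiv ℝ (fderiv ℝ fun y => u (T y)) p a b =
      fderiv ℝ (fderiv ℝ u) (T p) (fderiv ℝ T p a) (fderiv ℝ T p b) +
        fderiv ℝ u (T p) (fderiv ℝ (fderiv ℝ T) p a b) := by
  have e : (fderiv ℝ fun y => u (T y)) =ᶠ[𝓝 p] fun y => (fderiv ℝ u (T y)).comp (fderiv ℝ T y) := by
    filter_upwards [evd hT, hT.continuousAt.eventually (evd hu)] with y h1 h2
      using fderiv_comp y h2 h1
  rw [e.fderiv_eq.trans (((hd2 hu).comp p (hd1 hT)).clm_comp (hd2 hT)).fderiv, add_comm]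
  rfl

end real

variable {V G : Type} [NormedAddCommGroup V] [NormedSpace ℝ V] [NormedSpace ℂ V]
  [NormedAddCommGroup G] [NormedSpace ℝ G] [NormedSpace ℂ G] {u w : V → ℝ} {z : V}

theorem congr (h : u =ᶠ[𝓝 z] w) (v : V) : lv2 u z v = lv2 w z v := by
  simp only [lv2, h.fderiv.fderiv_eq]

theorem const (a : ℝ) (z v : V) : lv2 (fun _ => a) z v = 0 := by simp [lv2]

theorem add (hu : ContDiffAt ℝ 2 u z) (hw : ContDiffAt ℝ 2 w z) (v : V) :
    lv2 (fun y => u y + w y) z v = lv2 u z v + lv2 w z v := by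
  have e : (fderiv ℝ fun y => u y + w y) =ᶠ[𝓝 z] fun y => fderiv ℝ u y + fderiv ℝ w y := by
    filter_upwards [evd hu, evd hw] with y h1 h2 using fderiv_fun_add h1 h2
  simp only [lv2, e.fderiv_eq.trans ((hd2 hu).fun_add (hd2 hw)).fderiv, add_apply]
  ring

theorem comp {φ : ℝ → ℝ} (hu : ContDiffAt ℝ 2 u z) (hφ : ContDiffAt ℝ 2 φ (u z)) (v : V) :
    lv2 (fun y => φ (u y)) z v = deriv φ (u z) * lv2 u z v +
      deriv (deriv φ) (u z) * (fderiv ℝ u z v ^ 2 + fderiv ℝ u z (I • v) ^ 2) := by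
  have e : (fderiv ℝ fun y => φ (u y)) =ᶠ[𝓝 z] fun y => deriv φ (u y) • fderiv ℝ u y := by
    filter_upwards [evd hu, hu.continuousAt.eventually (evd hφ)] with y h1 h2
      using (h2.hasDerivAt.comp_hasFDerivAt y h1.hasFDerivAt).fderiv
  have d : DifferentiableAt ℝ (deriv φ) (u z) :=
    (hd2 hφ).differentiableAt.clm_apply (differentiableAt_const 1)
  simp only [lv2, e.fderiv_eq.trans
    ((d.hasDerivAt.comp_hasFDerivAt z (hd1 hu)).fun_smul (hd2 hu)).fderiv, add_apply, smul_apply,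
    ContinuousLinearMap.smulRight_apply, smul_eq_mul, Function.comp]
  ring

theorem mul (hu : ContDiffAt ℝ 2 u z) (hw : ContDiffAt ℝ 2 w z) (v : V) :
    lv2 (fun y => u y * w y) z v = u z * lv2 w z v + w z * lv2 u z v +
      2 * (fderiv ℝ u z v * fderiv ℝ w z v + fderiv ℝ u z (I • v) * fderiv ℝ w z (I • v)) := by
  have e : (fderiv ℝ fun y => u y * w y) =ᶠ[𝓝 z]
      fun y => u y • fderiv ℝ w y + w y • fderiv ℝ u y := by
    filter_upwards [evd hu, evd hw] with y h1 h2 using fderiv_fun_mul h1 h2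
  simp only [lv2, e.fderiv_eq.trans (((hd1 hu).fun_smul (hd2 hw)).fun_add
    ((hd1 hw).fun_smul (hd2 hu))).fderiv, add_apply, smul_apply,
    ContinuousLinearMap.smulRight_apply, smul_eq_mul]
  ring

theorem smul (hu : ContDiffAt ℝ 2 u z) (a : ℝ) (v : V) :
    lv2 (fun y => a * u y) z v = a * lv2 u z v := by
  simp [mul contDiffAt_const hu, const]

theorem log (hu : ContDiffAt ℝ 2 u z) (h0 : u z ≠ 0) (v : V) :
    lv2 (fun y => Real.log (u y)) z v = lv2 u z v / u z -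
      (fderiv ℝ u z v ^ 2 + fderiv ℝ u z (I • v) ^ 2) / u z ^ 2 := by
  rw [comp hu (Real.contDiffAt_log.2 h0), Real.deriv_log', deriv_inv]
  ring

theorem max (hu : ContDiffAt ℝ 2 u z) (h : IsLocalMax u z) (v : V) : lv2 u z v ≤ 0 :=
  add_nonpos (P272.K.MP.fderiv2_nonpos_of_max h hu _) (P272.K.MP.fderiv2_nonpos_of_max h hu _)

theorem min (hu : ContDiffAt ℝ 2 u z) (h : IsLocalMin u z) (v : V) : 0 ≤ lv2 u z v := by
  have := max (u := fun y => -1 * u y) (contDiffAt_const.mul hu) (by simpa using h.neg) v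
  rw [smul hu] at this
  linarith

theorem nsq₀ (s a : ℂ) : lv2 (fun s : ℂ => ‖s‖ ^ 2) s a = 4 * ‖a‖ ^ 2 := by
  have e : fderiv ℝ (fderiv ℝ fun s : ℂ => ‖s‖ ^ 2) s = 2 • innerSL ℝ := by
    rw [fderiv_norm_sq]
    exact (2 • innerSL ℝ : ℂ →L[ℝ] ℂ →L[ℝ] ℝ).fderiv
  have k : ∀ b : ℂ, fderiv ℝ (fderiv ℝ fun s : ℂ => ‖s‖ ^ 2) s b b = 2 * ‖b‖ ^ 2 := fun b => by
    rw [e, ← real_inner_self_eq_norm_sq, two_mul, two_smul]
    rfl
  simp [lv2, k]
  ring

theorem log_nsq₀ {s : ℂ} (h : s ≠ 0) (a : ℂ) :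
    lv2 (fun s : ℂ => Real.log (‖s‖ ^ 2)) s a = 0 := by
  have := norm_ne_zero_iff.2 h
  rw [log (contDiff_norm_sq ℝ).contDiffAt (by positivity), nsq₀, fderiv_norm_sq]
  have e : (2 * inner ℝ s a) ^ 2 + (2 * inner ℝ s (I * a)) ^ 2 = 4 * ‖a‖ ^ 2 * ‖s‖ ^ 2 := by
    simp only [Complex.inner, Complex.sq_norm, Complex.normSq_apply]
    simp
    ring
  simp only [Pi.smul_apply, smul_apply, innerSL_apply_apply, nsmul_eq_mul, Nat.cast_ofNat,
    smul_eq_mul, e]
  field_simp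
  ring

variable [IsScalarTower ℝ ℂ V] [IsScalarTower ℝ ℂ G] {T : G → V} {y : G}

theorem d_smul (h : DifferentiableAt ℂ T y) (c : ℂ) (X : G) :
    fderiv ℝ T y (c • X) = c • fderiv ℝ T y X := by
  simp [h.fderiv_restrictScalars ℝ]

variable [CompleteSpace V]

theorem an_sm {m : WithTop ℕ∞} (h : AnalyticAt ℂ T y) : ContDiffAt ℝ m T y :=
  h.contDiffAt.restrict_scalars ℝ

theorem d2_smul (h : AnalyticAt ℂ T y) (c : ℂ) (X Y : G) :
    fderiv ℝ (fderiv ℝ T) y X (c • Y) = c • fderiv ℝ (fderiv ℝ T) y X Y := by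
  have d := fun Y => (hd2 (an_sm h)).clm_apply (hasFDerivAt_const Y y)
  have e : (fun w => fderiv ℝ T w (c • Y)) =ᶠ[𝓝 y] fun w => c • fderiv ℝ T w Y :=
    h.eventually_analyticAt.mono fun w k => d_smul k.differentiableAt c Y
  simpa using congr($(((d _).congr_of_eventuallyEq e.symm).unique ((d Y).fun_const_smul c)) X)

theorem d2_I (h : AnalyticAt ℂ T y) (X : G) :
    fderiv ℝ (fderiv ℝ T) y (I • X) (I • X) = -fderiv ℝ (fderiv ℝ T) y X X := by
  rw [d2_smul h, ((an_sm (m := 2) h).isSymmSndFDerivAt (by simp)).eq, d2_smul h, smul_smul,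
    Complex.I_mul_I, neg_one_smul]

/-- composition with a holomorphic map -/
theorem pull (h : AnalyticAt ℂ T y) (hu : ContDiffAt ℝ 2 u (T y)) (X : G) :
    lv2 (fun w => u (T w)) y X = lv2 u (T y) (fderiv ℝ T y X) := by
  simp only [lv2, d2_comp hu (an_sm h), d_smul h.differentiableAt, d2_I h, map_neg]
  ring

/-- restriction to a complex line -/
theorem line (hu : ContDiffAt ℝ 2 u z) (v : V) :
    lv2 (fun s : ℂ => u (z + s • v)) 0 1 = lv2 u z v := by
  have d : HasFDerivAt (fun s : ℂ => z + s • v) _ 0 :=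
    (((hasFDerivAt_id (𝕜 := ℂ) 0).smul_const v).const_add z).restrictScalars ℝ
  rw [pull (T := fun s : ℂ => z + s • v) (by fun_prop) (by simpa using hu), d.fderiv]
  simp

omit [CompleteSpace V]

theorem nsq {Z : G → ℂ} (h : AnalyticAt ℂ Z y) (X : G) :
    lv2 (fun w => ‖Z w‖ ^ 2) y X = 4 * ‖fderiv ℝ Z y X‖ ^ 2 :=
  (pull (u := fun s => ‖s‖ ^ 2) h (contDiff_norm_sq ℝ).contDiffAt X).trans (nsq₀ _ _)

theorem log_nsq {Z : G → ℂ} (h : AnalyticAt ℂ Z y) (h0 : Z y ≠ 0) (X : G) :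
    lv2 (fun w => Real.log (‖Z w‖ ^ 2)) y X = 0 :=
  (pull (u := fun s => Real.log (‖s‖ ^ 2)) h ((contDiff_norm_sq ℝ).contDiffAt.log
    (pow_ne_zero _ (norm_ne_zero_iff.2 h0))) X).trans (log_nsq₀ h0 _)

end Vale.Agent.P253W.X.Lv
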