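import Vale.Agent.P253W.X.Defs

/-!
# P253W, block X, row AREA: the area formula for immersed charts
-/

open scoped ENNReal Topology
open MeasureTheory Set Metric Filter Vale.Agent.P253Z
open Vale.Agent.P272.K (Cm jacM Chart)

noncomputable section

namespace Vale.Agent.P253W.X

/-- the number of preimages is a sum over the pieces on which the map is injective -/
theorem cnt_tsum {X Y : Type} [MeasurableSpace X] [MeasurableSingletonClass X] {Ψ : X → Y}
    {D : ℕ → Set X} (hd : Pairwise (Function.onFun Disjoint D)) (hi : ∀ k, InjOn Ψ (D k)) (q : Y) :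
    (((Ψ ⁻¹' {q} ∩ ⋃ k, D k).encard : ℕ∞) : ℝ≥0∞) = ∑' k, (Ψ '' D k).indicator 1 q := by
  have ss : ∀ k, (Ψ ⁻¹' {q} ∩ D k).Subsingleton := fun k a ha b hb =>
    hi k ha.2 hb.2 (ha.1.trans hb.1.symm)
  have ms : ∀ k, MeasurableSet (Ψ ⁻¹' {q} ∩ D k) := fun k => (ss k).measurableSet
  rw [inter_iUnion, ← Measure.count_apply (MeasurableSet.iUnion ms), measure_iUnion
    (fun i j hij => (hd hij).mono inter_subset_right inter_subset_right) ms]
  refine tsum_congr fun k => ?_
  by_cases h : q ∈ Ψ '' D k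
  · obtain ⟨a, ha, ha'⟩ := id h
    rw [indicator_of_mem h, (ss k).eq_singleton_of_mem ⟨ha', ha⟩, Measure.count_singleton]
    rfl
  · rw [indicator_of_notMem h, eq_empty_of_forall_notMem (s := Ψ ⁻¹' {q} ∩ D k)
      fun a ha => h ⟨a, ha.2, ha.1⟩, measure_empty]

/-- **the row AREA** -/
theorem area {n : ℕ} (h1 : AllM n fun M _ _ _ _ _ => IMM n M) :
    AllM n fun _ _ _ _ _ μ => AREA n μ := by
  intro M _ _ _ _ _ _ _ _ _ _ _ μ hK x r C Ψ r0 hC hΨ S hS sb
  have : Nonempty (Chart n M) := ⟨pc n x⟩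
  choose! e e1 e2 e3 e4 using fun y hy => ((h1 M μ hK x r C Ψ r0 hC hΨ).2 y hy).2
  obtain ⟨t, t1, t2, t3⟩ := TopologicalSpace.countable_cover_nhdsWithin
    (f := fun y => (e y).target) (s := ball (0 : Cm n) 1) fun y hy =>
      mem_nhdsWithin_of_mem_nhds ((e y).open_target.mem_nhds (e2 y hy))
  obtain ⟨u, rfl⟩ := t2.exists_eq_range (by
    obtain ⟨y, hy⟩ := mem_iUnion.1 (t3 (mem_ball_self one_pos))
    exact ⟨y, (mem_iUnion.1 hy).1⟩)
  have ub : ∀ k, u k ∈ ball (0 : Cm n) 1 := fun k => t1 ⟨k, rfl⟩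
  set D : ℕ → Set (Cm n) := fun k => disjointed (fun k => (e (u k)).target) k ∩ S with hD
  have Dm : ∀ k, MeasurableSet (D k) := fun k =>
    (MeasurableSet.disjointed (fun k => (e (u k)).open_target.measurableSet) k).inter hS
  have Dt : ∀ k, D k ⊆ (e (u k)).target := fun k =>
    inter_subset_left.trans (disjointed_subset _ k)
  have Dd : Pairwise (Function.onFun Disjoint D) := fun i j hij =>
    (disjoint_disjointed _ hij).mono inter_subset_left inter_subset_left
  have DS : ⋃ k, D k = S := by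
    rw [hD, ← iUnion_inter, iUnion_disjointed, inter_eq_right]
    exact sb.trans (t3.trans (by rw [biUnion_range]))
  have eq : ∀ k, EqOn (e (u k)).symm Ψ (D k) := fun k w hw => (e4 _ (ub k) w (Dt k hw)).1
  have im : ∀ k, Ψ '' D k = (e (u k)).symm '' D k := fun k => (image_congr (eq k)).symm
  have Im : ∀ k, MeasurableSet (Ψ '' D k) := fun k => im k ▸ (Dm k).image_of_continuousOn_injOn
    ((e (u k)).continuousOn_symm.mono (Dt k)) ((e (u k)).symm.injOn.mono (Dt k))
  have cn := cnt_tsum Dd fun k => (((e (u k)).symm.injOn.mono (Dt k)).congr (eq k))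
  rw [DS] at cn
  simp only [cn]
  have mi : ∀ k, Measurable ((Ψ '' D k).indicator (1 : M → ℝ≥0∞)) := fun k =>
    measurable_one.indicator (Im k)
  refine ⟨Measurable.tsum mi, fun G hG => ?_⟩
  have e5 : ∀ k q, G q * (Ψ '' D k).indicator 1 q = (Ψ '' D k).indicator G q := fun k q => by
    by_cases h : q ∈ Ψ '' D k <;> simp only [h, indicator_of_mem, indicator_of_notMem,
      not_false_eq_true, Pi.one_apply, mul_one, mul_zero]
  simp only [← ENNReal.tsum_mul_left, e5]
  rw [lintegral_tsum fun k => (hG.indicator (Im k)).aemeasurable, ← DS, lintegral_iUnion Dm Dd]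
  refine tsum_congr fun k => ?_
  rw [lintegral_indicator (Im k), im k, hK.all.v.loc _ (e1 _ (ub k)) _ (Dm k) (Dt k) G hG]
  refine setLIntegral_congr_fun (Dm k) fun w hw => ?_
  have e6 := hK.all.b.wch _ _ (e1 _ (ub k)) (hK.all.a.chart (Ψ w)) (Ψ w)
    (eq k hw ▸ (e (u k)).map_target (Dt k hw)) (mem_chart_source _ _)
  rw [(e4 _ (ub k) w (Dt k hw)).2] at e6
  simp only [eq k hw, vd, hx]
  rw [← e6, ← eq k hw, (e (u k)).right_inv (Dt k hw)]

end Vale.Agent.P253W.X
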