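import Vale.Agent.P253W.X.Defs
import Vale.Agent.P253W.V.Alg
import Vale.Agent.P253Z.B1a.Ch
import Vale.Agent.P272.K.INT.Dens

/-!
# P253W, block X, row CNT: the Hessian of `log (|G|² + c)` and estimates near a zero
-/

open scoped ContDiff Topology ComplexConjugate ComplexOrder Matrix
open Set Metric Filter Vale.Agent.P253Z
open Vale.Agent.P272.K (Cm dz dzb cHess)
open Vale.Agent.P272.K.C2 Vale.Agent.P253W.V.Alg

noncomputable section

namespace Vale.Agent.P253W.X.Cnt

variable {n : ℕ} {G : Cm n → Cm n} {z p : Cm n}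

/-- the Jacobian matrix -/
def jc (G : Cm n → Cm n) (z : Cm n) : Mx n := LinearMap.toMatrix' (fderiv ℂ G z : Cm n →ₗ[ℂ] Cm n)

theorem jc_det (G : Cm n → Cm n) (z : Cm n) : (jc G z).det = (fderiv ℂ G z).det :=
  LinearMap.det_toMatrix' _

theorem jc_mulVec (G : Cm n → Cm n) (z v : Cm n) : jc G z *ᵥ v = fderiv ℂ G z v :=
  LinearMap.toMatrix'_mulVec _ _

theorem en_coe (g : Cm n) : (en g : ℂ) = ∑ i, g i * conj (g i) := by
  simp [en, Complex.mul_conj, Complex.normSq_eq_norm_sq]

theorem en_nonneg (g : Cm n) : 0 ≤ en g := Finset.sum_nonneg fun _ _ => sq_nonneg _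

theorem en_le {g : Cm n} {b : ℝ} (h : ‖g‖ ≤ b) : en g ≤ n * b ^ 2 :=
  (Finset.sum_le_card_nsmul _ _ (b ^ 2) fun i _ =>
    pow_le_pow_left₀ (norm_nonneg _) ((norm_le_pi_norm g i).trans h) 2).trans_eq (by simp)

theorem cs_psd (g : Cm n) : ((en g : ℂ) • (1 : Mx n) - Matrix.vecMulVec (star g) g).PosSemidef := by
  refine Matrix.PosSemidef.of_dotProduct_mulVec_nonneg
    (((Matrix.PosSemidef.one (n := Fin n) (R := ℂ)).smul
      (Complex.zero_le_real.2 (en_nonneg g))).1.sub (Matrix.posSemidef_vecMulVec_star_self g).1)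
    fun x => ?_
  have h1 : star x ⬝ᵥ (((en g : ℂ) • (1 : Mx n) - Matrix.vecMulVec (star g) g) *ᵥ x) =
      ((en g * en x - ‖∑ i, g i * x i‖ ^ 2 : ℝ) : ℂ) := by
    rw [Matrix.sub_mulVec, Matrix.smul_mulVec, Matrix.one_mulVec, Matrix.vecMulVec_mulVec,
      dotProduct_sub, dotProduct_smul, Complex.ofReal_sub, Complex.ofReal_mul, en_coe x,
      ← Complex.normSq_eq_norm_sq, ← Complex.mul_conj]
    simp [dotProduct, Finset.mul_sum, mul_comm, mul_left_comm]
  rw [h1, Complex.zero_le_real, sub_nonneg]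
  refine (pow_le_pow_left₀ (norm_nonneg _) (norm_sum_le _ _) 2).trans ?_
  simpa only [norm_mul, en] using
    Finset.sum_mul_sq_le_sq_mul_sq Finset.univ (fun i => ‖g i‖) fun i => ‖x i‖

theorem comp_an (hG : AnalyticAt ℂ G z) (i : Fin n) : AnalyticAt ℂ (fun y => G y i) z :=
  analyticAt_pi_iff.1 hG i

theorem re_diff {f : Cm n → ℂ} (h : AnalyticAt ℂ f z) : DifferentiableAt ℝ f z :=
  h.differentiableAt.restrictScalars ℝ

theorem u_sm (hG : AnalyticAt ℂ G z) (c : ℝ) : ContDiffAt ℝ ∞ (fun y => en (G y) + c) z :=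
  (ContDiffAt.sum fun i _ => ((comp_an hG i).contDiffAt.restrict_scalars ℝ).norm_sq ℂ).add
    contDiffAt_const

theorem u_dz (hG : AnalyticAt ℂ G z) (c : ℝ) (j : Fin n) :
    dz j (fun y => ((en (G y) + c : ℝ) : ℂ)) z = ∑ i, jc G z i j * conj (G z i) ∧
    dzb j (fun y => ((en (G y) + c : ℝ) : ℂ)) z = ∑ i, G z i * conj (jc G z i j) := by
  have h := fun i => re_diff (comp_an hG i)
  have h' := fun i => (h i).fun_mul (differentiableAt_conj (h i))
  have h0 := fun i => P272.K.INT.dzb_of_holo (comp_an hG i).differentiableAt j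
  have h1 : ∀ i, dz j (fun y => G y i) z = jc G z i j := fun i =>
    B1aP.dz_comp hG.differentiableAt i j
  simp only [Complex.ofReal_add, en_coe]
  rw [dz_add j (DifferentiableAt.fun_sum fun i _ => h' i) (differentiableAt_const _),
    dzb_add j (DifferentiableAt.fun_sum fun i _ => h' i) (differentiableAt_const _), dz_const,
    dzb_const, dz_sum j _ fun i _ => h' i, dzb_sum j _ fun i _ => h' i, add_zero, add_zero]
  constructor <;> refine Finset.sum_congr rfl fun i _ => ?_
  · rw [dz_mul j (h i) (differentiableAt_conj (h i)), dz_conj j (h i), h0, h1]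
    simp
  · rw [dzb_mul j (h i) (differentiableAt_conj (h i)), dzb_conj j (h i), h0, h1]
    simp

theorem u_hess (hG : AnalyticAt ℂ G z) (c : ℝ) (j k : Fin n) :
    cHess (fun y => en (G y) + c) z j k = ∑ i, jc G z i j * conj (jc G z i k) := by
  have h := fun i => re_diff (comp_an hG i)
  have ha : ∀ i, AnalyticAt ℂ (fun y => jc G y i k) z := fun i => B1aP.analyticAt_entry hG i k
  rw [cHess_apply, dz_congr j (hG.eventually_analyticAt.mono fun y hy => (u_dz hy c k).2),
    dz_sum j _ fun i _ => (h i).fun_mul (differentiableAt_conj (re_diff (ha i)))]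
  refine Finset.sum_congr rfl fun i _ => ?_
  rw [dz_mul j (h i) (differentiableAt_conj (re_diff (ha i))), dz_conj j (re_diff (ha i)),
    P272.K.INT.dzb_of_holo (ha i).differentiableAt, B1aP.dz_comp hG.differentiableAt i j]
  simp [jc]

/-- the lower bound for the Hessian -/
theorem hess_ge (hG : AnalyticAt ℂ G z) {c : ℝ} (hc : 0 < c) (m : ℝ) :
    (cHess (fun y => Real.log (en (G y) + c) - m) z -
      ((c / (en (G z) + c) ^ 2 : ℝ) : ℂ) • pb (jc G z) 1).PosSemidef := by
  have hu : 0 < en (G z) + c := add_pos_of_nonneg_of_pos (en_nonneg _) hc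
  have h2 : ContDiffAt ℝ 2 (fun y => en (G y) + c) z := (u_sm hG c).of_le (by norm_cast)
  convert (pb_psd (jc G z) (cs_psd (G z))).smul
    (Complex.zero_le_real.2 (inv_pos.2 (pow_pos hu 2)).le) using 1
  rw [cHess_sub (h2.log hu.ne') contDiffAt_const, cHess_const, sub_zero, pb_sub, pb_smul]
  ext j k
  have h3 : ((en (G z) : ℂ) + c) ≠ 0 := by exact_mod_cast hu.ne'
  have h4 : pb (jc G z) 1 j k = ∑ i, jc G z i j * conj (jc G z i k) := by
    simp [pb, Matrix.mul_apply]
  have h5 : pb (jc G z) (Matrix.vecMulVec (star (G z)) (G z)) j k =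
      (∑ i, jc G z i j * conj (G z i)) * ∑ i, G z i * conj (jc G z i k) := by
    simp [pb, Matrix.mul_apply, Matrix.vecMulVec_apply, Finset.mul_sum, Finset.sum_mul, mul_assoc]
  simp only [Matrix.sub_apply, Matrix.smul_apply, smul_eq_mul]
  rw [cHess_log h2 hu, u_hess hG, (u_dz hG c j).1, (u_dz hG c k).2, h4, h5]
  push_cast
  field_simp
  ring

theorem det_le {A : Mx n} {K : ℝ} (h : ∀ i j, ‖A i j‖ ≤ K) : ‖A.det‖ ≤ n.factorial * K ^ n := by
  have := Matrix.det_le (abv := NormedField.toAbsoluteValue ℂ) h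
  rwa [Fintype.card_fin, nsmul_eq_mul] at this

theorem inv_le {A : Mx n} {K : ℝ} (hK : 1 ≤ K) (h : ∀ i j, ‖A i j‖ ≤ K) (v : Cm n) :
    ‖A.det‖ * ‖v‖ ≤ n * (n.factorial * K ^ n) * ‖A *ᵥ v‖ := by
  have h1 : A.det • v = A.adjugate *ᵥ (A *ᵥ v) := by
    rw [Matrix.mulVec_mulVec, Matrix.adjugate_mul, Matrix.smul_mulVec, Matrix.one_mulVec]
  have h2 : ∀ i j, ‖A.adjugate i j‖ ≤ n.factorial * K ^ n := fun i j => by
    rw [Matrix.adjugate_apply]
    refine det_le fun a b => ?_
    rw [Matrix.updateRow_apply]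
    split_ifs
    · rw [Pi.single_apply]
      split_ifs
      · simpa using hK
      · simpa using zero_le_one.trans hK
    · exact h a b
  rw [← norm_smul, h1]
  refine (pi_norm_le_iff_of_nonneg (by positivity)).2 fun i =>
    (norm_sum_le _ fun j => A.adjugate i j * (A *ᵥ v) j).trans ?_
  refine (Finset.sum_le_card_nsmul _ _ (n.factorial * K ^ n * ‖A *ᵥ v‖) fun j _ => ?_).trans_eq
    (by simp [mul_assoc])
  rw [norm_mul]
  exact mul_le_mul (h2 i j) (norm_le_pi_norm _ j) (norm_nonneg _) (by positivity)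

variable {E : ℝ} (hG : DifferentiableOn ℂ G (ball 0 1)) (hE : ∀ y ∈ ball (0 : Cm n) 1, ‖G y‖ ≤ E)

include hG hE

theorem fd_le (hz : z ∈ ball (0 : Cm n) (3 / 4)) : ‖fderiv ℂ G z‖ ≤ 8 * E := by
  have h : ball z (1 / 4) ⊆ ball 0 1 :=
    ball_subset_ball' (by linarith [mem_ball.1 hz])
  refine (Complex.norm_fderiv_le_div_of_mapsTo_ball (R₂ := 2 * E) (hG.mono h) (fun y hy => ?_)
    (by norm_num)).trans_eq (by ring)
  rw [mem_closedBall, dist_eq_norm]
  linarith [norm_sub_le (G y) (G z), hE y (h hy), hE z (h (mem_ball_self (by norm_num)))]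

theorem jc_le (hz : z ∈ ball (0 : Cm n) (3 / 4)) (i j : Fin n) : ‖jc G z i j‖ ≤ 8 * E := by
  refine (norm_le_pi_norm (fderiv ℂ G z (Pi.single j 1)) i).trans
    (((fderiv ℂ G z).le_opNorm _).trans ?_)
  rw [Pi.norm_single, norm_one, mul_one]
  exact fd_le hG hE hz

/-- the remainder of order two -/
theorem rem_le (hp : p ∈ ball (0 : Cm n) (1 / 2)) (h0 : G p = 0) (hz : z ∈ ball p (1 / 2)) :
    ‖G z - fderiv ℂ G p (z - p)‖ ≤ 4 * (8 * E) * ‖z - p‖ ^ 2 := by
  have h : ball p (1 / 2) ⊆ ball 0 1 := ball_subset_ball' (by linarith [mem_ball.1 hp])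
  have h1 := fd_le hG hE (ball_subset_ball (by norm_num) hp)
  have h2 : 0 ≤ E := (norm_nonneg _).trans (hE p (h (mem_ball_self (by norm_num))))
  have h3 := Complex.dist_le_mul_div_pow_of_mapsTo_ball_of_isLittleO (n := 1) (R₂ := 8 * E)
    (f := fun y => G y - fderiv ℂ G p (y - p)) ((hG.mono h).sub (by fun_prop)) (fun y hy => by
      have h4 := (fderiv ℂ G p).le_opNorm (y - p)
      have h5 := mul_le_mul h1 (mem_ball_iff_norm.1 hy).le (norm_nonneg _) (by positivity)
      simp only [sub_self, map_zero, h0, mem_closedBall_zero_iff]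
      linarith [norm_sub_le (G y) (fderiv ℂ G p (y - p)), hE y (h hy)]) (by
      have h4 := (hG.differentiableAt (isOpen_ball.mem_nhds
        (h (mem_ball_self (by norm_num))))).hasFDerivAt.isLittleO.norm_right
      simpa [h0] using h4) hz
  simp only [sub_self, map_zero, h0, dist_eq_norm, sub_zero] at h3
  exact h3.trans_eq (by ring)

theorem det_near (hp : p ∈ ball (0 : Cm n) (1 / 2)) (hz : z ∈ ball p (1 / 4)) :
    ‖(jc G z).det - (jc G p).det‖ ≤ 8 * (n.factorial * (8 * E) ^ n) * ‖z - p‖ := by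
  have h : ball p (1 / 4) ⊆ ball 0 (3 / 4) := ball_subset_ball' (by linarith [mem_ball.1 hp])
  have h1 := Complex.dist_le_div_mul_dist_of_mapsTo_ball (f := fun y => (jc G y).det)
    (R₂ := 2 * (n.factorial * (8 * E) ^ n)) (fun y hy => (B1aP.analyticAt_det
      (P268.analyticAt_of_differentiableOn isOpen_ball hG (ball_subset_ball (by norm_num)
        (h hy)))).differentiableAt.differentiableWithinAt) (fun y hy => by
      rw [mem_closedBall, dist_eq_norm]
      linarith [norm_sub_le (jc G y).det (jc G p).det, det_le (jc_le hG hE (h hy)),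
        det_le (jc_le hG hE (h (mem_ball_self (by norm_num))))]) hz
  simp only [dist_eq_norm] at h1
  exact h1.trans_eq (by ring)

end Vale.Agent.P253W.X.Cnt
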