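import Vale.Agent.P253W.X.Defs

/-!
# P253W, block X: bounds for the curvature tensor (CUR)
-/

open scoped ComplexConjugate ComplexOrder Matrix
open Vale.Agent.P272.K (Cm)
open Complex (I)

noncomputable section

namespace Vale.Agent.P253W.X

namespace Cur

variable {n : ℕ} (A : Mx n) (a b c : Cm n) (t : ℂ)

theorem hf_add_l : hf A (a + b) c = hf A a c + hf A b c := add_dotProduct _ _ _

theorem hf_add_r : hf A a (b + c) = hf A a b + hf A a c := by
  rw [hf, star_add, Matrix.mulVec_add, dotProduct_add, hf, hf]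

theorem hf_smul_l : hf A (t • a) b = t * hf A a b := smul_dotProduct _ _ _

theorem hf_smul_r : hf A a (t • b) = conj t * hf A a b := by
  rw [hf, star_smul, Matrix.mulVec_smul, dotProduct_smul, hf]
  rfl

theorem hf_ct : hf Aᴴ a b = conj (hf A b a) := by
  simp only [hf, dotProduct, Matrix.mulVec, Matrix.conjTranspose_apply, Pi.star_apply,
    RCLike.star_def, map_sum, map_mul, Complex.conj_conj, Finset.mul_sum]
  rw [Finset.sum_comm]
  exact Finset.sum_congr rfl fun i _ => Finset.sum_congr rfl fun j _ => by ring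

theorem qf_eq : qf A a = (hf A a a).re := rfl

theorem qf_smul : qf A (t • a) = ‖t‖ ^ 2 * qf A a := by
  rw [qf_eq, hf_smul_l, hf_smul_r, ← mul_assoc, Complex.mul_conj', ← Complex.ofReal_pow,
    Complex.re_ofReal_mul, qf_eq]

theorem qf_par : qf A (a + b) + qf A (a + (-1 : ℂ) • b) = 2 * (qf A a + qf A b) := by
  simp only [qf_eq, hf_add_l, hf_add_r, hf_smul_l, hf_smul_r]
  simp
  ring

variable {A}

theorem qf_nn (h : A.PosSemidef) : 0 ≤ qf A a := by
  simpa [qf] using h.re_dotProduct_nonneg (star a)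

theorem qf_pos (h : A.PosDef) {a : Cm n} (ha : a ≠ 0) : 0 < qf A a := by
  simpa [qf] using h.re_dotProduct_pos (star_ne_zero.2 ha)

theorem nr_sq (h : A.PosSemidef) : nr A a ^ 2 = qf A a := Real.sq_sqrt (qf_nn a h)

theorem nr_nn : 0 ≤ nr A a := Real.sqrt_nonneg _

/-- the inequality of Cauchy and Schwarz -/
theorem cs (h : Aᴴ = A) (h0 : ∀ a, 0 ≤ qf A a) : ‖hf A a b‖ ^ 2 ≤ qf A a * qf A b := by
  have e : hf A b a = conj (hf A a b) := by rw [← hf_ct, h]
  have h1 : ∀ s : ℝ, 0 ≤ ‖hf A a b‖ ^ 2 * qf A b * (s * s) + 2 * ‖hf A a b‖ ^ 2 * s + qf A a :=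
    fun s => (h0 (a + ((s : ℂ) * hf A a b) • b)).trans_eq (by
      rw [qf_eq, hf_add_l, hf_add_r, hf_add_r, Complex.add_re, Complex.add_re, Complex.add_re,
        ← qf_eq, ← qf_eq, qf_smul, hf_smul_l, hf_smul_r, e, map_mul, Complex.conj_ofReal, mul_assoc,
        mul_assoc, Complex.mul_conj', Complex.conj_mul', ← Complex.ofReal_pow, ← Complex.ofReal_mul,
        Complex.ofReal_re, norm_mul, mul_pow, Complex.norm_real, Real.norm_eq_abs, sq_abs]
      ring)
  have h2 := discrim_le_zero h1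
  rw [discrim] at h2
  rcases (sq_nonneg ‖hf A a b‖).eq_or_lt with h3 | h3
  · exact h3 ▸ mul_nonneg (h0 a) (h0 b)
  · nlinarith

/-- polarisation -/
theorem pol {H N : Mx n} {κ : ℝ} (hH : H.PosDef) (h : ∀ x, ‖hf N x x‖ ≤ κ * qf H x) (c d : Cm n) :
    ‖hf N c d‖ ≤ 2 * κ * nr H c * nr H d := by
  have h1 : ∀ c d, ‖hf N c d‖ ≤ κ * (qf H c + qf H d) := fun c d => by
    have e : 4 * hf N c d = (hf N (c + d) (c + d) - hf N (c + (-1 : ℂ) • d) (c + (-1 : ℂ) • d)) +
        I * (hf N (c + I • d) (c + I • d) -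
          hf N (c + (-1 : ℂ) • I • d) (c + (-1 : ℂ) • I • d)) := by
      simp only [hf_add_l, hf_add_r, hf_smul_l, hf_smul_r, map_neg, map_one, Complex.conj_I]
      linear_combination (2 * hf N c d - 2 * hf N d c) * Complex.I_mul_I
    have h2 := (congrArg norm e).trans_le ((norm_add_le _ _).trans (add_le_add (norm_sub_le _ _)
      ((norm_mul _ _).trans_le (mul_le_mul_of_nonneg_left (norm_sub_le _ _) (norm_nonneg _)))))
    have h3 := qf_par H c d
    have h4 := qf_par H c (I • d)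
    rw [qf_smul, Complex.norm_I, one_pow, one_mul] at h4
    rw [norm_mul, Complex.norm_ofNat, Complex.norm_I, one_mul] at h2
    have h5 := add_le_add (add_le_add (h (c + d)) (h (c + (-1 : ℂ) • d)))
      (add_le_add (h (c + I • d)) (h (c + (-1 : ℂ) • I • d)))
    rw [← mul_add, ← mul_add, h3, h4] at h5
    linarith
  by_cases hc : c = 0
  · simp [hc, hf, nr, qf]
  by_cases hd : d = 0
  · simp [hd, hf, nr, qf]
  have c0 : 0 < nr H c := Real.sqrt_pos.2 (qf_pos hH hc)
  have d0 : 0 < nr H d := Real.sqrt_pos.2 (qf_pos hH hd)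
  have h2 := h1 ((nr H d : ℂ) • c) ((nr H c : ℂ) • d)
  rw [hf_smul_l, hf_smul_r, qf_smul, qf_smul, norm_mul, norm_mul, Complex.norm_conj,
    Complex.norm_real, Complex.norm_real, Real.norm_of_nonneg c0.le, Real.norm_of_nonneg d0.le,
    ← nr_sq c hH.posSemidef, ← nr_sq d hH.posSemidef] at h2
  refine le_of_mul_le_mul_left ?_ (mul_pos c0 d0)
  linarith

variable {R : Cm n → Cm n → Mx n}

theorem kt_conj (h : KT R) (a b c d : Cm n) : hf (R a b) c d = conj (hf (R b a) d c) := by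
  rw [← hf_ct, h.her]

theorem kt_sym' (h : KT R) (a b c d : Cm n) : hf (R a b) c d = hf (R a d) c b := by
  rw [kt_conj h, h.sym, ← kt_conj h]

theorem kt_swap (h : KT R) (a b c d : Cm n) : hf (R a b) c d = hf (R c d) a b := by
  rw [h.sym, kt_sym' h]

theorem kt_cs (h : KT R) (a b x : Cm n) :
    ‖hf (R a b) x x‖ ^ 2 ≤ qf (R x x) a * qf (R x x) b := by
  rw [kt_swap h]
  exact cs a b (h.her x x) (h.pos x)

end Cur

open Cur in
/-- **CUR** -/
theorem cur (n : ℕ) : CUR n := by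
  intro H R K m V hH h hK hm h1 h2
  have q0 := fun a => qf_nn a hH.posSemidef
  have n0 := fun a => nr_nn (A := H) a
  have b2 : ∀ a b c, ‖hf (R V a) b c‖ ≤ 4 * √(K * m) * nr H a * nr H b * nr H c := fun a b c => by
    refine (pol (κ := √(K * m) * nr H a) hH (fun x => ?_) b c).trans ?_
    · refine (pow_le_pow_iff_left₀ (norm_nonneg _)
        (mul_nonneg (mul_nonneg (Real.sqrt_nonneg _) (n0 a)) (q0 x)) two_ne_zero).1
        ((kt_cs h V a x).trans ((mul_le_mul (h2 x) (h1 x a) (h.pos _ _)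
          (mul_nonneg hm (q0 x))).trans_eq ?_))
      rw [mul_pow, mul_pow, Real.sq_sqrt (mul_nonneg hK hm), nr_sq a hH.posSemidef]
      ring
    · linarith [mul_nonneg (mul_nonneg (mul_nonneg (Real.sqrt_nonneg (K * m)) (n0 a)) (n0 b)) (n0 c)]
  have b3 : ∀ a b c, ‖hf (R a V) b c‖ ≤ 4 * √(K * m) * nr H a * nr H b * nr H c := fun a b c => by
    rw [kt_conj h, Complex.norm_conj, mul_right_comm]
    exact b2 a c b
  refine fun a b c => ⟨fun d => ?_, b2 a b c, b3 a b c, ?_, ?_⟩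
  · refine (pol (κ := K * nr H a * nr H b) hH (fun x => ?_) c d).trans ?_
    · refine (pow_le_pow_iff_left₀ (norm_nonneg _)
        (mul_nonneg (mul_nonneg (mul_nonneg hK (n0 a)) (n0 b)) (q0 x)) two_ne_zero).1
        ((kt_cs h a b x).trans ((mul_le_mul (h1 x a) (h1 x b) (h.pos _ _)
          (mul_nonneg (mul_nonneg hK (q0 x)) (q0 a))).trans_eq ?_))
      rw [mul_pow, mul_pow, mul_pow, nr_sq a hH.posSemidef, nr_sq b hH.posSemidef]
      ring
    · linarith [mul_nonneg (mul_nonneg (mul_nonneg (mul_nonneg hK (n0 a)) (n0 b)) (n0 c)) (n0 d)]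
  · rw [h.sym]
    exact (b2 b a c).trans_eq (by ring)
  · rw [kt_sym' h]
    exact (b3 a c b).trans_eq (by ring)

end Vale.Agent.P253W.X
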