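import Vale.Agent.P253W.Defs

/-!
# P253W, block X: moving frames, complex structures on open sets, fibres of the exponential map

Vectors are rows. A frame `P` has the basis vectors as rows, the vector with the components `a` is
`a ᵥ* P`.
-/

open scoped Manifold ContDiff Bundle ENNReal Topology ComplexConjugate ComplexOrder Matrix
open Bundle IsManifold MeasureTheory Set Metric Filter Vale.Agent.P253.Mfd Vale.Agent.P253Z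
open Vale.Agent.P272.K (Cm dz dzb cHess jacM Chart)
open Vale.Agent.P272.K.C2 (DM RM)
open Complex (I)

noncomputable section

namespace Vale.Agent.P253W.X

/-! ### algebra and calculus -/

section alg

variable {n : ℕ}

/-- `A(a, b̄)` -/
def hf (A : Mx n) (a b : Cm n) : ℂ := a ⬝ᵥ (A *ᵥ star b)

/-- the norm given by `A` -/
def nr (A : Mx n) (a : Cm n) : ℝ := √(qf A a)

/-- the square of the Euclidean norm -/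
def en (y : Cm n) : ℝ := ∑ i, ‖y i‖ ^ 2

/-- the Euclidean unit ball -/
def UB (n : ℕ) : Set (Cm n) := {y | en y < 1}

/-- Kähler curvature tensors `T(a, b, c, d) = hf (R a b) c d` of nonnegative bisectional
curvature -/
structure KT (R : Cm n → Cm n → Mx n) : Prop where
  add_l : ∀ a a' b, R (a + a') b = R a b + R a' b
  smul_l : ∀ (c : ℂ) (a b : Cm n), R (c • a) b = c • R a b
  her : ∀ a b, (R a b)ᴴ = R b a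
  sym : ∀ a b c d, hf (R a b) c d = hf (R c b) a d
  pos : ∀ a c, 0 ≤ qf (R a a) c

/-- **CUR**: bounds for the curvature tensor -/
def CUR (n : ℕ) : Prop := ∀ (H : Mx n) (R : Cm n → Cm n → Mx n) (K m : ℝ) (V : Cm n), H.PosDef →
  KT R → 0 ≤ K → 0 ≤ m → (∀ a c, qf (R a a) c ≤ K * qf H a * qf H c) →
  (∀ a, qf (R a a) V ≤ m * qf H a) → ∀ a b c : Cm n,
    (∀ d, ‖hf (R a b) c d‖ ≤ 4 * K * nr H a * nr H b * nr H c * nr H d) ∧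
    ‖hf (R V a) b c‖ ≤ 4 * √(K * m) * nr H a * nr H b * nr H c ∧
    ‖hf (R a V) b c‖ ≤ 4 * √(K * m) * nr H a * nr H b * nr H c ∧
    ‖hf (R a b) V c‖ ≤ 4 * √(K * m) * nr H a * nr H b * nr H c ∧
    ‖hf (R a b) c V‖ ≤ 4 * √(K * m) * nr H a * nr H b * nr H c

/-- **LINA**: linear algebra and integrals -/
structure LINA (n : ℕ) : Prop where
  /-- normalisation -/
  sq : ∀ (H : Mx n) (r : ℝ), H.PosDef → 0 < r → ∃ S : Mx n, S * H * Sᴴ = ((r ^ 2 : ℝ) : ℂ) • 1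
  near : ∃ δ : ℝ, 0 < δ ∧ ∀ (H : Mx n) (L : Cm n →L[ℝ] Cm n), H.PosDef →
    (∀ v, qf H (L v - v) ≤ δ * qf H v) → 1 / 2 ≤ |L.det| ∧ |L.det| ≤ 2
  mul : ∀ (L L' : Cm n →L[ℝ] Cm n) (P : Mx n), (∀ v, L' v = L v ᵥ* P) →
    |L'.det| = ‖P.det‖ ^ 2 * |L.det|
  mul' : ∀ (L L' : (ℂ × Cm n) →L[ℝ] (ℂ × Cm n)) (P : Mx n) (c : Cm n),
    (∀ v, L' v = ((L v).1, ((L v).2 + (L v).1 • c) ᵥ* P)) → |L'.det| = ‖P.det‖ ^ 2 * |L.det|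
  blk : ∀ (L : (ℂ × Cm n) →L[ℝ] (ℂ × Cm n)) (L' : Cm n →L[ℝ] Cm n), (∀ v, (L v).1 = v.1) →
    (∀ v, L' v = (L (0, v)).2) → L.det = L'.det
  /-- two sided bounds for the determinant -/
  det : ∀ (H : Mx n) (a b : ℝ), H.IsHermitian → 0 < a → (∀ v, a * en v ≤ qf H v) →
    (∀ v, qf H v ≤ b * en v) → a ^ n ≤ H.det.re ∧ H.det.re ≤ b ^ n
  /-- an upper bound from a lower bound and a bound for the determinant -/
  up : ∀ (H : Mx n) (a b : ℝ), H.IsHermitian → 0 < a → (∀ v, a * en v ≤ qf H v) →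
    H.det.re ≤ b → ∀ v, a ^ n * qf H v ≤ a * b * en v
  tr : ∀ (N : Mx n) (b : ℝ), (∀ v w, ‖hf N v w‖ ≤ b * √(en v) * √(en w)) → ‖N.trace‖ ≤ n * b
  hada : ∀ (N : Mx n) (b : ℝ), (∀ v, en (v ᵥ* N) ≤ b * en v) → ‖N.det‖ ^ 2 ≤ b ^ n
  chg : ∀ (S H : Mx n) (r : ℝ), H.PosDef → 0 < r → S * H * Sᴴ = ((r ^ 2 : ℝ) : ℂ) • 1 →
    ∀ g : Cm n → ℝ≥0∞, (∫⁻ y, g y) * ENNReal.ofReal H.det.re =
      ENNReal.ofReal (r ^ (2 * n)) * ∫⁻ y, g (y ᵥ* S)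
  int : 1 ≤ n → ∃ C : ℝ, ∀ (H : Mx n) (r : ℝ), H.PosDef → 0 < r →
    (∫⁻ y in {y | qf H y < r ^ 2}, ENNReal.ofReal (qf H y ^ (1 / 2 - n : ℝ))) *
      ENNReal.ofReal H.det.re ≤ ENNReal.ofReal (C * r)

variable {E : Type} [NormedAddCommGroup E] [NormedSpace ℝ E]

/-- the derivative of a matrix valued function -/
def dM (f : E → Mx n) (q v : E) : Mx n := Matrix.of fun i j => fderiv ℝ (fun p => f p i j) q v

/-- smooth matrix valued functions -/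
def MS (f : E → Mx n) (q : E) : Prop := ∀ i j, ContDiffAt ℝ ∞ (fun p => f p i j) q

/-- the structure equations of Cartan -/
structure Car (U : Set E) (θ : E → E → Cm n) (Γ : E → E → Mx n) (H : E → Mx n)
    (R : E → Cm n → Cm n → Mx n) : Prop where
  op : IsOpen U
  θ_lin : ∀ q ∈ U, IsLinearMap ℝ (θ q)
  Γ_lin : ∀ q ∈ U, IsLinearMap ℝ (Γ q)
  θ_sm : ∀ q ∈ U, ∀ v, ContDiffAt ℝ ∞ (fun p => θ p v) q
  Γ_sm : ∀ q ∈ U, ∀ v, MS (fun p => Γ p v) q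
  H_sm : ∀ q ∈ U, MS H q
  H_pos : ∀ q ∈ U, (H q).PosDef
  tor : ∀ q ∈ U, ∀ v w, fderiv ℝ (fun p => θ p w) q v + θ q w ᵥ* Γ q v =
    fderiv ℝ (fun p => θ p v) q w + θ q v ᵥ* Γ q w
  cur : ∀ q ∈ U, ∀ v w, (dM (fun p => Γ p w) q v - dM (fun p => Γ p v) q w + Γ q w * Γ q v -
    Γ q v * Γ q w) * H q = R q (θ q v) (θ q w) - R q (θ q w) (θ q v)
  met : ∀ q ∈ U, ∀ v, dM H q v = Γ q v * H q + H q * (Γ q v)ᴴ
  kt : ∀ q ∈ U, KT (R q)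

/-- a family of geodesics `s ↦ (p, s)` with the velocity `y p` in a parallel frame -/
structure Geo (O : Set E) (y : E → Cm n) (θ : E × ℝ → E × ℝ → Cm n) (Γ : E × ℝ → E × ℝ → Mx n)
    (H : E × ℝ → Mx n) (R : E × ℝ → Cm n → Cm n → Mx n) : Prop where
  op : IsOpen O
  car : Car (O ×ˢ univ) θ Γ H R
  y_sm : ∀ p ∈ O, ContDiffAt ℝ ∞ y p
  θs : ∀ p ∈ O, ∀ s, θ (p, s) (0, 1) = y p
  Γs : ∀ p ∈ O, ∀ s, Γ (p, s) (0, 1) = 0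

/-- curvature bounds along the geodesic `p` -/
def CB (H : E × ℝ → Mx n) (R : E × ℝ → Cm n → Cm n → Mx n) (p : E) (c : Cm n) (K m : ℝ) : Prop :=
  0 ≤ K ∧ 0 ≤ m ∧ ∀ s ∈ Icc (0 : ℝ) 1, ∀ a,
    (∀ b, qf (R (p, s) a a) b ≤ K * qf (H (p, 0)) a * qf (H (p, 0)) b) ∧
      qf (R (p, s) a a) c ≤ m * qf (H (p, 0)) a

/-- the square of the length of the geodesic `p` -/
def gD (H : E × ℝ → Mx n) (y : E → Cm n) (p : E) : ℝ := qf (H (p, 0)) (y p)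

end alg

/-- **JE**: Jacobi fields -/
def JE (n : ℕ) : Prop := ∃ C δ : ℝ, 1 ≤ C ∧ 0 < δ ∧
  ∀ (E : Type) [NormedAddCommGroup E] [NormedSpace ℝ E] (O : Set E) (y : E → Cm n)
    (θ : E × ℝ → E × ℝ → Cm n) (Γ : E × ℝ → E × ℝ → Mx n) (H : E × ℝ → Mx n)
    (R : E × ℝ → Cm n → Cm n → Mx n), Geo O y θ Γ H R → ∀ p ∈ O,
    (∀ s, H (p, s) = H (p, 0)) ∧
    (∀ v, fderiv ℝ (gD H y) p v =
      2 * (hf (H (p, 0)) (θ (p, 1) (v, 0) - θ (p, 0) (v, 0)) (y p)).re) ∧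
    (∀ v s, HasDerivAt (fun s => θ (p, s) (v, 0)) (fderiv ℝ y p v + y p ᵥ* Γ (p, s) (v, 0)) s) ∧
    ∀ (c : Cm n) (K m : ℝ), CB H R p c K m → K * gD H y p ≤ δ → ∀ (v : E) (σ : ℂ) (W : Cm n) (e : ℝ),
      θ (p, 0) (v, 0) = σ • c → W = θ (p, 1) (v, 0) - σ • c →
      e = √(K * m) * ‖σ‖ + K * nr (H (p, 0)) W → ∀ s ∈ Icc (0 : ℝ) 1,
      nr (H (p, 0)) (fderiv ℝ y p v + y p ᵥ* Γ (p, s) (v, 0) - W) ≤ C * gD H y p * e ∧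
      nr (H (p, 0)) (θ (p, s) (v, 0) - σ • c) ≤ 2 * nr (H (p, 0)) W + C * gD H y p * e ∧
      ∀ a b, ‖hf ((Γ (p, s) (v, 0) - Γ (p, 0) (v, 0)) * H (p, 0)) a b‖ ≤
        C * √(gD H y p) * e * nr (H (p, 0)) a * nr (H (p, 0)) b

/-! ### complex structures on open subsets of a vector space -/

section atl

variable {V : Type} [NormedAddCommGroup V] [NormedSpace ℝ V] [NormedSpace ℂ V]

/-- four times the Levi form -/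
def lv2 (u : V → ℝ) (z v : V) : ℝ :=
  fderiv ℝ (fderiv ℝ u) z v v + fderiv ℝ (fderiv ℝ u) z (I • v) (I • v)

/-- a holomorphic atlas of `T` for the complex structure `Θ⁻¹ i Θ` -/
structure At (T : Set V) (Θ : V → V →L[ℝ] V) where
  ι : Type
  c : ι → OpenPartialHomeomorph V V
  op : IsOpen T
  sub : ∀ i, (c i).source ⊆ T
  cover : ∀ q ∈ T, ∃ i, q ∈ (c i).source
  sm : ∀ i, ∀ q ∈ (c i).source, ContDiffAt ℝ ∞ (c i) q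
  sm' : ∀ i, ∀ z ∈ (c i).target, ContDiffAt ℝ ∞ (c i).symm z
  lin : ∀ i, ∀ q ∈ (c i).source, ∃ L : V ≃L[ℂ] V, ∀ v, fderiv ℝ (c i) q v = L (Θ q v)

/-- the Cauchy-Riemann equations -/
def CR {G : Type} [NormedAddCommGroup G] [NormedSpace ℝ G] [NormedSpace ℂ G] (Θ : V → V →L[ℝ] V)
    (u : V → G) (q : V) : Prop :=
  DifferentiableAt ℝ u q ∧ ∀ v v', Θ q v' = I • Θ q v → fderiv ℝ u q v' = I • fderiv ℝ u q v

/-- a bound for `|2 ∂̄u|²` -/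
def DB (Θ : V → V →L[ℝ] V) (u : V → ℂ) (q : V) (Q : V → ℝ) : Prop :=
  ∀ v v', Θ q v' = I • Θ q v → ‖fderiv ℝ u q v + I * fderiv ℝ u q v'‖ ^ 2 ≤ Q v

/-- the map `p` is smooth and holomorphic at `y` -/
def HM {G : Type} [NormedAddCommGroup G] [NormedSpace ℝ G] [NormedSpace ℂ G] (Θ : V → V →L[ℝ] V)
    (p : G → V) (y : G) : Prop :=
  ContDiffAt ℝ ∞ p y ∧ ∀ v, Θ (p y) (fderiv ℝ p y (I • v)) = I • Θ (p y) (fderiv ℝ p y v)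

namespace At

variable {T : Set V} {Θ : V → V →L[ℝ] V} (A : At T Θ)

/-- four times the Levi form in the chart `i` -/
def lv (i : A.ι) (u : V → ℝ) (q v : V) : ℝ :=
  lv2 (fun z => u ((A.c i).symm z)) (A.c i q) (fderiv ℝ (A.c i) q v)

open Classical in
/-- four times the Levi form -/
def lev (u : V → ℝ) (q v : V) : ℝ := if h : q ∈ T then A.lv (A.cover q h).choose u q v else 0

/-- the line in the chart `i` -/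
def line (i : A.ι) (q v : V) (ζ : ℂ) : V := (A.c i).symm (A.c i q + ζ • fderiv ℝ (A.c i) q v)

/-- `ν` is the density of a volume form with plurisubharmonic `- log` -/
def Den (ν : V → ℝ) : Prop := ∀ i, ∃ g : V → ℝ,
  (∀ z ∈ (A.c i).target, ContDiffAt ℝ ∞ g z ∧ 0 < g z ∧
    ∀ X, lv2 (fun z => Real.log (g z)) z X ≤ 0) ∧
  ∀ q ∈ (A.c i).source, ν q = g (A.c i q) * |(fderiv ℝ (A.c i) q).det|

/-- a strictly plurisubharmonic exhaustion of `O` -/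
structure Exh (O : Set V) (η : V → ℝ) : Prop where
  op : IsOpen O
  sub : O ⊆ T
  sm : ∀ q ∈ O, ContDiffAt ℝ ∞ η q
  pos : ∀ q ∈ O, ∀ v, v ≠ 0 → 0 < A.lev η q v
  cpt : ∀ c : ℝ, IsCompact {q | q ∈ O ∧ η q ≤ c}

/-- the calculus of holomorphic maps -/
structure Cal1 : Prop where
  bij : ∀ q ∈ T, Function.Bijective (Θ q)
  hol : ∀ i j, ∀ z ∈ (A.c i).target, (A.c i).symm z ∈ (A.c j).source →
    AnalyticAt ℂ (fun z => A.c j ((A.c i).symm z)) z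
  cr_iff : ∀ (G : Type) [NormedAddCommGroup G] [NormedSpace ℝ G] [NormedSpace ℂ G]
    [IsScalarTower ℝ ℂ G] (u : V → G) (i : A.ι), ∀ q ∈ (A.c i).source,
    CR Θ u q ↔ DifferentiableAt ℂ (fun z => u ((A.c i).symm z)) (A.c i q)
  an : ∀ (G : Type) [NormedAddCommGroup G] [NormedSpace ℝ G] [NormedSpace ℂ G]
    [IsScalarTower ℝ ℂ G] [FiniteDimensional ℂ G] (u : V → G) (i : A.ι), ∀ q ∈ (A.c i).source,
    (∀ᶠ p in 𝓝 q, CR Θ u p) →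
      AnalyticAt ℂ (fun z => u ((A.c i).symm z)) (A.c i q) ∧ ContDiffAt ℝ ∞ u q
  hm_iff : ∀ (G : Type) [NormedAddCommGroup G] [NormedSpace ℝ G] [NormedSpace ℂ G]
    [IsScalarTower ℝ ℂ G] [FiniteDimensional ℂ G] (p : G → V) (y : G) (i : A.ι),
    p y ∈ (A.c i).source →
      ((∀ᶠ w in 𝓝 y, HM Θ p w) ↔ ContinuousAt p y ∧ AnalyticAt ℂ (fun w => A.c i (p w)) y)
  line : ∀ i, ∀ q ∈ (A.c i).source, ∀ v, A.line i q v 0 = q ∧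
    fderiv ℝ (A.line i q v) 0 1 = v ∧ ∀ᶠ ζ in 𝓝 0, HM Θ (A.line i q v) ζ
  /-- the inverse of an injective holomorphic immersion -/
  inv : ∀ (O : Set V) (Z : V → V), IsOpen O → O ⊆ T → (∀ q ∈ O, CR Θ Z q) → InjOn Z O →
    (∀ q ∈ O, Function.Injective (fderiv ℝ Z q)) → IsOpen (Z '' O) ∧ ∀ g : V → V,
      (∀ q ∈ O, g (Z q) = q) → ∀ q ∈ O, HM Θ g (Z q) ∧
        ∀ v, fderiv ℝ Z q (fderiv ℝ g (Z q) v) = v

/-- the calculus of the Levi form -/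
structure Cal2 : Prop where
  eq : ∀ (u : V → ℝ) (i : A.ι), ∀ q ∈ (A.c i).source, ContDiffAt ℝ 2 u q →
    ∀ v, A.lev u q v = A.lv i u q v
  congr : ∀ (u w : V → ℝ), ∀ q ∈ T, u =ᶠ[𝓝 q] w → ∀ v, A.lev u q v = A.lev w q v
  add : ∀ (u w : V → ℝ), ∀ q ∈ T, ContDiffAt ℝ 2 u q → ContDiffAt ℝ 2 w q →
    ∀ v, A.lev (fun p => u p + w p) q v = A.lev u q v + A.lev w q v
  comp : ∀ (u : V → ℝ) (φ : ℝ → ℝ), ∀ q ∈ T, ContDiffAt ℝ 2 u q → ContDiffAt ℝ 2 φ (u q) →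
    ∀ v v', Θ q v' = I • Θ q v → A.lev (fun p => φ (u p)) q v = deriv φ (u q) * A.lev u q v +
      deriv (deriv φ) (u q) * (fderiv ℝ u q v ^ 2 + fderiv ℝ u q v' ^ 2)
  smul : ∀ (u : V → ℝ) (a : ℝ), ∀ q ∈ T, ContDiffAt ℝ 2 u q →
    ∀ v, A.lev (fun p => a * u p) q v = a * A.lev u q v
  log : ∀ (u : V → ℝ), ∀ q ∈ T, ContDiffAt ℝ 2 u q → u q ≠ 0 → ∀ v v', Θ q v' = I • Θ q v →
    A.lev (fun p => Real.log (u p)) q v =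
      A.lev u q v / u q - (fderiv ℝ u q v ^ 2 + fderiv ℝ u q v' ^ 2) / u q ^ 2
  mul : ∀ (u w : V → ℝ), ∀ q ∈ T, ContDiffAt ℝ 2 u q → ContDiffAt ℝ 2 w q →
    ∀ v v', Θ q v' = I • Θ q v → A.lev (fun p => u p * w p) q v =
      u q * A.lev w q v + w q * A.lev u q v +
        2 * (fderiv ℝ u q v * fderiv ℝ w q v + fderiv ℝ u q v' * fderiv ℝ w q v')
  nsq : ∀ (Z : V → ℂ), ∀ q ∈ T, (∀ᶠ p in 𝓝 q, CR Θ Z p) → ∀ v,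
    A.lev (fun p => ‖Z p‖ ^ 2) q v = 4 * ‖fderiv ℝ Z q v‖ ^ 2 ∧
      (Z q ≠ 0 → A.lev (fun p => Real.log (‖Z p‖ ^ 2)) q v = 0)
  max : ∀ (u : V → ℝ), ∀ q ∈ T, ContDiffAt ℝ 2 u q → IsLocalMax u q → ∀ v, A.lev u q v ≤ 0
  pull : ∀ (G : Type) [NormedAddCommGroup G] [NormedSpace ℝ G] [NormedSpace ℂ G]
    [IsScalarTower ℝ ℂ G] [FiniteDimensional ℂ G] (p : G → V) (y : G) (u : V → ℝ), p y ∈ T →
    (∀ᶠ w in 𝓝 y, HM Θ p w) → ContDiffAt ℝ 2 u (p y) →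
      ∀ X, lv2 (fun w => u (p w)) y X = A.lev u (p y) (fderiv ℝ p y X)

end At

variable (V) in
/-- **MKAT**: construction of an atlas -/
def MKAT : Prop := ∀ (T : Set V) (Θ : V → V →L[ℝ] V) (J : Type) (U : J → Set V) (Φ : J → V → V),
  IsOpen T → (∀ j, IsOpen (U j)) → (∀ q ∈ T, ∃ j, q ∈ U j) →
  (∀ q ∈ T, Function.Injective (Θ q)) →
  (∀ j, ∀ q ∈ T, q ∈ U j → ContDiffAt ℝ ∞ (Φ j) q ∧
    ∃ L : V ≃L[ℂ] V, ∀ v, fderiv ℝ (Φ j) q v = L (Θ q v)) →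
  ∃ (A : At T Θ) (j : A.ι → J), ∀ i, (A.c i).source ⊆ U (j i) ∧ ∀ q, A.c i q = Φ (j i) q

variable [MeasurableSpace V]

/-- the weighted norm -/
def N2 (μ : Measure V) (O : Set V) (ν ψ : V → ℝ) (s : V → ℂ) : ℝ≥0∞ :=
  ∫⁻ q in O, ENNReal.ofReal (‖s q‖ ^ 2 * Real.exp (-ψ q) * ν q) ∂μ

/-- the hypotheses of the theorem of Hörmander -/
structure At.HD {T : Set V} {Θ : V → V →L[ℝ] V} (A : At T Θ) (μ : Measure V) (O : Set V)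
    (ν ψ Λ : V → ℝ) (s₀ : V → ℂ) (C₀ : ℝ) : Prop where
  ψ_sm : ∀ q ∈ O, ContDiffAt ℝ ∞ ψ q
  ψ_pos : ∀ q ∈ O, ∀ v, 0 ≤ A.lev ψ q v
  s_sm : ∀ q ∈ O, ContDiffAt ℝ ∞ s₀ q
  fin : N2 μ O ν ψ s₀ < ⊤
  Λ_cont : ContinuousOn Λ O
  Λ_pos : ∀ q ∈ O, 0 ≤ Λ q
  db : ∀ q ∈ O, DB Θ s₀ q fun v => Λ q * A.lev ψ q v
  C_pos : 0 ≤ C₀
  le : ∫⁻ q in O, ENNReal.ofReal (Λ q * Real.exp (-ψ q) * ν q) ∂μ ≤ ENNReal.ofReal C₀

/-- **HORD**: the theorem of Hörmander on a pseudoconvex domain -/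
def HORD (μ : Measure V) : Prop := ∀ (T : Set V) (Θ : V → V →L[ℝ] V) (A : At T Θ) (O : Set V)
  (η ν : V → ℝ), A.Den ν → A.Exh O η → ∀ (ψ Λ : V → ℝ) (s₀ : V → ℂ) (C₀ : ℝ),
    A.HD μ O ν ψ Λ s₀ C₀ → ∃ s : V → ℂ, (∀ q ∈ O, CR Θ s q) ∧
      N2 μ O ν ψ (fun q => s q - s₀ q) ≤ ENNReal.ofReal C₀

/-- **HORS**: one solution for a decreasing sequence of weights -/
def HORS (μ : Measure V) : Prop := ∀ (T : Set V) (Θ : V → V →L[ℝ] V) (A : At T Θ) (O : Set V)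
  (η ν : V → ℝ), A.Den ν → A.Exh O η → ∀ (ψ : ℕ → V → ℝ) (Λ : V → ℝ) (s₀ : V → ℂ) (C₀ : ℝ),
    (∀ k, A.HD μ O ν (ψ k) Λ s₀ C₀) → (∀ k, ∀ q ∈ O, ψ (k + 1) q ≤ ψ k q) →
    ∃ s : V → ℂ, (∀ q ∈ O, CR Θ s q) ∧
      ∀ k, N2 μ O ν (ψ k) (fun q => s q - s₀ q) ≤ ENNReal.ofReal C₀

end atl

/-- **SV**: the second variation of the length of geodesics whose end points move holomorphically -/
def SV (n : ℕ) : Prop := ∃ C δ : ℝ, 1 ≤ C ∧ 0 < δ ∧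
  ∀ (O : Set ℂ) (y : ℂ → Cm n) (θ : ℂ × ℝ → ℂ × ℝ → Cm n) (Γ : ℂ × ℝ → ℂ × ℝ → Mx n)
    (H : ℂ × ℝ → Mx n) (R : ℂ × ℝ → Cm n → Cm n → Mx n), Geo O y θ Γ H R → ∀ p ∈ O,
    (∀ᶠ p' in 𝓝 p, θ (p', 0) (I, 0) = I • θ (p', 0) (1, 0) ∧
      θ (p', 1) (I, 0) = I • θ (p', 1) (1, 0)) →
    ∀ (c : Cm n) (K m : ℝ), CB H R p c K m → K * gD H y p ≤ δ → ∀ (σ : ℂ) (W : Cm n),
      θ (p, 0) (1, 0) = σ • c → W = θ (p, 1) (1, 0) - σ • c →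
      |lv2 (gD H y) p 1 - 4 * qf (H (p, 0)) W| ≤
        C * gD H y p * (K * qf (H (p, 0)) W + m * ‖σ‖ ^ 2)

/-- **VAN**: vanishing which is forced by singular weights -/
structure VAN (n : ℕ) : Prop where
  fib : ∀ (w : Cm n → ℂ) (O : Set (Cm n)) (p : ℝ) (C : ℝ≥0∞), O ∈ 𝓝 (0 : Cm n) →
    ContDiffAt ℝ 1 w 0 → C < ⊤ → (∀ k : ℕ, ∫⁻ y in O,
      ENNReal.ofReal (‖w y‖ ^ 2 * (‖y‖ ^ 2 + 1 / (k + 1)) ^ (-p)) ≤ C) →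
    ((n : ℝ) < p → w 0 = 0) ∧ ((n : ℝ) + 1 < p → ∀ v, fderiv ℝ w 0 v = 0)
  tub : ∀ (w : ℂ × Cm n → ℂ) (τ : ℂ) (O : Set (ℂ × Cm n)) (p : ℝ) (C : ℝ≥0∞), O ∈ 𝓝 (τ, 0) →
    ContDiffAt ℝ 1 w (τ, 0) → C < ⊤ → (∀ k : ℕ, ∫⁻ q in O,
      ENNReal.ofReal (‖w q‖ ^ 2 * (‖q.2‖ ^ 2 + 1 / (k + 1)) ^ (-p)) ≤ C) → (n : ℝ) + 1 < p →
    w (τ, 0) = 0 ∧ ∀ v, fderiv ℝ w (τ, 0) (0, v) = 0

/-! ### fibres -/

section fib

variable {n : ℕ}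

/-- Kähler metrics of nonnegative bisectional curvature on an open set -/
structure KM (U : Set (Cm n)) (W : Cm n → Mx n) : Prop where
  sm : ∀ z ∈ U, MS W z
  pos : ∀ z ∈ U, (W z).PosDef
  cl : ∀ z ∈ U, ∀ j k l, dz l (fun y => W y j k) z = dz j (fun y => W y l k) z
  bk : ∀ z ∈ U, ∀ X a, 0 ≤ bk W z X a

/-- **PSH**: a holomorphic vector field whose norm has `log` superharmonic at a given point -/
def PSH (n : ℕ) : Prop := ∀ (U : Set (Cm n)) (W : Cm n → Mx n), IsOpen U → KM U W → ∀ z ∈ U,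
  ∀ X₀ : Cm n, X₀ ≠ 0 → ∃ X : Cm n → Cm n, AnalyticAt ℂ X z ∧ X z = X₀ ∧
    ∀ v, lv2 (fun y => Real.log (qf (W y) (X y))) z v ≤ 0

/-- the unit ball in a tangent space, with the structure induced by the exponential map -/
structure Fb (n : ℕ) (κ : ℝ) where
  Θ : Cm n → Cm n →L[ℝ] Cm n
  A : At (UB n) Θ
  P : A.ι → Cm n → Mx n
  w : A.ι → Cm n → Mx n
  ϖ : Cm n → ℂ
  Ω : A.ι → Cm n → ℂ
  κ_pos : 0 ≤ κ
  dc : ∀ i, ∀ q ∈ (A.c i).source, ∀ v, fderiv ℝ (A.c i) q v = Θ q v ᵥ* P i q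
  uni : ∀ i, ∀ q ∈ (A.c i).source, P i q * w i (A.c i q) * (P i q)ᴴ = 1
  km : ∀ i, KM (A.c i).target (w i)
  near : ∀ q ∈ UB n, ∀ v, en (Θ q v - v) ≤ (κ * en q) ^ 2 * en v
  dD : ∀ q ∈ UB n, ∀ v, fderiv ℝ en q v = 2 * (Θ q v ⬝ᵥ star q).re
  lev : ∀ q ∈ UB n, ∀ v, |A.lev en q v - 4 * en (Θ q v)| ≤ κ * en q * en (Θ q v)
  den : A.Den fun q => |(Θ q).det|
  ν_cont : ContinuousOn (fun q => |(Θ q).det|) (UB n)
  ν_bd : ∀ q ∈ UB n, 1 / 2 ≤ |(Θ q).det| ∧ |(Θ q).det| ≤ 2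
  ϖ_sm : ∀ q ∈ UB n, ContDiffAt ℝ ∞ ϖ q
  ϖ_ne : ∀ q ∈ UB n, ϖ q ≠ 0
  ϖ_eq : ∀ i, ∀ q ∈ (A.c i).source, ϖ q = Ω i (A.c i q) * (P i q).det
  Ω_an : ∀ i, ∀ z ∈ (A.c i).target, AnalyticAt ℂ (Ω i) z
  ϖ_db : ∀ q ∈ UB n, DB Θ ϖ q fun v => κ ^ 2 * en q * ‖ϖ q‖ ^ 2 * en (Θ q v)
  ϖ_lev : ∀ q ∈ UB n, ∀ v, 0 ≤ A.lev (fun p => Real.log (‖ϖ p‖ ^ 2)) q v ∧
    A.lev (fun p => Real.log (‖ϖ p‖ ^ 2)) q v ≤ κ * en (Θ q v)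

/-- **JAC**: the Jacobian of a holomorphic map -/
def JAC (n : ℕ) : Prop := ∀ (κ : ℝ) (Φ : Fb n κ) (O : Set (Cm n)) (z : Cm n → Cm n), IsOpen O →
  O ⊆ UB n → (∀ q ∈ O, CR Φ.Θ z q) → ∃ N : Cm n → Mx n, ∀ q ∈ O,
    (∀ v, fderiv ℝ z q v = Φ.Θ q v ᵥ* N q) ∧ CR Φ.Θ (fun p => (N p).det / Φ.ϖ p) q

/-- **BERN**: bounds for holomorphic functions and their derivatives -/
def BERN (n : ℕ) : Prop := ∃ κ₀ C : ℝ, 0 < κ₀ ∧ 1 ≤ C ∧ ∀ κ, κ ≤ κ₀ → ∀ (Φ : Fb n κ)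
  (Z : Cm n → ℂ) (r A : ℝ), 0 < r → r ≤ 1 → 0 ≤ A → (∀ q, en q < r ^ 2 → CR Φ.Θ Z q) →
  ∫⁻ q in {q | en q < r ^ 2}, ENNReal.ofReal (‖Z q‖ ^ 2) ≤ ENNReal.ofReal (A ^ 2 * r ^ (2 * n)) →
  ∀ q, en q ≤ r ^ 2 / 4 → ‖Z q‖ ≤ C * A ∧
    ∀ v, ‖fderiv ℝ Z q v‖ ^ 2 * r ^ 2 ≤ (C * A) ^ 2 * en (Φ.Θ q v)

/-- **FW**: the weights on a fibre -/
def FW (n : ℕ) : Prop := ∃ κ₀ : ℝ, 0 < κ₀ ∧ ∀ κ, κ ≤ κ₀ → ∀ Φ : Fb n κ,
  Φ.A.Exh (UB n) (fun q => -Real.log (1 - en q)) ∧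
  (∀ q ∈ UB n, ∀ v, en v ≤ 2 * en (Φ.Θ q v) ∧ en (Φ.Θ q v) ≤ 2 * en v) ∧
  ∀ p δ : ℝ, 0 ≤ p → p ≤ n + 2 → 0 < δ → ∀ q ∈ UB n, ∀ v,
    en (Φ.Θ q v) ≤ Φ.A.lev (fun q => p * Real.log (en q + δ) + en q) q v

/-- a holomorphic map which is near the identity -/
structure Zc {κ : ℝ} (Φ : Fb n κ) (z : Cm n → Cm n) (C ε : ℝ) : Prop where
  cr : ∀ q ∈ UB n, CR Φ.Θ z q
  z0 : z 0 = 0
  d0 : ∀ v, fderiv ℝ z 0 v = v
  gr : ∀ q, en q ≤ 1 / 4 → ∀ v, en (fderiv ℝ z q v) ≤ C * en (Φ.Θ q v)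
  near : ∀ q, en q ≤ 1 / 16 → en (z q - q) ≤ ε

/-- **G1A** -/
def G1A (n : ℕ) : Prop := ∃ C : ℝ, 1 ≤ C ∧ ∀ ε : ℝ, 0 < ε → ∃ κ₀ : ℝ, 0 < κ₀ ∧ ∀ κ, κ ≤ κ₀ →
  ∀ Φ : Fb n κ, ∃ z, Zc Φ z C ε

/-- **G1B** -/
def G1B (n : ℕ) : Prop := ∀ C : ℝ, 1 ≤ C → ∃ c κ₀ : ℝ, 0 < c ∧ c ≤ 1 / 4 ∧ 0 < κ₀ ∧ ∀ κ, κ ≤ κ₀ →
  ∀ (Φ : Fb n κ) (z : Cm n → Cm n) (ε : ℝ), Zc Φ z C ε → ∀ q, en q ≤ c ^ 2 →
    Function.Injective (fderiv ℝ z q)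

/-- **SEC**: the inverse of a local diffeomorphism which is near the identity -/
def SEC (n : ℕ) : Prop := ∀ (z : Cm n → Cm n) (c : ℝ), 0 < c →
  (∀ q ∈ closedBall (0 : Cm n) c, ContDiffAt ℝ 1 z q ∧ Function.Injective (fderiv ℝ z q) ∧
    ‖z q - q‖ ≤ c / 10) → z 0 = 0 →
  ∃ Λ : Cm n → Cm n, ContinuousOn Λ (ball 0 (c / 2)) ∧ Λ 0 = 0 ∧
    (∀ y ∈ ball (0 : Cm n) (c / 2), Λ y ∈ ball (0 : Cm n) c ∧ z (Λ y) = y) ∧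
    ∀ q ∈ ball (0 : Cm n) (c / 4), Λ (z q) = q

/-- holomorphic coordinates `z` on a fibre, with the inverse `Λ` -/
structure Gc {κ : ℝ} (Φ : Fb n κ) (z Λ : Cm n → Cm n) (c c' C : ℝ) : Prop where
  cr : ∀ q ∈ UB n, CR Φ.Θ z q ∧ ContDiffAt ℝ ∞ z q
  hol : ∀ y ∈ ball (0 : Cm n) 1, HM Φ.Θ Λ y
  zero : Λ 0 = 0
  d0 : ∀ v, fderiv ℝ Λ 0 v = (c : ℂ) • v
  mem : ∀ y ∈ ball (0 : Cm n) 1, en (Λ y) ≤ C * ‖y‖ ^ 2 ∧ en (Λ y) ≤ 1 / 16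
  met : ∀ y ∈ ball (0 : Cm n) 1, ∀ v, ‖v‖ ^ 2 ≤ C * en (Φ.Θ (Λ y) (fderiv ℝ Λ y v)) ∧
    en (Φ.Θ (Λ y) (fderiv ℝ Λ y v)) ≤ C * ‖v‖ ^ 2
  right : ∀ y ∈ ball (0 : Cm n) 1, z (Λ y) = y
  left : ∀ q, en q < c' ^ 2 → ‖z q‖ ^ 2 ≤ C * en q ∧ ‖z q‖ < 1 ∧ Λ (z q) = q

/-- **G1F**: holomorphic coordinates of uniform size -/
def G1F (n : ℕ) : Prop := ∃ κ₀ c c' C : ℝ, 0 < κ₀ ∧ 0 < c ∧ 0 < c' ∧ c' ≤ 1 ∧ 1 ≤ C ∧
  ∀ κ, κ ≤ κ₀ → ∀ Φ : Fb n κ, ∃ z Λ, Gc Φ z Λ c c' C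

/-! ### immersions into a metric space -/

/-- a local homeomorphism of the unit ball with control of the distances -/
structure Imm {Y : Type} [MetricSpace Y] (Ψ : Cm n → Y) (l L : ℝ) : Prop where
  pos : 0 < l
  le : l ≤ L
  loc : ∀ y ∈ ball (0 : Cm n) 1, ∃ e : OpenPartialHomeomorph (Cm n) Y, y ∈ e.source ∧
    e.source ⊆ ball 0 1 ∧ EqOn Ψ e e.source
  lip : ∀ y ∈ ball (0 : Cm n) 1, ∀ y' ∈ ball (0 : Cm n) 1, dist (Ψ y) (Ψ y') ≤ L * ‖y - y'‖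
  low : ∀ y ∈ ball (0 : Cm n) 1, ∀ᶠ q : Cm n × Cm n in 𝓝 (y, y),
    l * ‖q.1 - q.2‖ ≤ dist (Ψ q.1) (Ψ q.2)
  an : ∀ y ∈ ball (0 : Cm n) 1, ∀ y' ∈ ball (0 : Cm n) 1, Ψ y = Ψ y' →
    ∃ k : Cm n → Cm n, AnalyticAt ℂ k y ∧ k y = y' ∧ ∀ᶠ w in 𝓝 y, Ψ (k w) = Ψ w

/-- **LIFT**: lifting of Lipschitz maps, and uniqueness of lifts -/
def LIFT (n : ℕ) : Prop := ∀ (Y : Type) [MetricSpace Y] (Ψ : Cm n → Y) (l L : ℝ), Imm Ψ l L →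
  ∀ (V : Type) [NormedAddCommGroup V] [NormedSpace ℝ V] [FiniteDimensional ℝ V],
  (∀ (g : V → Y) (v₀ : V) (r a : ℝ) (p : Cm n), 0 < r → 0 ≤ a →
    (∀ v ∈ ball v₀ r, ∀ v' ∈ ball v₀ r, dist (g v) (g v') ≤ a * ‖v - v'‖) → Ψ p = g v₀ →
    ‖p‖ + a * r / l < 1 → ∃ k : V → Cm n, k v₀ = p ∧ ∀ v ∈ ball v₀ r, k v ∈ ball (0 : Cm n) 1 ∧
      Ψ (k v) = g v ∧ ∀ v' ∈ ball v₀ r, l * ‖k v - k v'‖ ≤ a * ‖v - v'‖) ∧
  ∀ (S : Set V) (k k' : V → Cm n), IsPreconnected S → ContinuousOn k S → ContinuousOn k' S →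
    MapsTo k S (ball 0 1) → MapsTo k' S (ball 0 1) → (∀ v ∈ S, Ψ (k v) = Ψ (k' v)) →
    ∀ v₀ ∈ S, k v₀ = k' v₀ → EqOn k k' S

/-- **INJ**: injectivity on a ball whose radius is inverse proportional to the multiplicity -/
def INJ (n : ℕ) : Prop := ∀ a : ℝ, ∃ c : ℝ, 0 < c ∧ ∀ (Y : Type) [MetricSpace Y] (Ψ : Cm n → Y)
  (l L : ℝ) (N : ℕ), Imm Ψ l L → L ≤ a * l →
  (∀ S : Finset (Cm n), (∀ p ∈ S, p ∈ ball (0 : Cm n) (1 / 2) ∧ Ψ p = Ψ 0) → S.card ≤ N) →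
  InjOn Ψ (ball 0 (c / (N + 1)))

/-- **CNT**: the number of nondegenerate zeros -/
def CNT (n : ℕ) : Prop := ∃ C : ℝ, ∀ (G : Cm n → Cm n) (L : ℝ) (S : Finset (Cm n)), 1 ≤ L →
  DifferentiableOn ℂ G (ball 0 1) → (∀ y ∈ ball (0 : Cm n) 1, ‖G y‖ ≤ Real.exp L) →
  (∀ p ∈ S, p ∈ ball (0 : Cm n) (1 / 2) ∧ G p = 0 ∧ Real.exp (-L) ≤ ‖(fderiv ℂ G p).det‖) →
  (S.card : ℝ) ≤ C * L ^ n

/-- **QIF**: the quantitative inverse function theorem -/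
def QIF (n : ℕ) : Prop := ∃ c₀ : ℝ, 0 < c₀ ∧ ∀ (G : Cm n → Cm n) (c A ρ : ℝ), 0 < c → 0 < ρ →
  ρ ≤ 1 / 4 → ρ * A ≤ c₀ * c → DifferentiableOn ℂ G (ball 0 1) →
  (∀ y ∈ ball (0 : Cm n) 1, ‖G y‖ ≤ A) → G 0 = 0 → (∀ v, fderiv ℂ G 0 v = (c : ℂ) • v) →
  InjOn G (ball 0 ρ) ∧
  (∀ y ∈ ball (0 : Cm n) ρ, ∀ v, ‖fderiv ℂ G y v - (c : ℂ) • v‖ ≤ c / 2 * ‖v‖) ∧
  ∀ w : Cm n, 4 * ‖w‖ < c * ρ → ∃ y ∈ ball (0 : Cm n) ρ, G y = w ∧ c * ‖y‖ ≤ 2 * ‖w‖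

/-- **BC**: the inequality of Borel and Carathéodory -/
def BC (n : ℕ) : Prop := ∃ C : ℝ, ∀ (g : Cm n → ℂ) (A : ℝ), DifferentiableOn ℂ g (ball 0 1) →
  (∀ y ∈ ball (0 : Cm n) 1, g y ≠ 0 ∧ Real.log ‖g y‖ ≤ A) → ∀ y ∈ ball (0 : Cm n) (1 / 2),
    |Real.log ‖g y‖ - Real.log ‖g 0‖| ≤ C * ‖y‖ * (A - Real.log ‖g 0‖)

end fib

/-! ### moving frames on a Kähler manifold -/

section mfd

variable {n : ℕ} {M : Type} [MetricSpace M] [ChartedSpace (Cm n) M]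

/-- the Christoffel symbols -/
def Gam (W : Cm n → Mx n) (z X : Cm n) : Mx n := DX X W z * (W z)⁻¹

/-- the curvature `R(a, b̄, ·, ·)`, `Rt W z X X = Kxx W z X` -/
def Rt (W : Cm n → Mx n) (z a b : Cm n) : Mx n := ∑ l, ∑ k, (a k * conj (b l)) • RM k l W z

/-- A frame at `x` is given in the preferred chart at `x`. This is the frame in the chart `e`. -/
def fr (e : Chart n M) (x : M) (P : Mx n) : Mx n := P * (jacM (pc n x) e x)ᵀ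

variable {E : Type} [NormedAddCommGroup E] [NormedSpace ℝ E]

/-- a smooth map with a smooth frame along it -/
structure FM (U : Set E) (γ : E → M) (P : E → Mx n) : Prop where
  op : IsOpen U
  cont : ContinuousOn γ U
  sm : ∀ e : Chart n M, Hc e → ∀ q ∈ U, γ q ∈ e.source →
    ContDiffAt ℝ ∞ (fun p => e (γ p)) q ∧ MS (fun p => fr e (γ p) (P p)) q
  ne : ∀ q ∈ U, (P q).det ≠ 0

variable (n) in
/-- the differential in the preferred chart -/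
def vel (γ : E → M) (q v : E) : Cm n := fderiv ℝ (fun p => pc n (γ q) (γ p)) q v

/-- the tautological form -/
def th (γ : E → M) (P : E → Mx n) (q v : E) : Cm n := vel n γ q v ᵥ* (P q)⁻¹

/-- the family of geodesics -/
def eγ (ex : M → Cm n → M) (x : E → M) (P : E → Mx n) (y : E → Cm n) (q : E × ℝ) : M :=
  ex (x q.1) ((q.2 • y q.1) ᵥ* P q.1)

/-- the parallel frame along the family of geodesics -/
def eP (pa : M → Cm n → Mx n) (x : E → M) (P : E → Mx n) (y : E → Cm n) (q : E × ℝ) : Mx n :=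
  P q.1 * pa (x q.1) ((q.2 • y q.1) ᵥ* P q.1)

/-- the exponential map at `x` in the frame `P` -/
def fE (ex : M → Cm n → M) (x : M) (P : Mx n) (y : Cm n) : M := ex x (y ᵥ* P)

/-- the radially parallel frame -/
def fP (pa : M → Cm n → Mx n) (x : M) (P : Mx n) (y : Cm n) : Mx n := P * pa x (y ᵥ* P)

variable [RiemannianBundle (fun x : M => TangentSpace 𝓘(ℝ, Cm n) x)]

variable (n) in
/-- the metric in the preferred chart -/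
def hx (x : M) : Mx n := hm (pc n x) (pc n x x)

/-- the connection form -/
def om (γ : E → M) (P : E → Mx n) (q v : E) : Mx n :=
  (dM (fun p => fr (pc n (γ q)) (γ p) (P p)) q v +
    P q * Gam (hm (pc n (γ q))) (pc n (γ q) (γ q)) (vel n γ q v)) * (P q)⁻¹

/-- the Gram matrix -/
def gr (γ : E → M) (P : E → Mx n) (q : E) : Mx n := P q * hx n (γ q) * (P q)ᴴ

/-- the curvature tensor in the frame -/
def cu (γ : E → M) (P : E → Mx n) (q : E) (a b : Cm n) : Mx n :=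
  P q * Rt (hm (pc n (γ q))) (pc n (γ q) (γ q)) (a ᵥ* P q) (b ᵥ* P q) * (P q)ᴴ

/-- the bisectional curvature in the preferred chart -/
def bx (x : M) (a b : Cm n) : ℝ := bk (hm (pc n x)) (pc n x x) a b

variable (n M) in
/-- **STR1**: change of charts and of parameters -/
def STR1 : Prop := ∀ (E : Type) [NormedAddCommGroup E] [NormedSpace ℝ E] (U : Set E) (γ : E → M)
  (P : E → Mx n), FM U γ P →
  (∀ e : Chart n M, Hc e → ∀ q ∈ U, γ q ∈ e.source → (fr e (γ q) (P q)).det ≠ 0 ∧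
    gr γ P q = fr e (γ q) (P q) * hm e (e (γ q)) * (fr e (γ q) (P q))ᴴ ∧ ∀ v,
    th γ P q v ᵥ* fr e (γ q) (P q) = fderiv ℝ (fun p => e (γ p)) q v ∧
    om γ P q v * fr e (γ q) (P q) = dM (fun p => fr e (γ p) (P p)) q v +
      fr e (γ q) (P q) * Gam (hm e) (e (γ q)) (fderiv ℝ (fun p => e (γ p)) q v)) ∧
  (∀ q ∈ U, ∀ a b, qf (cu γ P q a a) b = bx (γ q) (a ᵥ* P q) (b ᵥ* P q) ∧
    qf (gr γ P q) a = qf (hx n (γ q)) (a ᵥ* P q)) ∧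
  ∀ (E' : Type) [NormedAddCommGroup E'] [NormedSpace ℝ E'] (U' : Set E') (p : E' → E), IsOpen U' →
    (∀ q ∈ U', p q ∈ U ∧ ContDiffAt ℝ ∞ p q) →
    FM U' (fun q => γ (p q)) (fun q => P (p q)) ∧ ∀ q ∈ U', ∀ v,
      th (fun q => γ (p q)) (fun q => P (p q)) q v = th γ P (p q) (fderiv ℝ p q v) ∧
      om (fun q => γ (p q)) (fun q => P (p q)) q v = om γ P (p q) (fderiv ℝ p q v)

variable (n M) in
/-- **STR2**: the structure equations -/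
def STR2 : Prop := ∀ (E : Type) [NormedAddCommGroup E] [NormedSpace ℝ E] (U : Set E) (γ : E → M)
  (P : E → Mx n), FM U γ P → Car U (th γ P) (om γ P) (gr γ P) (cu γ P)

/-- a geodesic with the velocity `v` in a parallel frame -/
def Dv (S : Set ℝ) (γ : ℝ → M) (P : ℝ → Mx n) (v : Cm n) : Prop :=
  FM S γ P ∧ ∀ s ∈ S, th γ P s 1 = v ∧ om γ P s 1 = 0

variable (n M) in
/-- **DEV1**: existence and uniqueness of geodesics with parallel frames -/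
structure DEV1 : Prop where
  ex : ∀ (x : M) (v : Cm n), ∃ (γ : ℝ → M) (P : ℝ → Mx n), Dv univ γ P v ∧ γ 0 = x ∧ P 0 = 1 ∧
    ∀ s, dist (γ s) x ≤ |s| * nr (hx n x) v
  uq : ∀ (S : Set ℝ) (γ γ' : ℝ → M) (P P' : ℝ → Mx n) (v : Cm n), IsPreconnected S → Dv S γ P v →
    Dv S γ' P' v → ∀ s₀ ∈ S, γ s₀ = γ' s₀ → P s₀ = P' s₀ → ∀ s ∈ S, γ s = γ' s ∧ P s = P' s

/-- the exponential map and the parallel transport along geodesics -/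
structure Ex (ex : M → Cm n → M) (pa : M → Cm n → Mx n) : Prop where
  ex0 : ∀ x, ex x 0 = x
  pa0 : ∀ x, pa x 0 = 1
  dist : ∀ x v, dist (ex x v) x ≤ nr (hx n x) v
  fm : ∀ (E : Type) [NormedAddCommGroup E] [NormedSpace ℝ E] [FiniteDimensional ℝ E] (U : Set E)
    (x : E → M) (P : E → Mx n) (y : E → Cm n), FM U x P → (∀ p ∈ U, ContDiffAt ℝ ∞ y p) →
    FM (U ×ˢ univ) (eγ ex x P y) (eP pa x P y) ∧ ∀ p ∈ U, ∀ s,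
      th (eγ ex x P y) (eP pa x P y) (p, s) (0, 1) = y p ∧
      om (eγ ex x P y) (eP pa x P y) (p, s) (0, 1) = 0

variable (n M) in
/-- **DEV** -/
def DEV : Prop := ∃ (ex : M → Cm n → M) (pa : M → Cm n → Mx n), Ex ex pa

variable (n) in
/-- a bound for the curvature on a ball -/
def KB (x : M) (r K : ℝ) : Prop := ∀ q, dist q x ≤ r → ∀ a : Cm n,
  qf (ric (pc n q) (pc n q q)) a ≤ K * qf (hx n q) a ∧
    ∀ b, bx q a b ≤ K * qf (hx n q) a * qf (hx n q) b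

/-- the fibre `Φ` comes from the map `γ` and the frame `P` -/
def Fb.Of {κ : ℝ} (Φ : Fb n κ) (γ : Cm n → M) (P : Cm n → Mx n) (r : ℝ) : Prop :=
  FM univ γ P ∧ (∀ q, gr γ P q = ((r ^ 2 : ℝ) : ℂ) • 1) ∧
  (∀ q ∈ UB n, ∀ v, Φ.Θ q v = th γ P q v) ∧
  ∀ i, ∃ e : Chart n M, Hc e ∧ ∀ q ∈ (Φ.A.c i).source, γ q ∈ e.source ∧ Φ.A.c i q = e (γ q)

variable (n M) in
/-- the exponential map gives a fibre -/
def Fib (C δ : ℝ) : Prop := ∀ (ex : M → Cm n → M) (pa : M → Cm n → Mx n),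
  Ex ex pa → ∀ Ω : M → ℂ, IsSec n 1 Ω → (∀ x, Ω x ≠ 0) → ∀ (x : M) (P : Mx n) (r K : ℝ), 0 < r →
  0 ≤ K → K * r ^ 2 ≤ δ → P * hx n x * Pᴴ = ((r ^ 2 : ℝ) : ℂ) • 1 → KB n x r K →
  ∃ Φ : Fb n (C * (K * r ^ 2)), Φ.Of (fE ex x P) (fP pa x P) r

/-- an immersed holomorphic chart of size `r` with centre `x` -/
structure Ch (x : M) (r C : ℝ) (Ψ : Cm n → M) : Prop where
  hol : Hn Ψ (ball 0 1)
  zero : Ψ 0 = x
  dist : ∀ y ∈ ball (0 : Cm n) 1, dist (Ψ y) x ≤ r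
  met : ∀ y ∈ ball (0 : Cm n) 1, ∀ v, r ^ 2 * ‖v‖ ^ 2 ≤ C * qf (hx n (Ψ y)) (dn Ψ y v) ∧
    qf (hx n (Ψ y)) (dn Ψ y v) ≤ C * (r ^ 2 * ‖v‖ ^ 2)

variable (n M) in
/-- **CHT**: the chart which is given by coordinates on a fibre -/
def CHT : Prop := ∀ (ex : M → Cm n → M) (pa : M → Cm n → Mx n), Ex ex pa →
  ∀ (x : M) (P : Mx n) (r κ c c' C : ℝ) (Φ : Fb n κ) (z Λ : Cm n → Cm n), 0 < r →
  Φ.Of (fE ex x P) (fP pa x P) r → Gc Φ z Λ c c' C →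
  Ch x r C (fun y => fE ex x P (Λ y)) ∧
  (∀ v, dn (fun y => fE ex x P (Λ y)) 0 v = (c : ℂ) • (v ᵥ* P)) ∧
  ∀ y ∈ ball (0 : Cm n) 1, ∀ v, dn (fun y => fE ex x P (Λ y)) y v =
    Φ.Θ (Λ y) (fderiv ℝ Λ y v) ᵥ* fP pa x P (Λ y)

variable (n M) in
/-- **IMM**: immersed charts -/
def IMM : Prop := ∀ (x : M) (r C : ℝ) (Ψ : Cm n → M), 0 < r → 1 ≤ C → Ch x r C Ψ →
  Imm Ψ (r / (2 * √C)) (√C * r) ∧ ∀ y ∈ ball (0 : Cm n) 1, (jm Ψ y).det ≠ 0 ∧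
    ∃ e : Chart n M, Hc e ∧ y ∈ e.target ∧ e.target ⊆ ball 0 1 ∧ ∀ w ∈ e.target,
      e.symm w = Ψ w ∧ jacM e (pc n (Ψ w)) (Ψ w) = jm Ψ w

variable [MeasurableSpace M]

variable (n) in
/-- the standing hypotheses on a time slice -/
structure Km (μ : Measure M) : Prop where
  npos : 1 ≤ n
  kahler : IsKahler (Cm n) M
  all : All0 n μ

variable (n) in
/-- **AREA**: the area formula -/
def AREA (μ : Measure M) : Prop := ∀ (x : M) (r C : ℝ) (Ψ : Cm n → M), 0 < r → 1 ≤ C → Ch x r C Ψ →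
  ∀ S : Set (Cm n), MeasurableSet S → S ⊆ ball 0 1 →
    Measurable (fun q => (((Ψ ⁻¹' {q} ∩ S).encard : ℕ∞) : ℝ≥0∞)) ∧ ∀ G : M → ℝ≥0∞, Measurable G →
      ∫⁻ y in S, G (Ψ y) * ENNReal.ofReal (pb (jm Ψ y) (hx n (Ψ y))).det.re =
        ∫⁻ q, G q * (((Ψ ⁻¹' {q} ∩ S).encard : ℕ∞) : ℝ≥0∞) ∂μ

variable (n) in
/-- the multiplicity of an immersed chart -/
def Mult (μ : Measure M) (C c' C' : ℝ) : Prop := ∀ (x : M) (r : ℝ) (Ψ : Cm n → M), 0 < r →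
  Ch x r C Ψ → ∀ G : M → ℝ≥0∞, Measurable G →
    (∫⁻ y in ball (0 : Cm n) c', G (Ψ y)) * μ (ball x (c' * r)) ≤ ENNReal.ofReal C' * ∫⁻ q, G q ∂μ

end mfd

/-- a statement about all complete Kähler manifolds of nonnegative bisectional curvature -/
def AllM (n : ℕ) (X : ∀ (M : Type) [MetricSpace M] [ChartedSpace (Cm n) M]
    [RiemannianBundle fun x : M => TangentSpace 𝓘(ℝ, Cm n) x] [MeasurableSpace M],
    Measure M → Prop) : Prop :=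
  ∀ (M : Type) [MetricSpace M] [ChartedSpace (Cm n) M] [IsManifold 𝓘(ℂ, Cm n) 1 M]
    [IsManifold 𝓘(ℝ, Cm n) ∞ M] [RiemannianBundle fun x : M => TangentSpace 𝓘(ℝ, Cm n) x]
    [IsContMDiffRiemannianBundle 𝓘(ℝ, Cm n) ∞ (Cm n) fun x : M => TangentSpace 𝓘(ℝ, Cm n) x]
    [IsRiemannianManifold 𝓘(ℝ, Cm n) M] [CompleteSpace M] [ConnectedSpace M]
    [MeasurableSpace M] [BorelSpace M] (μ : Measure M), Km n μ → X M μ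

/-- **FIB**: the constants do not depend on the manifold -/
def FIB (n : ℕ) : Prop := ∃ C δ : ℝ, 1 ≤ C ∧ 0 < δ ∧ AllM n fun M _ _ _ _ _ => Fib n M C δ

/-- **MULT**: the constants do not depend on the manifold -/
def MULT (n : ℕ) : Prop := ∀ C : ℝ, 1 ≤ C → ∃ c' C' : ℝ, 0 < c' ∧ c' ≤ 1 ∧ 1 ≤ C' ∧
  AllM n fun _ _ _ _ _ μ => Mult n μ C c' C'

end Vale.Agent.P253W.X
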