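import Vale.Agent.P253W.X.Defs
import Vale.Agent.P253W.Asm

/-!
# P253W, block X: the tube along a curve
-/

open scoped Manifold ContDiff Bundle ENNReal Topology ComplexConjugate ComplexOrder Matrix
open Bundle IsManifold MeasureTheory Set Metric Filter Vale.Agent.P253.Mfd Vale.Agent.P253Z
open Vale.Agent.P272.K (Cm dz dzb cHess jacM Chart)
open Complex (I)

noncomputable section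

namespace Vale.Agent.P253W.X

/-- the calculus for all atlases on `V` -/
def CAL (V : Type) [NormedAddCommGroup V] [NormedSpace ℝ V] [NormedSpace ℂ V] : Prop :=
  ∀ (T : Set V) (Θ : V → V →L[ℝ] V) (A : At T Θ), A.Cal1 ∧ A.Cal2

section tube

variable {n : ℕ}

/-- the square of the distance to the curve -/
def tD (H : ℂ → Mx n) (q : ℂ × Cm n) : ℝ := qf (H q.1) q.2

/-- the tube of radius `|τ|^(-b/2)` -/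
def tT (H : ℂ → Mx n) (R b : ℝ) : Set (ℂ × Cm n) := {q | R < ‖q.1‖ ∧ tD H q < ‖q.1‖ ^ (-b)}

/-- `m` has finite mass and polynomial growth -/
structure MB (m : ℂ → ℝ) (R : ℝ) : Prop where
  cont : ContinuousOn m {τ | R < ‖τ‖}
  pos : ∀ τ : ℂ, R < ‖τ‖ → 0 ≤ m τ
  fin : ∫⁻ τ in {τ : ℂ | R < ‖τ‖}, ENNReal.ofReal (m τ) < ⊤
  le : ∃ C : ℝ, ∀ τ : ℂ, R < ‖τ‖ → m τ ≤ ‖τ‖ ^ C

/-- the growth of the Gram matrix -/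
def GB (H : ℂ → Mx n) (k : Fin n → ℝ) : Prop := ∀ η : ℝ, 0 < η → ∃ ρ : ℝ, ∀ τ : ℂ, ρ < ‖τ‖ →
  ∀ c : Cm n, ‖τ‖ ^ (-η) * wn k τ c ≤ qf (H τ) c ∧ qf (H τ) c ≤ ‖τ‖ ^ η * wn k τ c

/-- **POT**: a potential of small logarithmic growth -/
def POT : Prop := ∀ (m : ℂ → ℝ) (R η : ℝ), 0 < η → MB m R → ∃ (R' : ℝ) (a : ℂ → ℝ), R ≤ R' ∧
  ∀ τ : ℂ, R' < ‖τ‖ → ContDiffAt ℝ ∞ a τ ∧ m τ ≤ lv2 a τ 1 ∧ |a τ| ≤ η * Real.log ‖τ‖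

/-- **SMV**: the mean value inequality on a disc -/
def SMV : Prop := ∀ (N : ℂ → ℝ) (c : ℂ) (R : ℝ), 0 < R → ContinuousOn N (closedBall c R) →
  (∀ z ∈ closedBall c R, 0 ≤ N z) →
  (∀ z ∈ ball c R, ∀ η > 0, ∀ᶠ r in 𝓝[>] (0 : ℝ),
    4 * N z - η * r ^ 2 ≤ ∑ k : Fin 4, N (z + r • (I ^ (k : ℕ)))) →
  ENNReal.ofReal (N c * (Real.pi * R ^ 2)) ≤ ∫⁻ z in ball c R, ENNReal.ofReal (N z)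

/-- the tube with the structure induced by the exponential map -/
structure Tb (n : ℕ) (H : ℂ → Mx n) (m : ℂ → ℝ) (R b C : ℝ) where
  Θ : ℂ × Cm n → (ℂ × Cm n) →L[ℝ] (ℂ × Cm n)
  A : At (tT H R b) Θ
  ν : ℂ × Cm n → ℝ
  R_ge : 3 ≤ R
  C_ge : 1 ≤ C
  H_sm : ∀ τ : ℂ, R < ‖τ‖ → MS H τ
  H_pos : ∀ τ : ℂ, R < ‖τ‖ → (H τ).PosDef
  c1 : ∀ i q, (A.c i q).1 = q.1
  Θ1 : ∀ q ∈ tT H R b, ∀ v, (Θ q v).1 = v.1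
  dD : ∀ q ∈ tT H R b, ∀ v, fderiv ℝ (tD H) q v = 2 * (hf (H q.1) (Θ q v).2 q.2).re
  lev : ∀ q ∈ tT H R b, ∀ v, |A.lev (tD H) q v - 4 * qf (H q.1) (Θ q v).2| ≤
    C * tD H q * (Real.log ‖q.1‖ * qf (H q.1) (Θ q v).2 + m q.1 * ‖v.1‖ ^ 2)
  db : ∀ q ∈ tT H R b, ∀ v v', Θ q v' = I • Θ q v → qf (H q.1) (v.2 + I • v'.2) ≤
    C * tD H q ^ 2 * Real.log ‖q.1‖ * (Real.log ‖q.1‖ * qf (H q.1) (Θ q v).2 + m q.1 * ‖v.1‖ ^ 2)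
  den : A.Den ν
  ν_cont : ContinuousOn ν (tT H R b)
  ν_bd : ∀ q ∈ tT H R b, (H q.1).det.re / 2 ≤ ν q ∧ ν q ≤ 2 * (H q.1).det.re
  fib : ∀ τ : ℂ, R < ‖τ‖ → ∀ (r : ℝ) (S : Mx n), 0 < r → r ^ 2 ≤ ‖τ‖ ^ (-b) →
    S * H τ * Sᴴ = ((r ^ 2 : ℝ) : ℂ) • 1 → ∃ Φ : Fb n (C * (Real.log ‖τ‖ * r ^ 2)),
      ∀ y ∈ UB n, ∀ v, Φ.Θ y v ᵥ* S = (Θ (τ, y ᵥ* S) (0, v ᵥ* S)).2

/-- the weight -/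
def wφ (H : ℂ → Mx n) (ε : ℝ) (a : ℂ → ℝ) (δ : ℝ) (q : ℂ × Cm n) : ℝ :=
  Real.log (tD H q + δ) + ‖q.1‖ ^ (ε / 2) * tD H q + a q.1

/-- the function which defines the pseudoconvex tube -/
def wρ (H : ℂ → Mx n) (ε : ℝ) (a : ℂ → ℝ) (q : ℂ × Cm n) : ℝ :=
  tD H q * Real.exp (‖q.1‖ ^ (ε / 2) * tD H q + a q.1) * ‖q.1‖ ^ (2 * ε)

/-- the function which defines the tube which is filled by discs -/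
def wσ (H : ℂ → Mx n) (ε : ℝ) (a : ℂ → ℝ) (q : ℂ × Cm n) : ℝ :=
  tD H q * Real.exp (-(‖q.1‖ ^ (ε / 2) * tD H q) - a q.1) * ‖q.1‖ ^ (3 * ε)

variable {H : ℂ → Mx n} {m : ℂ → ℝ} {R ε C : ℝ}

/-- the properties of the weights -/
structure Wt (X : Tb n H m R ε C) (a : ℂ → ℝ) (R' : ℝ) : Prop where
  le : R ≤ R'
  m_pos : ∀ τ : ℂ, R' < ‖τ‖ → 0 ≤ m τ
  sm : ∀ τ : ℂ, R' < ‖τ‖ → ContDiffAt ℝ ∞ a τ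
  bd : ∀ τ : ℂ, R' < ‖τ‖ → |a τ| ≤ ε / (2 * (n + 2)) * Real.log ‖τ‖
  log : ∀ q ∈ tT H R' ε, ∀ v, X.A.lev (fun q => Real.log ‖q.1‖) q v = 0
  φ : ∀ δ : ℝ, 0 < δ → ∀ q ∈ tT H R' ε, ∀ v,
    ‖q.1‖ ^ (ε / 2) * qf (H q.1) (X.Θ q v).2 + m q.1 * ‖v.1‖ ^ 2 ≤ X.A.lev (wφ H ε a δ) q v
  exh : ∃ η, X.A.Exh {q | q ∈ tT H R' ε ∧ wρ H ε a q < 1} η
  σ : ∀ q ∈ tT H R' ε, q.2 ≠ 0 → ∀ (v : ℂ × Cm n) (l : ℂ), X.Θ q v = (1, l • q.2) →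
    X.A.lev (fun q => Real.log (wσ H ε a q)) q v < 0

/-- the solution of the `∂̄` equation -/
structure Zs (X : Tb n H m R ε C) (k : Fin n → ℝ) (R' : ℝ) (Z : ℂ × Cm n → Cm n) : Prop where
  cr : ∀ q ∈ tT H R' (5 / 2 * ε), CR X.Θ Z q
  zero : ∀ τ : ℂ, R' < ‖τ‖ → Z (τ, 0) = 0 ∧ ∀ v, fderiv ℝ Z (τ, 0) (0, v) = v
  l2 : ∀ i, ∫⁻ q in tT H R' (5 / 2 * ε), ENNReal.ofReal (‖Z q i - q.2 i‖ ^ 2 * (H q.1).det.re *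
    ‖q.1‖ ^ (5 / 2 * ε * n - 2 * k i - 2 + 3 * ε)) < ⊤

/-- holomorphic coordinates on the tube -/
structure Zt (X : Tb n H m R ε C) (k : Fin n → ℝ) (R' : ℝ) (Z : ℂ × Cm n → Cm n) : Prop where
  le : R ≤ R'
  cr : ∀ q ∈ tT H R' (4 * ε), CR X.Θ Z q
  zero : ∀ τ : ℂ, R' < ‖τ‖ → Z (τ, 0) = 0 ∧ ∀ v, fderiv ℝ Z (τ, 0) (0, v) = v
  bd : ∀ q ∈ tT H R' (4 * ε), wn k q.1 (Z q) ≤ ‖q.1‖ ^ (-(2 * ε))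

end tube

/-- **WGT** -/
def WGT (n : ℕ) : Prop := ∀ (H : ℂ → Mx n) (m : ℂ → ℝ) (R ε C : ℝ) (X : Tb n H m R ε C), 0 < ε →
  MB m R → ∀ R₀ : ℝ, ∃ (a : ℂ → ℝ) (R' : ℝ), R₀ ≤ R' ∧ Wt X a R'

/-- **SOL** -/
def SOL (n : ℕ) : Prop := ∀ (H : ℂ → Mx n) (m : ℂ → ℝ) (R ε C : ℝ) (X : Tb n H m R ε C)
  (k : Fin n → ℝ), 0 < ε → GB H k → ∃ R₀ : ℝ, ∀ (a : ℂ → ℝ) (R' : ℝ), R₀ ≤ R' → Wt X a R' →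
    ∃ Z, Zs X k R' Z

/-- **FSUP**: the supremum on a fibre -/
def FSUP (n : ℕ) : Prop := ∀ (H : ℂ → Mx n) (m : ℂ → ℝ) (R ε C : ℝ) (X : Tb n H m R ε C)
  (k : Fin n → ℝ), 0 < ε → GB H k → ∃ C' R₀ : ℝ, 0 ≤ C' ∧ ∀ (τ : ℂ) (Z : ℂ × Cm n → ℂ) (i : Fin n),
    R₀ < ‖τ‖ → (∀ y, tD H (τ, y) < ‖τ‖ ^ (-(5 / 2 * ε)) → CR X.Θ Z (τ, y)) →
    ∀ y, 4 * tD H (τ, y) ≤ ‖τ‖ ^ (-(5 / 2 * ε)) → ENNReal.ofReal (‖Z (τ, y)‖ ^ 2) ≤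
      ENNReal.ofReal (C' * ‖τ‖ ^ (2 * k i - 19 / 8 * ε)) + ENNReal.ofReal C' *
        ∫⁻ y in {y | tD H (τ, y) < ‖τ‖ ^ (-(5 / 2 * ε))}, ENNReal.ofReal
          (‖Z (τ, y) - y i‖ ^ 2 * (H τ).det.re * ‖τ‖ ^ (5 / 2 * ε * n))

/-- **DISC**: the tube `wσ ≤ 1` is filled by holomorphic discs -/
def DISC (n : ℕ) : Prop := ∀ (H : ℂ → Mx n) (m : ℂ → ℝ) (R ε C : ℝ) (X : Tb n H m R ε C)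
  (a : ℂ → ℝ) (R' : ℝ), 0 < ε → Wt X a R' → ∀ q ∈ tT H R' ε, wσ H ε a q ≤ 1 →
    ∃ p : ℂ → ℂ × Cm n, p 0 = q ∧
      ∀ᶠ ζ in 𝓝 0, HM X.Θ p ζ ∧ (p ζ).1 = q.1 + ζ ∧ wσ H ε a (p ζ) ≤ 1

/-- **SUP** -/
def SUP (n : ℕ) : Prop := ∀ (H : ℂ → Mx n) (m : ℂ → ℝ) (R ε C : ℝ) (X : Tb n H m R ε C)
  (k : Fin n → ℝ) (a : ℂ → ℝ) (R' : ℝ) (Z : ℂ × Cm n → Cm n), 0 < ε → GB H k → Wt X a R' →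
    Zs X k R' Z → ∃ R'', Zt X k R'' Z

/-- **SOLT** -/
def SOLT (n : ℕ) : Prop := ∀ (H : ℂ → Mx n) (m : ℂ → ℝ) (R ε C : ℝ) (X : Tb n H m R ε C)
  (k : Fin n → ℝ), 0 < ε → GB H k → MB m R → ∃ R' Z, Zt X k R' Z

theorem solt {n : ℕ} (h1 : WGT n) (h2 : SOL n) (h3 : SUP n) : SOLT n := by
  intro H m R ε C X k hε hG hm
  obtain ⟨R₀, h⟩ := h2 H m R ε C X k hε hG
  obtain ⟨a, R', h4, h5⟩ := h1 H m R ε C X hε hm R₀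
  obtain ⟨Z, hZ⟩ := h a R' h4 h5
  obtain ⟨R'', h6⟩ := h3 H m R ε C X k a R' Z hε hG h5 hZ
  exact ⟨R'', Z, h6⟩

/-! ### the tube on a manifold -/

section mfd

variable {n : ℕ} {M : Type} [MetricSpace M] [ChartedSpace (Cm n) M]

/-- the exponential map along `f` -/
def tE (ex : M → Cm n → M) (f : ℂ → M) (P : ℂ → Mx n) (q : ℂ × Cm n) : M :=
  ex (f q.1) (q.2 ᵥ* P q.1)

/-- the radially parallel frame -/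
def tP (pa : M → Cm n → Mx n) (f : ℂ → M) (P : ℂ → Mx n) (q : ℂ × Cm n) : Mx n :=
  P q.1 * pa (f q.1) (q.2 ᵥ* P q.1)

/-- a holomorphic frame along a holomorphic curve -/
structure HF (f : ℂ → M) (P : ℂ → Mx n) (R : ℝ) : Prop where
  hol : H1 n f {τ | R < ‖τ‖}
  al : ∀ i, Al f (fun τ => P τ i) {τ | R < ‖τ‖}
  ne : ∀ τ : ℂ, R < ‖τ‖ → (P τ).det ≠ 0

variable [RiemannianBundle (fun x : M => TangentSpace 𝓘(ℝ, Cm n) x)]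

/-- a bound for the curvature in the direction of the parallel transport of `V` -/
def RV (ex : M → Cm n → M) (pa : M → Cm n → Mx n) (x : M) (V : Cm n) (ρ m : ℝ) : Prop :=
  ∀ v, qf (hx n x) v < ρ → ∀ a, bx (ex x v) a (V ᵥ* pa x v) ≤ m * qf (hx n (ex x v)) a

/-- the curvature bounds along `f` -/
def CF (ex : M → Cm n → M) (pa : M → Cm n → Mx n) (f : ℂ → M) (m : ℂ → ℝ) (R ε : ℝ) : Prop :=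
  ∀ τ : ℂ, R < ‖τ‖ → 0 ≤ m τ ∧ KB n (f τ) 1 (Real.log ‖τ‖) ∧
    RV ex pa (f τ) (d1 n f τ) (‖τ‖ ^ (-ε)) (m τ)

/-- the tube comes from the exponential map -/
structure Tb.Of {m : ℂ → ℝ} {R ε C : ℝ} {f : ℂ → M} {P : ℂ → Mx n} (X : Tb n (gr f P) m R ε C)
    (ex : M → Cm n → M) (pa : M → Cm n → Mx n) : Prop where
  fm : FM {q : ℂ × Cm n | R < ‖q.1‖} (tE ex f P) (tP pa f P)
  gram : ∀ q : ℂ × Cm n, R < ‖q.1‖ → gr (tE ex f P) (tP pa f P) q = gr f P q.1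
  th : ∀ q ∈ tT (gr f P) R ε, ∀ v,
    (X.Θ q v).2 = th (tE ex f P) (tP pa f P) q v - v.1 • (d1 n f q.1 ᵥ* (P q.1)⁻¹)
  ch : ∀ i, ∃ e : Chart n M, Hc e ∧ ∀ q ∈ (X.A.c i).source,
    tE ex f P q ∈ e.source ∧ (X.A.c i q).2 = e (tE ex f P q)

variable (n M) in
/-- **FMH**: holomorphic frames -/
def FMH : Prop := ∀ (f : ℂ → M) (P : ℂ → Mx n) (R : ℝ), HF f P R →
  FM {τ : ℂ | R < ‖τ‖} f P ∧ ∀ τ : ℂ, R < ‖τ‖ → ∀ σ : ℂ,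
    th f P τ σ = σ • (d1 n f τ ᵥ* (P τ)⁻¹) ∧ om f P τ σ = σ • om f P τ 1

variable (n M) in
/-- **TUB** -/
def TUB : Prop := ∀ (ex : M → Cm n → M) (pa : M → Cm n → Mx n), Ex ex pa → ∀ Ω : M → ℂ,
  IsSec n 1 Ω → (∀ x, Ω x ≠ 0) → ∀ (f : ℂ → M) (P : ℂ → Mx n) (m : ℂ → ℝ) (R₀ ε : ℝ), 0 < ε →
  HF f P R₀ → CF ex pa f m R₀ ε →
  ∃ R C : ℝ, R₀ ≤ R ∧ ∃ X : Tb n (gr f P) m R ε C, X.Of ex pa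

/-- the multiplicity of charts along `f` grows at most like a power of the logarithm -/
def NBf (f : ℂ → M) : Prop := ∀ C₀ b : ℝ, 1 ≤ C₀ → ∃ C ρ : ℝ, ∀ τ : ℂ, ρ < ‖τ‖ →
  ∀ (r : ℝ) (Ψ : Cm n → M), ‖τ‖ ^ (-b) ≤ r → r ≤ 1 → Ch (f τ) r C₀ Ψ → ∀ S : Finset (Cm n),
    (∀ p ∈ S, p ∈ ball (0 : Cm n) (1 / 2) ∧ Ψ p = Ψ 0) → (S.card : ℝ) ≤ C * Real.log ‖τ‖ ^ n

/-- the inversion of the coordinates on the fibre over `τ` -/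
structure Fi {m : ℂ → ℝ} {R ε C : ℝ} {f : ℂ → M} {P : ℂ → Mx n} (X : Tb n (gr f P) m R ε C)
    (ex : M → Cm n → M) (k : Fin n → ℝ) (Z : ℂ × Cm n → Cm n) (C₀ : ℝ) (τ : ℂ) : Prop where
  inj : InjOn (fun y => tE ex f P (τ, y)) {y | tD (gr f P) (τ, y) < ‖τ‖ ^ (-(9 * ε))}
  inj' : InjOn (fun y => Z (τ, y)) {y | tD (gr f P) (τ, y) < ‖τ‖ ^ (-(9 * ε))}
  met : ∀ y, tD (gr f P) (τ, y) < ‖τ‖ ^ (-(9 * ε)) → ∀ v,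
    qf (gr f P τ) (fderiv ℝ Z (τ, y) (0, v)) ≤ C₀ * qf (gr f P τ) (X.Θ (τ, y) (0, v)).2 ∧
    qf (gr f P τ) (X.Θ (τ, y) (0, v)).2 ≤ C₀ * qf (gr f P τ) (fderiv ℝ Z (τ, y) (0, v))
  surj : ∀ w ∈ Flow.sl k (5 * ε) τ, ∃ y, tD (gr f P) (τ, y) < ‖τ‖ ^ (-(9 * ε)) ∧ Z (τ, y) = w
  ch : ∃ Ψ : Cm n → M, Ch (f τ) (‖τ‖ ^ (-(2 * ε))) C₀ Ψ ∧ ∀ y,
    tD (gr f P) (τ, y) < ‖τ‖ ^ (-(9 * ε)) →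
      ∃ w, ‖w‖ ≤ ‖τ‖ ^ (-(2 * ε)) ∧ tE ex f P (τ, y) = Ψ w

variable (n M) in
/-- **FINV** -/
def FINV : Prop := ∀ (ex : M → Cm n → M) (pa : M → Cm n → Mx n), Ex ex pa → ∀ Ω : M → ℂ,
  IsSec n 1 Ω → (∀ x, Ω x ≠ 0) → ∀ (f : ℂ → M) (P : ℂ → Mx n) (m : ℂ → ℝ) (R ε C : ℝ)
  (X : Tb n (gr f P) m R ε C) (k : Fin n → ℝ) (R' : ℝ) (Z : ℂ × Cm n → Cm n), 0 < ε →
  CF ex pa f m R ε → X.Of ex pa → GB (gr f P) k → Zt X k R' Z → NBf (n := n) f →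
  ∃ C₀ R'' : ℝ, 1 ≤ C₀ ∧ R' ≤ R'' ∧ ∀ τ : ℂ, R'' < ‖τ‖ → Fi X ex k Z C₀ τ

/-- the holomorphic tube, for one metric -/
structure Tu (f : ℂ → M) (P : ℂ → Mx n) (k : Fin n → ℝ) (ε ρ C₀ : ℝ) (Ξ : ℂ → Cm n → M) : Prop where
  hol : MDifferentiableOn 𝓘(ℂ, ℂ × Cm n) 𝓘(ℂ, Cm n) (fun q : ℂ × Cm n => Ξ q.1 q.2)
    {q : ℂ × Cm n | ρ < ‖q.1‖ ∧ q.2 ∈ Flow.sl k (5 * ε) q.1}
  zero : ∀ τ : ℂ, ρ < ‖τ‖ → Ξ τ 0 = f τ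
  inj : ∀ τ : ℂ, ρ < ‖τ‖ → InjOn (Ξ τ) (Flow.sl k (5 * ε) τ)
  met : ∀ τ : ℂ, ρ < ‖τ‖ → ∀ y ∈ Flow.sl k (5 * ε) τ, ∀ v : Cm n,
    qf (gr f P τ) v ≤ C₀ * qf (hx n (Ξ τ y)) (dn (Ξ τ) y v) ∧
      qf (hx n (Ξ τ y)) (dn (Ξ τ) y v) ≤ C₀ * qf (gr f P τ) v
  ch : ∀ τ : ℂ, ρ < ‖τ‖ → ∃ Ψ : Cm n → M, Ch (f τ) (‖τ‖ ^ (-(2 * ε))) C₀ Ψ ∧
    ∀ y ∈ Flow.sl k (5 * ε) τ, ∃ w, ‖w‖ ≤ ‖τ‖ ^ (-(2 * ε)) ∧ Ξ τ y = Ψ w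

variable (n M) in
/-- **TINV**: the inverse of the coordinates -/
def TINV : Prop := ∀ (ex : M → Cm n → M) (pa : M → Cm n → Mx n), Ex ex pa →
  ∀ (f : ℂ → M) (P : ℂ → Mx n) (m : ℂ → ℝ) (R ε C : ℝ) (X : Tb n (gr f P) m R ε C) (k : Fin n → ℝ)
  (R' : ℝ) (Z : ℂ × Cm n → Cm n) (C₀ R'' : ℝ), 0 < ε → X.Of ex pa → Zt X k R' Z → R' ≤ R'' →
  (∀ τ : ℂ, R'' < ‖τ‖ → Fi X ex k Z C₀ τ) → ∃ Ξ, Tu f P k ε R'' C₀ Ξ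

end mfd

/-! ### the flow -/

section flow

variable {n : ℕ} {M : Type} [MetricSpace M] [ChartedSpace (Cm n) M]
  [RiemannianBundle fun x : M => TangentSpace 𝓘(ℝ, Cm n) x]
  [IsManifold 𝓘(ℝ, Cm n) ∞ M] [ConnectedSpace M] {F : Flow n M} (A : Fam F)

/-- **CURT**: the curvature near the curve -/
def CURT (f : ℂ → M) : Prop := ∀ η : ℝ, 0 < η → ∃ ρ : ℝ, ∀ τ : ℂ, ρ < ‖τ‖ → ∀ t ∈ Icc (1 : ℝ) 2,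
  ∀ q, A.d t q (f τ) ≤ 1 → ∀ t' ∈ Icc (1 : ℝ) 3, t' * F.R t' q ≤ η * Real.log ‖τ‖

variable (F) in
/-- **TSEL**: the choice of the time -/
def TSEL (f : ℂ → M) : Prop := ∃ t ∈ Icc (1 : ℝ) 2, ∃ R : ℝ,
  MB (fun τ => Real.log ‖τ‖ * (F.nv t (f τ) (d1 n f τ) -
    F.nv (t * Real.exp (1 / Real.log ‖τ‖)) (f τ) (d1 n f τ))) R ∧
  (Continuous fun τ => F.nv t (f τ) (d1 n f τ)) ∧
  ∃ C : ℝ, ∀ τ : ℂ, R < ‖τ‖ → 0 ≤ F.nv t (f τ) (d1 n f τ) ∧ F.nv t (f τ) (d1 n f τ) ≤ ‖τ‖ ^ C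

/-- **RIC**: the directional Harnack inequality along geodesics -/
def RIC : Prop := ∃ C : ℝ, 1 ≤ C ∧ ∀ t ∈ Icc (1 : ℝ) 2,
  ∀ (ex : Wm (A.G t) → Cm n → Wm (A.G t)) (pa : Wm (A.G t) → Cm n → Mx n), Ex ex pa →
  ∀ (x : M) (V : Cm n) (K d : ℝ) (N : ℕ), 3 ≤ K → 0 < d → 1 ≤ N →
    (∀ q, A.d t q x ≤ 1 → ∀ t' ∈ Icc t 3, t' * F.R t' q ≤ K) → C * N * d * √K ≤ 1 / 2 →
    RV ex pa x V (d ^ 2) (C * N * K * (F.nv t x V - F.nv (t * Real.exp (1 / K)) x V) +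
      (C * N * d * √K) ^ N * K * F.nv t x V)

/-- **CRV**: the curvature bounds along the curve at a good time -/
def CRV (f : ℂ → M) : Prop := ∃ t ∈ Icc (1 : ℝ) 2, ∀ ε : ℝ, 0 < ε → ∃ (m : ℂ → ℝ) (R : ℝ), MB m R ∧
  ∀ (ex : Wm (A.G t) → Cm n → Wm (A.G t)) (pa : Wm (A.G t) → Cm n → Mx n), Ex ex pa →
    CF (M := Wm (A.G t)) ex pa f m R ε

/-- **NB** -/
def NB (f : ℂ → M) : Prop := ∀ t ∈ Icc (1 : ℝ) 2, NBf (n := n) (M := Wm (A.G t)) f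

/-- **UBD**: the oscillation of `u_t` -/
def UBD (f : ℂ → M) : Prop := ∀ t ∈ Icc (1 : ℝ) 2, ∀ C₀ β η : ℝ, 1 ≤ C₀ → 0 < β → 0 < η →
  ∃ ρ : ℝ, ∀ τ : ℂ, ρ < ‖τ‖ → ∀ (r : ℝ) (Ψ : Cm n → M), 0 < r → r ≤ 1 →
    Ch (M := Wm (A.G t)) (f τ) r C₀ Ψ → ∀ y : Cm n, ‖y‖ ≤ ‖τ‖ ^ (-β) →
      |F.u t (Ψ y) - F.u t (f τ)| ≤ η * Real.log ‖τ‖

end flow

end Vale.Agent.P253W.X
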