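import Vale.Agent.P253W.X.Defs
import Vale.Agent.P255.Ode

/-!
# P253W, block X: geodesics with parallel frames, the local theory
-/

set_option linter.unusedSectionVars false

open scoped Manifold ContDiff Bundle Topology ComplexConjugate ComplexOrder Matrix
open Bundle Set Metric Filter Matrix Vale.Agent.P253.Mfd Vale.Agent.P253Z
open Vale.Agent.P272.K (Cm dz jacM Chart)
open Vale.Agent.P272.K.C2 (DM MC contDiffAt_dz)

noncomputable section

namespace Vale.Agent.P253W.X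

namespace Dev

variable {n : ℕ} {E : Type} [NormedAddCommGroup E] [NormedSpace ℝ E]

/-- position, frame, velocity -/
abbrev St (n : ℕ) : Type := Cm n × (Fin n → Fin n → ℂ) × Cm n

/-- the vector field of the geodesic flow -/
def vf (W : Cm n → Mx n) (w : St n) : St n :=
  (w.2.2 ᵥ* of w.2.1, fun i j => (-(of w.2.1 * Gam W w.1 (w.2.2 ᵥ* of w.2.1))) i j, 0)

theorem dfst {A B : Type} [NormedAddCommGroup A] [NormedSpace ℝ A] [NormedAddCommGroup B]
    [NormedSpace ℝ B] {f : ℝ → A × B} {f' : A × B} {s : ℝ} (h : HasDerivAt f f' s) :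
    HasDerivAt (fun t => (f t).1) f'.1 s :=
  (ContinuousLinearMap.fst ℝ A B).hasFDerivAt.comp_hasDerivAt s h

theorem dsnd {A B : Type} [NormedAddCommGroup A] [NormedSpace ℝ A] [NormedAddCommGroup B]
    [NormedSpace ℝ B] {f : ℝ → A × B} {f' : A × B} {s : ℝ} (h : HasDerivAt f f' s) :
    HasDerivAt (fun t => (f t).2) f'.2 s :=
  (ContinuousLinearMap.snd ℝ A B).hasFDerivAt.comp_hasDerivAt s h

theorem ms_mul {f g : E → Mx n} {q : E} (hf : MS f q) (hg : MS g q) :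
    MS (fun p => f p * g p) q := fun i j =>
  ContDiffAt.sum (s := Finset.univ) fun k _ => (hf i k).mul (hg k j)

theorem ms_const (A : Mx n) (q : E) : MS (fun _ => A) q := fun _ _ => contDiffAt_const

theorem vf_sm {W : Cm n → Mx n} {w : St n} (hW : MC ∞ W w.1) (h0 : (W w.1).det ≠ 0) :
    ContDiffAt ℝ ∞ (vf W) w := by
  have hQ : MS (fun p : St n => of p.2.1) w := fun i j => by
    simp only [of_apply]; fun_prop
  have hX : ∀ k, ContDiffAt ℝ ∞ (fun p : St n => (p.2.2 ᵥ* of p.2.1) k) w := fun k =>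
    ContDiffAt.sum (s := Finset.univ) fun i _ => ContDiffAt.mul (by fun_prop) (hQ i k)
  have h1 : MS (fun p : St n => DX (p.2.2 ᵥ* of p.2.1) W p.1) w := fun i j => by
    simp only [DX, Matrix.sum_apply, Matrix.smul_apply, smul_eq_mul]
    exact ContDiffAt.sum fun k _ => (hX k).mul
      ((hW.DM (k := k) (m' := ∞) (by simp) i j).comp w contDiffAt_fst)
  have h2 : MS (fun p : St n => (W p.1)⁻¹) w := fun i j =>
    (hW.inv h0 i j).comp w contDiffAt_fst
  exact (contDiffAt_pi.2 hX).prodMk ((contDiffAt_pi.2 fun i => contDiffAt_pi.2 fun j =>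
    (ms_mul hQ (ms_mul h1 h2) i j).neg).prodMk contDiffAt_const)

theorem dM_left (A : Mx n) {f : E → Mx n} {q : E} (hf : MS f q) (v : E) :
    dM (fun p => A * f p) q v = A * dM f q v := by
  ext i j
  have h := HasFDerivAt.fun_sum (u := Finset.univ) fun k _ =>
    ((hf k j).differentiableAt (by simp)).hasFDerivAt.const_mul (A i k)
  simp only [dM, of_apply, mul_apply, h.fderiv]
  simp

theorem Gam_smul (W : Cm n → Mx n) (z X : Cm n) (a : ℝ) : Gam W z (a • X) = a • Gam W z X := by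
  rw [Gam, Gam, ← Matrix.smul_mul, DX, DX, Finset.smul_sum]
  simp only [Pi.smul_apply, smul_assoc]

variable {M : Type} [MetricSpace M] [ChartedSpace (Cm n) M] {e e' : Chart n M} {x : M}

/-- the state in the chart `e` -/
def st (e : Chart n M) (x : M) (P : Mx n) (y : Cm n) : St n := (e x, fun i j => fr e x P i j, y)

/-- the frame in the preferred chart -/
def un (e : Chart n M) (x : M) (Q : Mx n) : Mx n := Q * (jacM e (pc n x) x)ᵀ

theorem fr_un (a : B1a n M) (he : Hc e) (he' : Hc e') (hx : x ∈ e.source) (hx' : x ∈ e'.source)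
    (Q : Mx n) : fr e' x (un e x Q) = Q * (jacM e e' x)ᵀ := by
  rw [fr, un, Matrix.mul_assoc, ← transpose_mul,
    ← a.jac_mul e _ e' he (a.chart x) he' x hx (mem_chart_source _ _) hx']

theorem un_fr (a : B1a n M) (he : Hc e) (hx : x ∈ e.source) (P : Mx n) :
    un e x (fr e x P) = P := by
  have h := mem_chart_source (Cm n) x
  rw [fr, un, Matrix.mul_assoc, ← transpose_mul, ← a.jac_mul _ e _ (a.chart x) he (a.chart x) x h hx h,
    a.jac_self _ _ h, transpose_one, Matrix.mul_one]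

theorem fr_pc (a : B1a n M) (P : Mx n) : fr (pc n x) x P = P := by
  rw [fr, a.jac_self _ _ (mem_chart_source _ _), transpose_one, Matrix.mul_one]

theorem jac_sm (a : B1a n M) (he : Hc e) (he' : Hc e') {z : Cm n} (hz : z ∈ e.target)
    (hz' : e.symm z ∈ e'.source) (p i : Fin n) :
    ContDiffAt ℝ ∞ (fun y => jacM e e' (e.symm y) p i) z := by
  have h : ContDiffAt ℝ ∞ (fun y => e' (e.symm y) p) z := contDiffAt_pi.1
    (((a.hol e e' he he' z hz hz').contDiffAt (n := ∞)).restrict_scalars ℝ) p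
  refine (contDiffAt_dz (j := i) (m := ∞) h (by simp)).congr_of_eventuallyEq ?_
  filter_upwards [e.open_target.mem_nhds hz] with y hy
  rw [jacM, of_apply, e.right_inv hy]

theorem fm_chart (a : B1a n M) (he : Hc e) {U : Set E} (hU : IsOpen U) {z : E → Cm n}
    {Q : E → Mx n} (h : ∀ q ∈ U, z q ∈ e.target ∧ ContDiffAt ℝ ∞ z q ∧ MS Q q ∧ (Q q).det ≠ 0) :
    FM U (fun q => e.symm (z q)) fun q => un e (e.symm (z q)) (Q q) := by
  have c : ∀ q ∈ U, ContinuousAt (fun q => e.symm (z q)) q := fun q hq =>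
    (e.continuousAt_symm (h q hq).1).comp (h q hq).2.1.continuousAt
  refine ⟨hU, fun q hq => (c q hq).continuousWithinAt, fun e' he' q hq hx => ⟨?_, fun i j => ?_⟩,
    fun q hq => ?_⟩
  · exact (((a.hol e e' he he' _ (h q hq).1 hx).contDiffAt (n := ∞)).restrict_scalars ℝ).comp q
      (h q hq).2.1
  · have h1 : MS (fun p => (jacM e e' (e.symm (z p)))ᵀ) q := fun i j =>
      (jac_sm a he he' (h q hq).1 hx j i).comp q (h q hq).2.1
    refine (ms_mul (h q hq).2.2.1 h1 i j).congr_of_eventuallyEq ?_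
    filter_upwards [hU.mem_nhds hq, (c q hq).preimage_mem_nhds (e'.open_source.mem_nhds hx)]
      with p hp hp'
    rw [fr_un a he he' (e.map_target (h p hp).1) hp']
  · rw [un, det_mul, det_transpose]
    exact mul_ne_zero (h q hq).2.2.2 (a.jac_ne _ _ he (a.chart _) _ (e.map_target (h q hq).1)
      (mem_chart_source _ _))

theorem fm_loc {U : Set E} {γ : E → M} {P : E → Mx n} (hU : IsOpen U)
    (h : ∀ q ∈ U, ∃ U' γ' P', q ∈ U' ∧ FM U' γ' P' ∧ ∀ᶠ p in 𝓝 q, γ p = γ' p ∧ P p = P' p) :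
    FM U γ P := by
  refine ⟨hU, fun q hq => ?_, fun e he q hq hx => ?_, fun q hq => ?_⟩ <;>
    obtain ⟨U', γ', P', h1, h2, h3⟩ := h q hq
  · exact ((h2.cont.continuousAt (h2.op.mem_nhds h1)).congr
      (h3.mono fun p hp => hp.1.symm)).continuousWithinAt
  · obtain ⟨h4, h5⟩ := h2.sm e he q h1 (h3.self_of_nhds.1 ▸ hx)
    exact ⟨h4.congr_of_eventuallyEq (h3.mono fun p hp => by simp only [hp.1]), fun i j =>
      (h5 i j).congr_of_eventuallyEq (h3.mono fun p hp => by simp only [hp.1, hp.2])⟩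
  · rw [h3.self_of_nhds.2]; exact h2.ne q h1

theorem fm_left {U : Set E} {γ : E → M} {P : E → Mx n} (h : FM U γ P) {A : Mx n}
    (hA : A.det ≠ 0) : FM U γ fun q => A * P q :=
  ⟨h.op, h.cont, fun e he q hq hx => ⟨(h.sm e he q hq hx).1, by
    simpa only [fr, Matrix.mul_assoc] using ms_mul (ms_const A q) (h.sm e he q hq hx).2⟩,
    fun q hq => by rw [det_mul]; exact mul_ne_zero hA (h.ne q hq)⟩

theorem st_sm {U : Set E} {γ : E → M} {P : E → Mx n} (h : FM U γ P) (he : Hc e) {q : E}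
    (hq : q ∈ U) (hx : γ q ∈ e.source) {y : E → Cm n} (hy : ContDiffAt ℝ ∞ y q) :
    ContDiffAt ℝ ∞ (fun p => st e (γ p) (P p) (y p)) q :=
  (h.sm e he q hq hx).1.prodMk ((contDiffAt_pi.2 fun i => contDiffAt_pi.2 fun j =>
    (h.sm e he q hq hx).2 i j).prodMk hy)

variable [RiemannianBundle (fun x : M => TangentSpace 𝓘(ℝ, Cm n) x)]
  {S : Set ℝ} {γ γ' : ℝ → M} {P P' : ℝ → Mx n} {v : Cm n} {s : ℝ}

theorem ode (h1 : STR1 n M) (h : Dv S γ P v) (he : Hc e) (hs : s ∈ S) (hx : γ s ∈ e.source) :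
    HasDerivAt (fun t => st e (γ t) (P t) v) (vf (hm e) (st e (γ s) (P s) v)) s := by
  obtain ⟨k1, k2⟩ := ((h1 ℝ S γ P h.1).1 e he s hs hx).2.2 1
  obtain ⟨s1, s2⟩ := h.1.sm e he s hs hx
  rw [(h.2 s hs).1] at k1
  rw [(h.2 s hs).2, Matrix.zero_mul, ← k1, eq_comm, add_eq_zero_iff_eq_neg] at k2
  refine HasDerivAt.prodMk ?_ (HasDerivAt.prodMk (hasDerivAt_pi.2 fun i => hasDerivAt_pi.2
    fun j => ?_) (hasDerivAt_const _ _))
  · exact (s1.differentiableAt (by simp)).hasDerivAt.congr_deriv k1.symm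
  · exact ((s2 i j).differentiableAt (by simp)).hasDerivAt.congr_deriv
      (congrFun (congrFun k2 i) j)

theorem of_ode (h1 : STR1 n M) (h : FM S γ P) (he : Hc e) (hs : s ∈ S) (hx : γ s ∈ e.source)
    (hd : HasDerivAt (fun t => st e (γ t) (P t) v) (vf (hm e) (st e (γ s) (P s) v)) s) :
    th γ P s 1 = v ∧ om γ P s 1 = 0 := by
  obtain ⟨k0, -, k⟩ := (h1 ℝ S γ P h).1 e he s hs hx
  obtain ⟨k1, k2⟩ := k 1
  have d1 : fderiv ℝ (fun t => e (γ t)) s 1 = v ᵥ* fr e (γ s) (P s) := (dfst hd).deriv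
  have d2 : dM (fun t => fr e (γ t) (P t)) s 1 =
      -(fr e (γ s) (P s) * Gam (hm e) (e (γ s)) (v ᵥ* fr e (γ s) (P s))) := by
    ext i j
    exact (hasDerivAt_pi.1 (hasDerivAt_pi.1 (dfst (dsnd hd)) i) j).deriv
  rw [d1] at k1 k2
  rw [d2, neg_add_cancel] at k2
  have u := k0.isUnit
  constructor
  · have := congrArg (· ᵥ* (fr e (γ s) (P s))⁻¹) k1
    simpa only [vecMul_vecMul, mul_nonsing_inv _ u, vecMul_one] using this
  · have := congrArg (· * (fr e (γ s) (P s))⁻¹) k2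
    simpa only [mul_nonsing_inv_cancel_right _ _ u, Matrix.zero_mul] using this

theorem dv_loc (hS : IsOpen S) (h : ∀ s ∈ S, ∃ S' γ' P', s ∈ S' ∧ Dv S' γ' P' v ∧
    ∀ᶠ t in 𝓝 s, γ t = γ' t ∧ P t = P' t) : Dv S γ P v := by
  refine ⟨fm_loc hS fun s hs => ?_, fun s hs => ?_⟩ <;> obtain ⟨S', γ', P', h1, h2, h3⟩ := h s hs
  · exact ⟨S', γ', P', h1, h2.1, h3⟩
  obtain ⟨e1, e2⟩ := h3.self_of_nhds
  have e3 : vel n γ s 1 = vel n γ' s 1 := by
    rw [vel, vel, e1, EventuallyEq.fderiv_eq (h3.mono fun t ht => by simp only [ht.1]; rfl)]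
  have e4 : dM (fun p => fr (pc n (γ' s)) (γ p) (P p)) s 1 =
      dM (fun p => fr (pc n (γ' s)) (γ' p) (P' p)) s 1 := by
    ext i j
    rw [dM, dM, of_apply, of_apply,
      EventuallyEq.fderiv_eq (h3.mono fun t ht => by simp only [ht.1, ht.2]; rfl)]
  rw [th, om, e3, e1, e2, e4]
  exact h2.2 s h1

theorem dv_aff (h1 : STR1 n M) (h : Dv S γ P v) (a c : ℝ) :
    Dv {t | a * t + c ∈ S} (fun t => γ (a * t + c)) (fun t => P (a * t + c)) (a • v) := by
  obtain ⟨k1, k2⟩ := (h1 ℝ S γ P h.1).2.2 ℝ {t | a * t + c ∈ S} (fun t => a * t + c)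
    (h.1.op.preimage (by fun_prop)) fun t ht => ⟨ht, by fun_prop⟩
  refine ⟨k1, fun t ht => ?_⟩
  have d : fderiv ℝ (fun t : ℝ => a * t + c) t 1 = a • (1 : ℝ) := by
    simp
  obtain ⟨k3, k4⟩ := h.2 _ ht
  rw [(k2 t ht 1).1, (k2 t ht 1).2, d, ← k3]
  have e1 : vel n γ (a * t + c) (a • (1 : ℝ)) = a • vel n γ (a * t + c) 1 := map_smul _ _ _
  refine ⟨by rw [th, th, e1, smul_vecMul], ?_⟩
  have e2 : ∀ f : ℝ → Mx n, dM f (a * t + c) (a • (1 : ℝ)) = a • dM f (a * t + c) 1 := fun f => by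
    ext i j
    simp only [dM, of_apply, map_smul, Matrix.smul_apply]
  rw [om] at k4 ⊢
  rw [e1, e2, Gam_smul, Matrix.mul_smul, ← smul_add, Matrix.smul_mul, k4, smul_zero]

theorem dv_left (a : B1a n M) (h : Dv S γ P v) {A : Mx n} (hA : A.det ≠ 0) :
    Dv S γ (fun t => A * P t) (v ᵥ* A⁻¹) := by
  refine ⟨fm_left h.1 hA, fun t ht => ?_⟩
  obtain ⟨k3, k4⟩ := h.2 t ht
  refine ⟨by rw [← k3, th, th, Matrix.mul_inv_rev, vecMul_vecMul], ?_⟩
  have e1 := dM_left A (h.1.sm _ (a.chart _) t ht (mem_chart_source _ _)).2 1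
  rw [om] at k4 ⊢
  simp only [fr, Matrix.mul_assoc] at e1 k4 ⊢
  rw [e1, ← Matrix.mul_add, Matrix.mul_inv_rev, ← Matrix.mul_assoc, Matrix.mul_assoc A, k4,
    Matrix.mul_zero, Matrix.zero_mul]

/-- uniqueness -/
theorem uq (a : B1a n M) (b : B1b n M) (h1 : STR1 n M) (hS : IsPreconnected S) (h : Dv S γ P v)
    (h' : Dv S γ' P' v) {s₀ : ℝ} (hs₀ : s₀ ∈ S) (e1 : γ s₀ = γ' s₀) (e2 : P s₀ = P' s₀) :
    ∀ s ∈ S, γ s = γ' s ∧ P s = P' s := by
  have ev : ∀ s ∈ S, ∀ {γ : ℝ → M}, ContinuousOn γ S → ∀ {e : Chart n M}, γ s ∈ e.source →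
      ∀ᶠ t in 𝓝 s, t ∈ S ∧ γ t ∈ e.source := fun s hs γ hγ e hx =>
    (h.1.op.eventually_mem hs).and ((hγ.continuousAt (h.1.op.mem_nhds hs)).preimage_mem_nhds
      (e.open_source.mem_nhds hx))
  have inj : ∀ {e : Chart n M}, Hc e → ∀ t, γ t ∈ e.source → γ' t ∈ e.source →
      st e (γ t) (P t) v = st e (γ' t) (P' t) v → γ t = γ' t ∧ P t = P' t := by
    intro e he t h1 h2 h3
    have h4 : γ t = γ' t := e.injOn h1 h2 (congrArg Prod.fst h3)
    have h5 : fr e (γ t) (P t) = fr e (γ' t) (P' t) := congrArg (fun w : St n => of w.2.1) h3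
    exact ⟨h4, by rw [← un_fr a he h1 (P t), h5, h4, un_fr a he h2]⟩
  have loc : ∀ s ∈ S, γ s = γ' s → P s = P' s → ∀ᶠ t in 𝓝 s, γ t = γ' t ∧ P t = P' t := by
    intro s hs e1 e2
    have hx := mem_chart_source (Cm n) (γ s)
    have he := a.chart (γ s)
    generalize chartAt (Cm n) (γ s) = e at hx he
    have hz := e.map_source hx
    obtain ⟨K, T, hT, hK⟩ := ((vf_sm (W := hm e) (w := st e (γ s) (P s) v) (b.wsm e he _ hz)
      (b.wpos e he _ hz).det_pos.ne').of_le (show (1 : WithTop ℕ∞) ≤ ∞ by simp)).exists_lipschitzOnWith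
    have v1 := ev s hs h.1.cont hx
    have v2 := ev s hs h'.1.cont (e1 ▸ hx)
    have k := ODE_solution_unique_of_eventually (v := fun _ => vf (hm e)) (s := fun _ => T)
      (f := fun t => st e (γ t) (P t) v) (g := fun t => st e (γ' t) (P' t) v)
      (Eventually.of_forall fun _ => hK)
      ((v1.mono fun t ht => ode h1 h he ht.1 ht.2).and
        ((ode h1 h he hs hx).continuousAt.preimage_mem_nhds hT))
      ((v2.mono fun t ht => ode h1 h' he ht.1 ht.2).and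
        ((ode h1 h' he hs (e1 ▸ hx)).continuousAt.preimage_mem_nhds (by rwa [← e1, ← e2])))
      (by rw [e1, e2])
    filter_upwards [k, v1, v2] with t h3 h4 h5 using inj he t h4.2 h5.2 h3
  intro s hs
  refine (hS.subset_of_closure_inter_subset (isOpen_setOfPred_eventually_nhds
    (p := fun t => γ t = γ' t ∧ P t = P' t)) ⟨s₀, hs₀, loc s₀ hs₀ e1 e2⟩ ?_ hs).self_of_nhds
  rintro t ⟨h2, ht⟩
  have h3 : ∃ᶠ u in 𝓝 t, γ u = γ' u ∧ P u = P' u :=
    (mem_closure_iff_frequently.1 h2).mono fun u hu => hu.self_of_nhds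
  have h4 : γ t = γ' t := tendsto_nhds_unique_of_frequently_eq
    (h.1.cont.continuousAt (h.1.op.mem_nhds ht)) (h'.1.cont.continuousAt (h.1.op.mem_nhds ht))
    (h3.mono fun u hu => hu.1)
  have hx := mem_chart_source (Cm n) (γ t)
  have h5 := inj (a.chart _) t hx (h4 ▸ hx) (tendsto_nhds_unique_of_frequently_eq
    (ode h1 h (a.chart _) ht hx).continuousAt (ode h1 h' (a.chart _) ht (h4 ▸ hx)).continuousAt
    (h3.mono fun u hu => by simp only [hu.1, hu.2]))
  exact loc t ht h5.1 h5.2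

/-- flow boxes -/
theorem box (a : B1a n M) (b : B1b n M) (h1 : STR1 n M) (he : Hc e) {w₀ : St n}
    (hz : w₀.1 ∈ e.target) (hd : (of w₀.2.1).det ≠ 0) : ∃ ε > 0, ∃ W : Set (St n), IsOpen W ∧
      w₀ ∈ W ∧ ∃ (G : ℝ × St n → M) (R : ℝ × St n → Mx n), FM (Ioo (-ε) ε ×ˢ W) G R ∧
      (∀ w ∈ W, Dv (Ioo (-ε) ε) (fun t => G (t, w)) (fun t => R (t, w)) w.2.2) ∧
      ∀ x ∈ e.source, ∀ P y, st e x P y ∈ W → G (0, st e x P y) = x ∧ R (0, st e x P y) = P := by
  have cd : Continuous fun w : St n => (of w.2.1).det :=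
    Continuous.matrix_det (continuous_matrix fun i j => by simp only [of_apply]; fun_prop)
  obtain ⟨ε, ε0, W, hW, hw, Φ, f0, f1, f2⟩ := Vale.Agent.P255.exists_flow_smooth (vf (hm e))
    {w | w.1 ∈ e.target ∧ (of w.2.1).det ≠ 0}
    ((e.open_target.preimage continuous_fst).inter (isOpen_ne_fun cd continuous_const))
    (fun w hw => (vf_sm (b.wsm e he _ hw.1) (b.wpos e he _ hw.1).det_pos.ne').contDiffWithinAt)
    w₀ ⟨hz, hd⟩
  have oU : IsOpen (Ioo (-ε) ε ×ˢ W) := isOpen_Ioo.prod hW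
  have k := fm_chart a he oU (z := fun q => (Φ q.1 q.2).1) (Q := fun q => of (Φ q.1 q.2).2.1)
    fun q hq => by
      have c := f2.contDiffAt (oU.mem_nhds hq)
      exact ⟨(f1 _ hq.2 _ hq.1).1.1, c.fst, fun i j => contDiffAt_pi.1 (contDiffAt_pi.1 c.snd.fst i) j,
        (f1 _ hq.2 _ hq.1).1.2⟩
  have z0 : (0 : ℝ) ∈ Ioo (-ε) ε := ⟨by linarith, ε0⟩
  refine ⟨ε, ε0, W, hW, hw, _, _, k, fun w hw => ?_, fun x hx P y hw => ?_⟩
  · have k2 := ((h1 _ _ _ _ k).2.2 ℝ (Ioo (-ε) ε) (fun t => (t, w)) isOpen_Ioo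
      fun t ht => ⟨⟨ht, hw⟩, by fun_prop⟩).1
    have c3 : ∀ t ∈ Ioo (-ε) ε, (Φ t w).2.2 = w.2.2 := fun t ht => by
      have := isOpen_Ioo.is_const_of_deriv_eq_zero (f := fun t => (Φ t w).2.2) isPreconnected_Ioo
        (fun t ht => (dsnd (dsnd (f1 w hw t ht).2)).differentiableAt.differentiableWithinAt)
        (fun t ht => (dsnd (dsnd (f1 w hw t ht).2)).deriv) ht z0
      rwa [f0 w hw] at this
    have e1 : ∀ t ∈ Ioo (-ε) ε, st e (e.symm (Φ t w).1)
        (un e (e.symm (Φ t w).1) (of (Φ t w).2.1)) w.2.2 = Φ t w := fun t ht => by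
      have hx := e.map_target (f1 w hw t ht).1.1
      rw [st, fr_un a he he hx hx, a.jac_self e _ hx, transpose_one, Matrix.mul_one,
        e.right_inv (f1 w hw t ht).1.1, ← c3 t ht]
      rfl
    refine ⟨k2, fun t ht => of_ode h1 k2 he ht (e.map_target (f1 w hw t ht).1.1) ?_⟩
    rw [e1 t ht]
    exact (f1 w hw t ht).2.congr_of_eventuallyEq ((isOpen_Ioo.eventually_mem ht).mono e1)
  · simp only [f0 _ hw]
    have : e.symm (st e x P y).1 = x := e.left_inv hx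
    rw [this]
    exact ⟨rfl, un_fr a he hx P⟩

end Dev

end Vale.Agent.P253W.X
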