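import Vale.Agent.P253W.X.Dev0

/-!
# P253W, block X, rows DEV1 and DEV2: geodesics, the exponential map, the parallel transport
-/

set_option linter.unusedSectionVars false

open scoped Manifold ContDiff Bundle Topology ComplexConjugate ComplexOrder Matrix
open Bundle Set Metric Filter Matrix Vale.Agent.P253.Mfd Vale.Agent.P253Z
open Vale.Agent.P272.K (Cm dz jacM Chart)

noncomputable section

namespace Vale.Agent.P253W.X

namespace Dev

variable {n : ℕ}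

theorem qf_fr (Q W : Mx n) (v : Cm n) : qf (Q * W * Qᴴ) v = qf W (v ᵥ* Q) := by
  rw [qf, qf, ← mulVec_mulVec, ← mulVec_mulVec, dotProduct_mulVec, star_vecMul]

theorem qf_smul (W : Mx n) (c : ℝ) (v : Cm n) : qf W (c • v) = c ^ 2 * qf W v := by
  simp only [qf, star_smul, mulVec_smul, smul_dotProduct, dotProduct_smul, star_trivial,
    Complex.smul_re, smul_eq_mul]
  ring

theorem qf_pos {W : Mx n} (h : W.PosDef) {v : Cm n} (hv : v ≠ 0) : 0 < qf W v := by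
  have := (Complex.pos_iff.1 (h.dotProduct_mulVec_pos (x := star v) (by simpa using hv))).1
  rwa [star_star] at this

theorem coer {W : Cm n → Mx n} {z : Cm n} (hc : ∀ j k, ContinuousAt (fun y => W y j k) z)
    (hp : (W z).PosDef) : ∃ κ > 0, ∀ᶠ y in 𝓝 z, ∀ a, κ * ‖a‖ ^ 2 ≤ qf (W y) a := by
  have c : ∀ a, ContinuousAt (fun q : Cm n × Cm n => qf (W q.1) q.2) (z, a) := fun a => by
    simp only [qf, dotProduct, mulVec]
    exact Complex.continuous_re.continuousAt.comp (tendsto_finsetSum _ fun i _ =>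
      ContinuousAt.mul (by fun_prop) (tendsto_finsetSum _ fun k _ => ContinuousAt.mul
        (ContinuousAt.comp (g := fun y => W y i k) (f := Prod.fst) (x := (z, a)) (hc i k)
          continuousAt_fst) (by fun_prop)))
  obtain ⟨κ, κ0, hκ⟩ := (isCompact_sphere (0 : Cm n) 1).exists_forall_le' (a := 0)
    (f := fun a => qf (W z) a)
    (fun a _ => ((c a).comp (f := fun a => (z, a)) (by fun_prop)).continuousWithinAt)
    fun a ha => qf_pos hp (ne_zero_of_mem_unit_sphere ⟨_, ha⟩)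
  refine ⟨κ / 2, half_pos κ0, ((isCompact_sphere (0 : Cm n) 1).eventually_forall_of_forall_eventually
    (x₀ := z) (P := fun y a => κ / 2 < qf (W y) a) fun a ha =>
      (c a).eventually (lt_mem_nhds ((half_lt_self κ0).trans_le (hκ a ha)))).mono fun y hy a => ?_⟩
  by_cases h0 : a = 0
  · simp [h0, qf]
  have n0 := norm_pos_iff.2 h0
  have h1 := hy (‖a‖⁻¹ • a) (by simp [norm_smul, n0.ne'])
  rw [qf_smul, inv_pow, ← div_eq_inv_mul, lt_div_iff₀ (by positivity)] at h1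
  exact h1.le

theorem mlim {F : Filter ℝ} [F.NeBot] {Q : ℝ → Mx n} {z : ℝ → Cm n} {W : Cm n → Mx n} {z₀ : Cm n}
    {H : Mx n} (t1 : Tendsto z F (𝓝 z₀)) (hc : ∀ j k, ContinuousAt (fun y => W y j k) z₀)
    (hp : (W z₀).PosDef) (hH : H.det ≠ 0) (g1 : ∀ᶠ t in F, H = Q t * W (z t) * (Q t)ᴴ) :
    ∃ 𝒰 : Ultrafilter ℝ, ↑𝒰 ≤ F ∧ ∃ Q' : Fin n → Fin n → ℂ, (of Q').det ≠ 0 ∧
      Tendsto (fun t i j => Q t i j) 𝒰 (𝓝 Q') := by
  obtain ⟨κ, κ0, hκ⟩ := coer hc hp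
  obtain ⟨C, hC⟩ := Finite.exists_le fun i : Fin n => √(qf H (Pi.single i 1) / κ)
  obtain ⟨𝒰, hU⟩ := Ultrafilter.exists_le F
  have g0 : ∀ᶠ t in (𝒰 : Filter ℝ), (fun i j => Q t i j) ∈
      closedBall (0 : Fin n → Fin n → ℂ) |C| := by
    filter_upwards [g1.filter_mono hU, (t1.eventually hκ).filter_mono hU] with t ht hk
    refine mem_closedBall_zero_iff.2 ((pi_norm_le_iff_of_nonneg (abs_nonneg C)).2 fun i =>
      (Real.le_sqrt_of_sq_le ?_).trans ((hC i).trans (le_abs_self C)))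
    rw [le_div_iff₀' κ0, ht, qf_fr, single_one_vecMul]
    exact hk _
  obtain ⟨Q', -, hQ⟩ := (isCompact_closedBall (0 : Fin n → Fin n → ℂ) |C|).ultrafilter_le_nhds'
    (𝒰.map fun t i j => Q t i j) g0
  refine ⟨𝒰, hU, Q', fun h0 => hH ?_, hQ⟩
  have hQ' : Tendsto Q 𝒰 (𝓝 (of Q')) := hQ
  have t2 : Tendsto (fun t => W (z t)) 𝒰 (𝓝 (W z₀)) :=
    tendsto_pi_nhds.2 fun j => tendsto_pi_nhds.2 fun k => (hc j k).tendsto.comp (t1.mono_left hU)
  have t3 : Tendsto (fun t => Q t * W (z t) * (Q t)ᴴ) 𝒰 (𝓝 (of Q' * W z₀ * (of Q')ᴴ)) :=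
    (hQ'.mul t2).mul hQ'.star
  rw [tendsto_nhds_unique (tendsto_const_nhds.congr' (g1.filter_mono hU)) t3, det_mul, det_mul, h0,
    zero_mul, zero_mul]

theorem lip_glob {Y : Type} [MetricSpace Y] {f : ℝ → Y} {S : Set ℝ} {L : ℝ} (hS : OrdConnected S)
    (hf : ContinuousOn f S) (h : ∀ s ∈ S, ∀ᶠ t in 𝓝[>] s, dist (f s) (f t) ≤ L * (t - s)) :
    ∀ s ∈ S, ∀ t ∈ S, dist (f s) (f t) ≤ |s - t| * L := by
  have k : ∀ s ∈ S, ∀ t ∈ S, s ≤ t → dist (f s) (f t) ≤ L * (t - s) := fun s hs t ht hst => by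
    have sub := hS.out hs ht
    refine IsClosed.Icc_subset_of_forall_mem_nhdsWithin
      (s := {u | dist (f s) (f u) ≤ L * (u - s)}) ?_ (by simp) (fun u hu => ?_) ⟨hst, le_rfl⟩
    · rw [inter_comm]
      exact isClosed_Icc.isClosed_le
        (continuous_dist.comp_continuousOn (continuousOn_const.prodMk (hf.mono sub))) (by fun_prop)
    · filter_upwards [h u (sub (Ico_subset_Icc_self hu.2))] with w hw
      have h1 : dist (f s) (f u) ≤ L * (u - s) := hu.1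
      show dist (f s) (f w) ≤ L * (w - s)
      linarith [dist_triangle (f s) (f u) (f w)]
  intro s hs t ht
  rcases le_total s t with h1 | h1
  · rw [abs_sub_comm, abs_of_nonneg (sub_nonneg.2 h1), mul_comm]; exact k s hs t ht h1
  · rw [abs_of_nonneg (sub_nonneg.2 h1), mul_comm, dist_comm]; exact k t ht s hs h1

section

variable {M : Type} [MetricSpace M] [ChartedSpace (Cm n) M]
  [RiemannianBundle (fun x : M => TangentSpace 𝓘(ℝ, Cm n) x)]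
  {S : Set ℝ} {γ : ℝ → M} {P : ℝ → Mx n} {v : Cm n}

theorem gr_const (h2 : STR2 n M) (hS : IsPreconnected S) (h : Dv S γ P v) {s t : ℝ} (hs : s ∈ S)
    (ht : t ∈ S) : gr γ P s = gr γ P t := by
  have c := h2 ℝ S γ P h.1
  ext i j
  refine h.1.op.is_const_of_deriv_eq_zero (f := fun u => gr γ P u i j) hS
    (fun u hu => ((c.H_sm u hu i j).differentiableAt (by simp)).differentiableWithinAt)
    (fun u hu => ?_) hs ht
  have := c.met u hu 1
  rw [(h.2 u hu).2, Matrix.zero_mul, conjTranspose_zero, Matrix.mul_zero, add_zero] at this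
  exact congrFun (congrFun this i) j

variable {E : Type} [NormedAddCommGroup E] [NormedSpace ℝ E]

/-- smooth dependence on parameters -/
theorem fam (a : B1a n M) (b : B1b n M) (h1 : STR1 n M) {U : Set E} {G : E × ℝ → M}
    {R : E × ℝ → Mx n} {y : E → Cm n} (h0 : FM U (fun p => G (p, 0)) fun p => R (p, 0))
    (hy : ∀ p ∈ U, ContDiffAt ℝ ∞ y p)
    (hd : ∀ p ∈ U, Dv univ (fun s => G (p, s)) (fun s => R (p, s)) (y p)) :
    FM (U ×ˢ univ) G R := by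
  refine fm_loc (h0.op.prod isOpen_univ) ?_
  rintro ⟨p, s⟩ ⟨hp, -⟩
  have step : ∀ s₁, ∃ δ > 0, ∀ᶠ s₂ in 𝓝 s₁, (∃ U', p ∈ U' ∧ U' ⊆ U ∧
      FM U' (fun p => G (p, s₂)) fun p => R (p, s₂)) → ∀ s, |s - s₂| < δ →
      ∃ O, (p, s) ∈ O ∧ O ⊆ U ×ˢ univ ∧ FM O G R := by
    intro s₁
    have hx := mem_chart_source (Cm n) (G (p, s₁))
    have he := a.chart (G (p, s₁))
    generalize chartAt (Cm n) (G (p, s₁)) = e at hx he
    obtain ⟨ε, ε0, W, hW, hw, G', R', f1, f2, f3⟩ := box a b h1 he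
      (w₀ := st e (G (p, s₁)) (R (p, s₁)) (y p)) (e.map_source hx)
      ((h1 _ _ _ _ (hd p hp).1).1 e he s₁ (mem_univ _) hx).1
    refine ⟨ε, ε0, ?_⟩
    filter_upwards [(ode h1 (hd p hp) he (mem_univ _) hx).continuousAt.preimage_mem_nhds
      (hW.mem_nhds hw), (continuousOn_univ.1 (hd p hp).1.cont).continuousAt.preimage_mem_nhds
      (e.open_source.mem_nhds hx)] with s₂ w2 x2 ⟨U', p1, p2, p3⟩ s hs
    have o1 : IsOpen (U' ∩ (fun p => G (p, s₂)) ⁻¹' e.source) :=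
      p3.cont.isOpen_inter_preimage p3.op e.open_source
    have sm := fun q (hq : q ∈ U' ∩ (fun p => G (p, s₂)) ⁻¹' e.source) =>
      st_sm p3 he hq.1 hq.2 (hy q (p2 hq.1))
    have o2 := ContinuousOn.isOpen_inter_preimage
      (fun q hq => (sm q hq).continuousAt.continuousWithinAt) o1 hW
    have o3 : IsOpen {t : ℝ | 1 * t + -s₂ ∈ Ioo (-ε) ε} := isOpen_Ioo.preimage (by fun_prop)
    have k := ((h1 _ _ _ _ f1).2.2 (E × ℝ) _
      (fun q => (1 * q.2 + -s₂, st e (G (q.1, s₂)) (R (q.1, s₂)) (y q.1))) (o2.prod o3)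
      fun q hq => ⟨⟨hq.2, hq.1.2⟩, ContDiffAt.prodMk (by fun_prop)
        ((sm q.1 hq.1.1).comp q contDiffAt_fst)⟩).1
    refine ⟨_, ?_, ?_, fm_loc k.op fun q hq =>
        ⟨_, _, _, hq, k, (k.op.eventually_mem hq).mono fun q hq => ?_⟩⟩
    · exact ⟨⟨⟨p1, x2⟩, w2⟩, by simpa [sub_eq_add_neg] using abs_lt.1 hs⟩
    · exact fun q hq => ⟨p2 hq.1.1.1, mem_univ _⟩
    have d1 := dv_aff h1 (f2 _ hq.1.2) 1 (-s₂)
    rw [one_smul] at d1
    have z0 : 1 * s₂ + -s₂ = 0 := by ring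
    refine uq a b h1 ?_ (dv_loc o3 fun t _ => ⟨_, _, _, mem_univ t, hd q.1 (p2 hq.1.1.1),
      Eventually.of_forall fun _ => ⟨rfl, rfl⟩⟩) d1 (s₀ := s₂) (by simpa using ε0) ?_ ?_ q.2 hq.2
    · exact (ordConnected_Ioo.preimage_mono (f := fun t : ℝ => 1 * t + -s₂)
        fun _ _ h => by dsimp only; linarith).isPreconnected
    · rw [z0]; exact (f3 _ hq.1.1.2 _ _ hq.1.2).1.symm
    · rw [z0]; exact (f3 _ hq.1.1.2 _ _ hq.1.2).2.symm
  have sl : ∀ s, (∃ O, (p, s) ∈ O ∧ O ⊆ U ×ˢ univ ∧ FM O G R) → ∃ U', p ∈ U' ∧ U' ⊆ U ∧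
      FM U' (fun p => G (p, s)) fun p => R (p, s) := fun s ⟨O, o1, o2, o3⟩ =>
    ⟨{q | (q, s) ∈ O}, o1, fun _ hq => (o2 hq).1, ((h1 _ _ _ _ o3).2.2 E _ (fun q => (q, s))
      (o3.op.preimage (by fun_prop)) fun q hq => ⟨hq, by fun_prop⟩).1⟩
  have key : IsClopen {s | ∃ O, (p, s) ∈ O ∧ O ⊆ U ×ˢ univ ∧ FM O G R} := by
    refine ⟨isClosed_of_closure_subset fun s₁ hs₁ => ?_, isOpen_iff_mem_nhds.2 ?_⟩
    · obtain ⟨δ, δ0, h⟩ := step s₁
      obtain ⟨s₂, ⟨k1, k2⟩, k3⟩ := (((mem_closure_iff_frequently.1 hs₁).and_eventually h).and_eventually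
        (ball_mem_nhds s₁ δ0)).exists
      exact k2 (sl s₂ k1) s₁ (by rw [abs_sub_comm]; exact k3)
    · rintro s ⟨O, o1, o2, o3⟩
      filter_upwards [(by fun_prop : ContinuousAt (fun s : ℝ => (p, s)) s).preimage_mem_nhds
        (o3.op.mem_nhds o1)] with t ht using ⟨O, ht, o2, o3⟩
  obtain ⟨δ, δ0, h⟩ := step 0
  obtain ⟨O, o1, -, o3⟩ : s ∈ {s | ∃ O, (p, s) ∈ O ∧ O ⊆ U ×ˢ univ ∧ FM O G R} := by
    rw [key.eq_univ ⟨0, h.self_of_nhds ⟨U, hp, subset_rfl, h0⟩ 0 (by simpa using δ0)⟩]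
    exact mem_univ _
  exact ⟨O, G, R, o1, o3, Eventually.of_forall fun _ => ⟨rfl, rfl⟩⟩

/-- the exponential map -/
theorem dev_of (a : B1a n M) (b : B1b n M) (h1 : STR1 n M) (d : DEV1 n M) : DEV n M := by
  choose g Q hd h0 hQ hl using d.ex
  have hom : ∀ x v (s : ℝ), g x (s • v) 1 = g x v s ∧ Q x (s • v) 1 = Q x v s := fun x v s => by
    have := d.uq univ _ _ _ _ _ isPreconnected_univ (hd x (s • v)) (dv_aff h1 (hd x v) s 0) 0
      (mem_univ _) (by simp [h0]) (by simp [hQ]) 1 (mem_univ _)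
    simpa using this
  refine ⟨fun x v => g x v 1, fun x v => Q x v 1, fun x => ?_, fun x => ?_,
    fun x v => by simpa using hl x v 1, fun E _ _ _ U x P y hF hy => ?_⟩
  · simpa [h0] using (hom x 0 0).1
  · simpa [hQ] using (hom x 0 0).2
  have e1 : eγ (fun x v => g x v 1) x P y = fun q => g (x q.1) (y q.1 ᵥ* P q.1) q.2 := by
    funext q; rw [eγ, smul_vecMul, (hom _ _ _).1]
  have e2 : eP (fun x v => Q x v 1) x P y = fun q => P q.1 * Q (x q.1) (y q.1 ᵥ* P q.1) q.2 := by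
    funext q; rw [eP, smul_vecMul, (hom _ _ _).2]
  rw [e1, e2]
  have k : ∀ p ∈ U, Dv univ (fun s => g (x p) (y p ᵥ* P p) s)
      (fun s => P p * Q (x p) (y p ᵥ* P p) s) (y p) := fun p hp => by
    have := dv_left a (hd (x p) (y p ᵥ* P p)) (hF.ne p hp)
    rwa [vecMul_vecMul, mul_nonsing_inv _ (hF.ne p hp).isUnit, vecMul_one] at this
  have F := fam a b h1 (G := fun q => g (x q.1) (y q.1 ᵥ* P q.1) q.2)
    (R := fun q => P q.1 * Q (x q.1) (y q.1 ᵥ* P q.1) q.2)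
    (by simpa only [h0, hQ, Matrix.mul_one] using hF) hy k
  refine ⟨F, fun p hp s => ?_⟩
  have c := ((h1 _ _ _ _ F).2.2 ℝ univ (fun s => (p, s)) isOpen_univ
    fun s _ => ⟨⟨hp, mem_univ _⟩, by fun_prop⟩).2 s (mem_univ _) 1
  have d : fderiv ℝ (fun s : ℝ => (p, s)) s 1 = (0, 1) :=
    ((hasDerivAt_const s p).prodMk (hasDerivAt_id s)).deriv
  rw [d] at c
  rw [← c.1, ← c.2]
  exact (k p hp).2 s (mem_univ _)

end

variable {M : Type} [MetricSpace M] [ChartedSpace (Cm n) M] [IsManifold 𝓘(ℂ, Cm n) 1 M]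
  [IsManifold 𝓘(ℝ, Cm n) ∞ M] [RiemannianBundle fun x : M => TangentSpace 𝓘(ℝ, Cm n) x]
  [IsContMDiffRiemannianBundle 𝓘(ℝ, Cm n) ∞ (Cm n) fun x : M => TangentSpace 𝓘(ℝ, Cm n) x]
  [IsRiemannianManifold 𝓘(ℝ, Cm n) M] {S : Set ℝ} {γ : ℝ → M} {P : ℝ → Mx n} {v : Cm n}

/-- the speed is constant -/
theorem lip (a : B1a n M) (b : B1b n M) (h1 : STR1 n M) (h2 : STR2 n M) (hS : IsPreconnected S)
    (h : Dv S γ P v) {s₀ : ℝ} (hs₀ : s₀ ∈ S) :
    ∀ s ∈ S, ∀ t ∈ S, dist (γ s) (γ t) ≤ |s - t| * nr (gr γ P s₀) v := by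
  refine lip_glob hS.ordConnected h.1.cont fun s hs => ?_
  have hx := mem_chart_source (Cm n) (γ s)
  have he := a.chart (γ s)
  generalize chartAt (Cm n) (γ s) = e at hx he
  obtain ⟨δ, δ0, hδ⟩ := Metric.eventually_nhds_iff_ball.1 ((h.1.op.eventually_mem hs).and
    ((h.1.cont.continuousAt (h.1.op.mem_nhds hs)).preimage_mem_nhds (e.open_source.mem_nhds hx)))
  filter_upwards [Ioo_mem_nhdsGT (lt_add_of_pos_right s δ0)] with t ht
  have m : ∀ u ∈ Icc s t, u ∈ S ∧ γ u ∈ e.source := fun u hu => hδ u (by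
    rw [Real.ball_eq_Ioo]; exact ⟨by linarith [hu.1], hu.2.trans_lt ht.2⟩)
  have k := dist_le_chart (mem_maximalAtlas_real he) ht.1.le (c := fun u => e (γ u))
    (c' := fun u => v ᵥ* fr e (γ u) (P u))
    (fun u hu => (dfst (ode h1 h he (m u hu).1 (m u hu).2)).hasDerivWithinAt)
    (fun u hu => ContinuousAt.continuousWithinAt (continuousAt_pi.2 fun j =>
      tendsto_finsetSum (f := fun i u => v i * fr e (γ u) (P u) i j) Finset.univ fun i _ =>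
        ContinuousAt.mul continuousAt_const
        ((h.1.sm e he u (m u hu).1 (m u hu).2).2 i j).continuousAt))
    fun u hu => e.map_source (m u hu).2
  rw [e.left_inv hx, e.left_inv (m t ⟨ht.1.le, le_rfl⟩).2, intervalIntegral.integral_congr
    (g := fun _ => nr (gr γ P s₀) v) fun u hu => ?_] at k
  · simpa [mul_comm] using k
  rw [uIcc_of_le ht.1.le] at hu
  simp only
  rw [chartG_apply, b.quad e he _ (e.map_source (m u hu).2), gr_const h2 hS h hs₀ (m u hu).1,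
    ((h1 ℝ S γ P h.1).1 e he u (m u hu).1 (m u hu).2).2.1, nr, qf_fr, qf]
  simp only [dotProduct, mulVec, Finset.mul_sum, Pi.star_apply, RCLike.star_def, mul_left_comm]

theorem loc (h1 : STR1 n M) {x' : M} {P' : Mx n} (s₂ : ℝ) {e : Chart n M} (hx : x' ∈ e.source)
    {ε : ℝ} {W : Set (St n)} {G : ℝ × St n → M} {R : ℝ × St n → Mx n} (hw : st e x' P' v ∈ W)
    (f2 : ∀ w ∈ W, Dv (Ioo (-ε) ε) (fun t => G (t, w)) (fun t => R (t, w)) w.2.2)
    (f3 : ∀ x ∈ e.source, ∀ P y, st e x P y ∈ W → G (0, st e x P y) = x ∧ R (0, st e x P y) = P) :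
    ∃ γ P, Dv (ball s₂ ε) γ P v ∧ γ s₂ = x' ∧ P s₂ = P' := by
  have d1 := dv_aff h1 (f2 _ hw) 1 (-s₂)
  rw [one_smul] at d1
  refine ⟨_, _, dv_loc isOpen_ball fun t ht => ⟨_, _, _, ?_, d1,
    Eventually.of_forall fun _ => ⟨rfl, rfl⟩⟩, ?_⟩
  · simpa [sub_eq_add_neg] using abs_lt.1 (show |t - s₂| < ε from ht)
  · simpa using f3 x' hx P' v hw

/-- a geodesic extends over an end point of its interval -/
theorem ext [CompleteSpace M] (a : B1a n M) (b : B1b n M) (h1 : STR1 n M) (h2 : STR2 n M)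
    (pD : IsPreconnected S) (dD : Dv S γ P v) {s₀ s₁ : ℝ} (D0 : s₀ ∈ S) (hs₁ : s₁ ∈ closure S) :
    ∃ s₂ ∈ S, ∃ ε > 0, s₂ ∈ ball s₁ ε ∧ ∃ γ' P', Dv (ball s₂ ε) γ' P' v ∧ γ' s₂ = γ s₂ ∧
      P' s₂ = P s₂ := by
  have nb := mem_closure_iff_nhdsWithin_neBot.1 hs₁
  have hl := lip a b h1 h2 pD dD D0
  have lp : LipschitzOnWith (nr (gr γ P s₀) v).toNNReal γ S :=
    LipschitzOnWith.of_dist_le' fun s hs t ht => by rw [mul_comm]; exact hl s hs t ht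
  obtain ⟨x', hx'⟩ := CompleteSpace.complete (((cauchy_nhds (a := s₁)).mono
    (nhdsWithin_le_nhds (s := S))).map_of_le lp.uniformContinuousOn inf_le_right)
  replace hx' : Tendsto γ (𝓝[S] s₁) (𝓝 x') := hx'
  have hx := mem_chart_source (Cm n) x'
  have he := a.chart x'
  generalize chartAt (Cm n) x' = e at hx he
  have hz := e.map_source hx
  have t1 : Tendsto (fun t => e (γ t)) (𝓝[S] s₁) (𝓝 (e x')) := (e.continuousAt hx).tendsto.comp hx'
  have g1 : ∀ᶠ t in 𝓝[S] s₁, t ∈ S ∧ γ t ∈ e.source ∧ gr γ P s₀ =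
      fr e (γ t) (P t) * hm e (e (γ t)) * (fr e (γ t) (P t))ᴴ := by
    filter_upwards [self_mem_nhdsWithin, hx' (e.open_source.mem_nhds hx)] with t ht hs
    exact ⟨ht, hs, (gr_const h2 pD dD D0 ht).trans ((h1 ℝ S γ P dD.1).1 e he t ht hs).2.1⟩
  obtain ⟨𝒰, hU, Q', h0, hQ⟩ := mlim t1 (fun j k => (b.wsm e he _ hz j k).continuousAt)
    (b.wpos e he _ hz) ((h2 ℝ S γ P dD.1).H_pos s₀ D0).det_pos.ne' (g1.mono fun t ht => ht.2.2)
  obtain ⟨ε, ε0, W, hW, hw, G, R, -, f2, f3⟩ := box a b h1 he (w₀ := (e x', Q', v)) hz h0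
  have t3 : Tendsto (fun t => st e (γ t) (P t) v) 𝒰 (𝓝 (e x', Q', v)) :=
    (t1.mono_left hU).prodMk_nhds (Tendsto.prodMk_nhds hQ tendsto_const_nhds)
  obtain ⟨s₂, ⟨⟨k1, k2, -⟩, k3⟩, k4⟩ := (((g1.filter_mono hU).and (t3 (hW.mem_nhds hw))).and
    (Eventually.filter_mono (hU.trans nhdsWithin_le_nhds) (ball_mem_nhds s₁ ε0))).exists
  exact ⟨s₂, k1, ε, ε0, k4, loc h1 s₂ k2 k3 f2 f3⟩

/-- existence for all times -/
theorem ex [CompleteSpace M] (a : B1a n M) (b : B1b n M) (h1 : STR1 n M) (h2 : STR2 n M) (x : M)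
    (v : Cm n) : ∃ (γ : ℝ → M) (P : ℝ → Mx n), Dv univ γ P v ∧ γ 0 = x ∧ P 0 = 1 := by
  classical
  let L : Set ℝ × (ℝ → M) × (ℝ → Mx n) → Prop := fun c =>
    IsPreconnected c.1 ∧ 0 ∈ c.1 ∧ Dv c.1 c.2.1 c.2.2 v ∧ c.2.1 0 = x ∧ c.2.2 0 = 1
  let D : Set ℝ := {s | ∃ c, L c ∧ s ∈ c.1}
  have res : ∀ {S S' : Set ℝ} {γ : ℝ → M} {P : ℝ → Mx n}, Dv S γ P v → IsOpen S' → S' ⊆ S →
      Dv S' γ P v := fun h o s => dv_loc o fun t ht =>
    ⟨_, _, _, s ht, h, Eventually.of_forall fun _ => ⟨rfl, rfl⟩⟩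
  have agree : ∀ {S S' : Set ℝ} {γ γ' : ℝ → M} {P P' : ℝ → Mx n}, IsPreconnected S →
      IsPreconnected S' → Dv S γ P v → Dv S' γ' P' v → ∀ s₀ ∈ S ∩ S', γ s₀ = γ' s₀ → P s₀ = P' s₀ →
      ∀ s ∈ S ∩ S', γ s = γ' s ∧ P s = P' s := fun p p' h h' s₀ hs₀ e1 e2 =>
    uq a b h1 (p.ordConnected.inter p'.ordConnected).isPreconnected
      (res h (h.1.op.inter h'.1.op) inter_subset_left)
      (res h' (h.1.op.inter h'.1.op) inter_subset_right) hs₀ e1 e2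
  have : Nonempty M := ⟨x⟩
  choose! c hc hc' using fun s (hs : s ∈ D) => (hs : ∃ c, L c ∧ s ∈ c.1)
  have D0 : (0 : ℝ) ∈ D := by
    have hx := mem_chart_source (Cm n) x
    obtain ⟨ε, ε0, W, -, hw, G, R, -, f2, f3⟩ := box a b h1 (a.chart x)
      (w₀ := st (pc n x) x 1 v) ((pc n x).map_source hx) (by
        show (fr (pc n x) x 1).det ≠ 0
        rw [fr_pc a, det_one]; exact one_ne_zero)
    obtain ⟨γ, P, k1, k2, k3⟩ := loc h1 0 hx hw f2 f3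
    exact ⟨(ball 0 ε, γ, P), ⟨(convex_ball _ _).isPreconnected, mem_ball_self ε0, k1, k2, k3⟩,
      mem_ball_self ε0⟩
  set γ : ℝ → M := fun s => (c s).2.1 s with hγ
  set P : ℝ → Mx n := fun s => (c s).2.2 s with hP
  have eq : ∀ c', L c' → ∀ s ∈ c'.1, γ s = c'.2.1 s ∧ P s = c'.2.2 s := fun c' l s hs => by
    have l' := hc s ⟨c', l, hs⟩
    exact agree l'.1 l.1 l'.2.2.1 l.2.2.1 0 ⟨l'.2.1, l.2.1⟩ (l'.2.2.2.1.trans l.2.2.2.1.symm)
      (l'.2.2.2.2.trans l.2.2.2.2.symm) s ⟨hc' s ⟨c', l, hs⟩, hs⟩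
  have oD : IsOpen D := isOpen_iff_mem_nhds.2 fun s ⟨c', l, hs⟩ =>
    mem_of_superset (l.2.2.1.1.op.mem_nhds hs) fun t ht => ⟨c', l, ht⟩
  have pD : IsPreconnected D := isPreconnected_of_forall 0 fun s ⟨c', l, hs⟩ =>
    ⟨c'.1, fun t ht => ⟨c', l, ht⟩, l.2.1, hs, l.1⟩
  have dD : Dv D γ P v := dv_loc oD fun s ⟨c', l, hs⟩ =>
    ⟨_, _, _, hs, l.2.2.1, (l.2.2.1.1.op.eventually_mem hs).mono (eq c' l)⟩
  have z0 : γ 0 = x ∧ P 0 = 1 := ⟨(hc 0 D0).2.2.2.1, (hc 0 D0).2.2.2.2⟩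
  have cD : IsClosed D := isClosed_of_closure_subset fun s₁ hs₁ => by
    obtain ⟨s₂, k1, ε, ε0, k4, γ', P', d1, d2, d3⟩ := ext a b h1 h2 pD dD D0 hs₁
    have ag := agree pD (convex_ball s₂ ε).isPreconnected dD d1 s₂ ⟨k1, mem_ball_self ε0⟩ d2.symm
      d3.symm
    refine ⟨(D ∪ ball s₂ ε, fun t => if t ∈ D then γ t else γ' t,
      fun t => if t ∈ D then P t else P' t), ⟨pD.union s₂ k1 (mem_ball_self ε0)
        (convex_ball s₂ ε).isPreconnected, Or.inl D0, dv_loc (oD.union isOpen_ball) ?_,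
      (if_pos D0).trans z0.1, (if_pos D0).trans z0.2⟩, Or.inr (mem_ball_comm.1 k4)⟩
    rintro s (hs | hs)
    · exact ⟨_, _, _, hs, dD, (oD.eventually_mem hs).mono fun t ht => ⟨if_pos ht, if_pos ht⟩⟩
    · refine ⟨_, _, _, hs, d1, (isOpen_ball.eventually_mem hs).mono fun t ht => ?_⟩
      by_cases h : t ∈ D
      · exact ⟨(if_pos h).trans (ag t ⟨h, ht⟩).1, (if_pos h).trans (ag t ⟨h, ht⟩).2⟩
      · exact ⟨if_neg h, if_neg h⟩
  rw [IsClopen.eq_univ ⟨cD, oD⟩ ⟨0, D0⟩] at dD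
  exact ⟨γ, P, dD, z0⟩

end Dev

/-- row DEV1 -/
theorem dev1 {n : ℕ} (h1 : AllM n fun M _ _ _ _ _ => STR1 n M)
    (h2 : AllM n fun M _ _ _ _ _ => STR2 n M) : AllM n fun M _ _ _ _ _ => DEV1 n M := by
  intro M _ _ _ _ _ _ _ _ _ _ _ μ k
  refine ⟨fun x v => ?_, fun S γ γ' P P' v hS h h' s₀ hs₀ e1 e2 =>
    Dev.uq k.all.a k.all.b (h1 M μ k) hS h h' hs₀ e1 e2⟩
  obtain ⟨γ, P, d, e1, e2⟩ := Dev.ex k.all.a k.all.b (h1 M μ k) (h2 M μ k) x v
  refine ⟨γ, P, d, e1, e2, fun s => ?_⟩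
  have := Dev.lip k.all.a k.all.b (h1 M μ k) (h2 M μ k) isPreconnected_univ d (mem_univ 0) s
    (mem_univ _) 0 (mem_univ _)
  rwa [sub_zero, gr, e1, e2, Matrix.one_mul, conjTranspose_one, Matrix.mul_one] at this

/-- row DEV2 -/
theorem dev {n : ℕ} (h1 : AllM n fun M _ _ _ _ _ => STR1 n M)
    (h2 : AllM n fun M _ _ _ _ _ => DEV1 n M) : AllM n fun M _ _ _ _ _ => DEV n M :=
  fun M _ _ _ _ _ _ _ _ _ _ _ μ k => Dev.dev_of k.all.a k.all.b (h1 M μ k) (h2 M μ k)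

end Vale.Agent.P253W.X
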