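import Vale.Agent.P253W.X.FibA

/-!
# P253W, row X.FIB: the exponential map gives a fibre
-/

open scoped Manifold ContDiff Bundle ENNReal Topology ComplexConjugate ComplexOrder Matrix
open Bundle IsManifold MeasureTheory Set Metric Filter Vale.Agent.P253.Mfd Vale.Agent.P253Z
open Vale.Agent.P272.K (Cm dz dzb cHess jacM Chart)
open Vale.Agent.P272.K.C2
open Complex (I)

set_option linter.unusedSectionVars false

noncomputable section

namespace Vale.Agent.P253W.X

namespace FibA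

variable {n : ℕ} {M : Type} [MetricSpace M] [ChartedSpace (Cm n) M]

/-- the tautological form as a linear map -/
def Th (γ : Cm n → M) (Q : Cm n → Mx n) (q : Cm n) : Cm n →L[ℝ] Cm n :=
  (vm (Q q)⁻¹).comp (fderiv ℝ (fun p => pc n (γ q) (γ p)) q)

theorem Th_eq (γ : Cm n → M) (Q : Cm n → Mx n) (q v : Cm n) : Th γ Q q v = th γ Q q v := rfl

variable [RiemannianBundle (fun x : M => TangentSpace 𝓘(ℝ, Cm n) x)]

theorem vp_eq (a : B1a n M) (Ω : M → ℂ) {e : Chart n M} (he : Hc e) {y : M} (hy : y ∈ e.source)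
    (Q : Mx n) : Ω y * Q.det = co 1 Ω e (e y) * (fr e y Q).det := by
  have h := congrArg Matrix.det (a.jac_mul _ e _ (a.chart y) he (a.chart y) y
    (mem_chart_source _ y) hy (mem_chart_source _ y))
  rw [a.jac_self _ y (mem_chart_source _ y), Matrix.det_one, Matrix.det_mul] at h
  rw [co, fr, e.left_inv hy, zpow_one, Matrix.det_mul, Matrix.det_transpose]
  linear_combination (Ω y * Q.det) * h

/-- the normalised metric -/
def wm (r : ℝ) (e : Chart n M) (z : Cm n) : Mx n := (((r ^ 2)⁻¹ : ℝ) : ℂ) • hm e z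

theorem wm_det {r : ℝ} (e : Chart n M) (z : Cm n) :
    (wm r e z).det.re = ((r ^ 2)⁻¹) ^ n * vd e z := det_sm _ _

variable [MeasurableSpace M] {μ : Measure M} (A : All0 n μ) {e : Chart n M} (he : Hc e)
  {r : ℝ} (hr : 0 < r)

include A he hr

theorem km {U : Set (Cm n)} (hU : U ⊆ e.target) : KM U (wm r e) := by
  have h0 : 0 < (r ^ 2)⁻¹ := by positivity
  refine ⟨fun z hz i j => contDiffAt_const.mul (A.b.wsm e he z (hU hz) i j), fun z hz =>
    (A.b.wpos e he z (hU hz)).smul (Complex.zero_lt_real.2 h0), fun z hz j k l => ?_,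
    fun z hz X a => ?_⟩
  · have h := fun j k => (A.b.wsm e he z (hU hz) j k).differentiableAt (by simp)
    exact (dz_const_mul l _ (h j k)).trans ((congrArg _ (A.b.wcl e he z (hU hz) j k l)).trans
      (dz_const_mul j _ (h l k)).symm)
  · refine le_of_le_of_eq (mul_nonneg h0.le (A.bk e he z (hU hz) X a)) (bk_sm
      (fun i j => (A.b.wsm e he z (hU hz) i j).of_le (by norm_cast))
      (posDef_det_ne_zero (A.b.wpos e he z (hU hz))) h0.ne' X a).symm

theorem g_sm {z : Cm n} (hz : z ∈ e.target) :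
    ContDiffAt ℝ ∞ (fun y => (wm r e y).det.re) z ∧ 0 < (wm r e z).det.re := by
  simp only [wm_det]
  exact ⟨contDiffAt_const.mul (A.b.vd_sm e he z hz),
    mul_pos (by positivity) (A.b.vd_pos e he z hz)⟩

theorem g_lv {z : Cm n} (hz : z ∈ e.target) (X : Cm n) :
    lv2 (fun y => Real.log (wm r e y).det.re) z X = -(4 * qf (ric e z) X) ∧
      0 ≤ qf (ric e z) X := by
  have h1 : ContDiffAt ℝ 2 (fun y => -Real.log (vd e y)) z :=
    (((A.b.vd_sm e he z hz).of_le (by norm_cast)).log (A.b.vd_pos e he z hz).ne').neg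
  have h2 : qf (ric e z) X = (∑ j, ∑ k, ric e z j k * (X j * conj (X k))).re := by
    simp only [qf, dotProduct, Matrix.mulVec, Finset.mul_sum, Pi.star_apply, Complex.star_def,
      mul_left_comm (X _)]
  refine ⟨?_, h2 ▸ (A.b.psd _ (A.ric e he z hz).isHermitian).1 (A.ric e he z hz) X⟩
  rw [lv2_congr (g := fun y => Real.log (((r ^ 2)⁻¹) ^ n) - -Real.log (vd e y)) (by
    filter_upwards [e.open_target.mem_nhds hz] with y hy
    rw [wm_det, Real.log_mul (by positivity) (A.b.vd_pos e he y hy).ne', sub_neg_eq_add]),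
    lv2_sub, h2]
  exact congrArg _ (A.b.levi _ z X h1)

omit he hr

variable {ex : M → Cm n → M} {pa : M → Cm n → Mx n} {x : M} {P : Mx n} {K : ℝ}
  (d : D ex pa x P r K) (je : JE n) {q : Cm n}

omit A

include d je

theorem D.j1 (q : Cm n) : gr (fE ex x P) (fP pa x P) q = ((r ^ 2 : ℝ) : ℂ) • 1 := by
  have h := (je.choose_spec.choose_spec.2.2 _ _ _ _ _ _ _
    (d.geo (y := id) isOpen_univ fun _ _ => contDiffAt_id) q (mem_univ _)).1 1
  rw [d.H0] at h
  simp only [gr, eγ, eP, one_smul] at h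
  exact h

theorem D.j2 (q v : Cm n) :
    fderiv ℝ en q v = 2 * (th (fE ex x P) (fP pa x P) q v ⬝ᵥ star q).re := by
  have hy : ∀ p ∈ (univ : Set (Cm n)), ContDiffAt ℝ ∞ id p := fun _ _ => contDiffAt_id
  have h := (je.choose_spec.choose_spec.2.2 _ _ _ _ _ _ _ (d.geo isOpen_univ hy) q
    (mem_univ _)).2.1 v
  rw [d.gD, d.H0, (d.th0 isOpen_univ hy (mem_univ _) v).1,
    (d.th1 isOpen_univ hy (mem_univ _) v).1, sub_zero, hf_one, Complex.re_ofReal_mul, fderiv_id,
    fderiv_const_mul (a := fun p => en (id p)) (en_sm.differentiable (by simp) q)] at h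
  refine mul_left_cancel₀ (pow_ne_zero 2 d.r0.ne') (Eq.trans h ?_)
  exact mul_left_comm _ _ _

theorem D.j3 (la : LINA n) (hδ : K * r ^ 2 ≤ je.choose_spec.choose) (hq : q ∈ UB n) (v : Cm n) :
    √(en (v - th (fE ex x P) (fP pa x P) q v)) ≤
      je.choose * (K * r ^ 2) * en q * √(en (th (fE ex x P) (fP pa x P) q v)) ∧
    ‖(om (fE ex x P) (fP pa x P) q v).trace‖ ≤
      n * (je.choose * (K * r ^ 2) * √(en q) * √(en (th (fE ex x P) (fP pa x P) q v))) := by
  have hy : ∀ p ∈ (univ : Set (Cm n)), ContDiffAt ℝ ∞ id p := fun _ _ => contDiffAt_id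
  have hr := d.r0
  have h0 := d.th0 isOpen_univ hy (mem_univ q) v
  have h1 := d.th1 isOpen_univ hy (mem_univ q) v
  rw [fderiv_id] at h1
  have h := (je.choose_spec.choose_spec.2.2 _ _ _ _ _ _ _ (d.geo isOpen_univ hy) q
    (mem_univ _)).2.2.2 0 K 0 (d.cb isOpen_univ hy je (mem_univ _) (le_of_lt hq)) (by
      rw [d.gD, ← mul_assoc]
      exact (mul_le_of_le_one_right (mul_nonneg d.K0 (sq_nonneg r)) (le_of_lt hq)).trans hδ)
    v 0 (th (fE ex x P) (fP pa x P) q v) (K * (r * √(en (th (fE ex x P) (fP pa x P) q v))))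
    (by rw [h0.1, smul_zero]) (by rw [h1.1, smul_zero, sub_zero]; rfl)
    (by rw [d.H0, nr_one hr, norm_zero, mul_zero, zero_add])
  have h2 := (h 0 ⟨le_rfl, zero_le_one⟩).1
  have h3 := (h 1 ⟨zero_le_one, le_rfl⟩).2.2
  simp only [d.gD, d.H0, h0.2, h1.2, nr_one hr, fderiv_id, Matrix.vecMul_zero, add_zero, sub_zero,
    hf_sm, id, ContinuousLinearMap.id_apply, norm_mul, Complex.norm_real,
    Real.norm_of_nonneg (sq_nonneg r), Real.sqrt_mul (sq_nonneg r), Real.sqrt_sq hr.le] at h2 h3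
  refine ⟨le_of_mul_le_mul_left (h2.trans_eq (by ring)) hr, la.tr _ _ fun a b =>
    le_of_mul_le_mul_left ((h3 a b).trans_eq (by ring)) (pow_pos hr 2)⟩

theorem D.uni {e : Chart n M} (he : Hc e) (hq : fE ex x P q ∈ e.source) :
    fr e (fE ex x P q) (fP pa x P q) * wm r e (e (fE ex x P q)) *
      (fr e (fE ex x P q) (fP pa x P q))ᴴ = 1 := by
  rw [wm, Matrix.mul_smul, Matrix.smul_mul,
    ← ((d.s1 _ _ _ _ d.fm1).1 e he q (mem_univ _) hq).2.1, d.j1 je, smul_smul,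
    ← Complex.ofReal_mul, inv_mul_cancel₀ (pow_ne_zero 2 d.r0.ne'), Complex.ofReal_one, one_smul]

theorem D.lev (sv : SV n) (hδ : K * r ^ 2 ≤ sv.choose_spec.choose)
    {B : At (UB n) (Th (fE ex x P) (fP pa x P))} (c1 : B.Cal1) (c2 : B.Cal2) (hq : q ∈ UB n)
    (v : Cm n) : |B.lev en q v - 4 * en (th (fE ex x P) (fP pa x P) q v)| ≤
      sv.choose * (K * r ^ 2) * en q * en (th (fE ex x P) (fP pa x P) q v) := by
  obtain ⟨i, hi⟩ := B.cover q hq
  obtain ⟨l0, l1, l2⟩ := c1.line i q hi v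
  obtain ⟨O, o1, o2, o3⟩ := _root_.eventually_nhds_iff.1 l2
  have hy : ∀ p ∈ O, ContDiffAt ℝ ∞ (B.line i q v) p := fun p hp => (o1 p hp).1
  have h := sv.choose_spec.choose_spec.2.2 O _ _ _ _ _ (d.geo o2 hy) 0 o3 (by
      filter_upwards [o2.mem_nhds o3] with p hp
      rw [(d.th0 o2 hy hp _).1, (d.th0 o2 hy hp _).1, (d.th1 o2 hy hp _).1, (d.th1 o2 hy hp _).1]
      exact ⟨(smul_zero _).symm, by simpa only [smul_eq_mul, mul_one, Th_eq] using (o1 p hp).2 1⟩)
    0 K 0 (d.cb o2 hy je o3 (l0.symm ▸ le_of_lt hq)) (by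
      rw [d.gD, ← mul_assoc, l0]
      exact (mul_le_of_le_one_right (mul_nonneg d.K0 (sq_nonneg r)) (le_of_lt hq)).trans hδ)
    0 (th (fE ex x P) (fP pa x P) q v) (by rw [(d.th0 o2 hy o3 _).1, smul_zero])
    (by rw [(d.th1 o2 hy o3 _).1, l0, l1, smul_zero, sub_zero])
  have s2 : ContDiffAt ℝ 2 en q := en_sm.contDiffAt.of_le (by norm_cast)
  have h1 := c2.pull ℂ _ 0 (fun p => r ^ 2 * en p) (l0.symm ▸ hq) l2
    (l0.symm ▸ contDiffAt_const.mul s2) 1
  rw [l0, l1, c2.smul en _ q hq s2] at h1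
  simp only [d.gD, d.H0, h1, qf_one, l0, zero_mul, add_zero] at h
  rw [mul_left_comm, ← mul_sub, abs_mul, abs_of_nonneg (sq_nonneg r)] at h
  exact le_of_mul_le_mul_left (h.trans_eq (by ring)) (pow_pos d.r0 2)

omit je

theorem D.vp (a : B1a n M) {Ω : M → ℂ} {e : Chart n M} (he : Hc e) (hq : fE ex x P q ∈ e.source) :
    (fun p => Ω (fE ex x P p) * (fP pa x P p).det) =ᶠ[𝓝 q] fun p =>
      co 1 Ω e (e (fE ex x P p)) * (fr e (fE ex x P p) (fP pa x P p)).det :=
  (((continuousOn_univ.1 d.fm1.cont).tendsto q).eventually (e.open_source.mem_nhds hq)).mono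
    fun _ hp => vp_eq a Ω he hp _

theorem D.db (a : B1a n M) {Ω : M → ℂ} (hΩ : IsSec n 1 Ω) (q v v' : Cm n)
    (hv : th (fE ex x P) (fP pa x P) q v' = I • th (fE ex x P) (fP pa x P) q v) :
    DD 1 I v v' (fun p => Ω (fE ex x P p) * (fP pa x P p).det) q =
      Ω (fE ex x P q) * (fP pa x P q).det * ((om (fE ex x P) (fP pa x P) q v).trace +
        I * (om (fE ex x P) (fP pa x P) q v').trace) := by
  have he := a.chart (fE ex x P q)
  have hq := mem_chart_source (Cm n) (fE ex x P q)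
  rw [DD_congr _ _ _ _ (d.vp a he hq), (d.vp a he hq).eq_of_nhds]
  generalize chartAt (Cm n) (fE ex x P q) = e at he hq
  obtain ⟨s1, s2⟩ := d.fm1.sm e he q (mem_univ _) hq
  obtain ⟨t1, -, t2⟩ := (d.s1 _ _ _ _ d.fm1).1 e he q (mem_univ _) hq
  have d1 := s1.differentiableAt (by simp)
  have d2 : MD (fun p => fr e (fE ex x P p) (fP pa x P p)) q := fun i j =>
    (s2 i j).differentiableAt (by simp)
  have d3 := (hΩ e he _ (e.map_source hq)).differentiableAt
  have d4 := (d3.hasFDerivAt.restrictScalars ℝ).comp q d1.hasFDerivAt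
  have e1 : fderiv ℝ (fun p => e (fE ex x P p)) q v' =
      I • fderiv ℝ (fun p => e (fE ex x P p)) q v := by
    rw [← (t2 v).1, ← (t2 v').1, hv, Matrix.smul_vecMul]
  have e2 : DD 1 I v v' (fun p => co 1 Ω e (e (fE ex x P p))) q = 0 := by
    rw [DD, show fderiv ℝ (fun p => co 1 Ω e (e (fE ex x P p))) q = _ from d4.fderiv]
    simp only [ContinuousLinearMap.comp_apply, ContinuousLinearMap.coe_restrictScalars', e1,
      map_smul, smul_eq_mul]
    linear_combination (fderiv ℂ (co 1 Ω e) (e (fE ex x P q))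
      (fderiv ℝ (fun p => e (fE ex x P p)) q v)) * Complex.I_mul_I
  set S := fr e (fE ex x P q) (fP pa x P q) with hS
  have e3 : (Matrix.of fun i j => DD 1 I v v' (fun p => fr e (fE ex x P p) (fP pa x P p) i j) q) =
      (om (fE ex x P) (fP pa x P) q v + I • om (fE ex x P) (fP pa x P) q v') * S := by
    have e4 : ∀ X : Cm n, Gam (hm e) (e (fE ex x P q)) (I • X) =
        I • Gam (hm e) (e (fE ex x P q)) X := fun X => by
      simp only [Gam, DX, Pi.smul_apply, smul_assoc, ← Finset.smul_sum, Matrix.smul_mul]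
    rw [Matrix.add_mul, Matrix.smul_mul, (t2 v).2, (t2 v').2, e1, e4, smul_add, Matrix.mul_smul,
      smul_smul, Complex.I_mul_I, neg_one_smul, add_add_add_comm, add_neg_cancel, add_zero]
    ext i j
    simp [DD, dM]
  rw [DD_mul (f := fun p => co 1 Ω e (e (fE ex x P p))) _ _ _ _ d4.differentiableAt (MC.det (m := 1) fun i j =>
    (s2 i j).of_le (by norm_cast)).differentiableAt_one, e2, DD_det _ _ _ _ d2, e3,
    Matrix.trace_mul_comm, Matrix.mul_assoc, Matrix.mul_adjugate, Matrix.mul_smul, Matrix.mul_one,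
    Matrix.trace_smul, Matrix.trace_add, Matrix.trace_smul]
  simp only [smul_eq_mul]
  ring

theorem D.vp_sm (a : B1a n M) {Ω : M → ℂ} (hΩ : IsSec n 1 Ω) (q : Cm n) :
    ContDiffAt ℝ ∞ (fun p => Ω (fE ex x P p) * (fP pa x P p).det) q := by
  have he := a.chart (fE ex x P q)
  have hq := mem_chart_source (Cm n) (fE ex x P q)
  obtain ⟨s1, s2⟩ := d.fm1.sm _ he q (mem_univ _) hq
  exact ((((hΩ _ he _ (mem_chart_target _ _)).contDiffAt.restrict_scalars ℝ).comp q s1).mul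
    (MC.det s2)).congr_of_eventuallyEq (d.vp a he hq)

include je A

theorem D.vlev {Ω : M → ℂ} (hΩ : IsSec n 1 Ω) (h0 : ∀ y, Ω y ≠ 0)
    {B : At (UB n) (Th (fE ex x P) (fP pa x P))} (c1 : B.Cal1) (c2 : B.Cal2) {i : B.ι}
    {e : Chart n M} (he : Hc e) (h1 : ∀ p ∈ (B.c i).source, fE ex x P p ∈ e.source)
    (h2 : ∀ p, B.c i p = e (fE ex x P p)) (hi : q ∈ (B.c i).source) (v : Cm n) :
    0 ≤ B.lev (fun p => Real.log (‖Ω (fE ex x P p) * (fP pa x P p).det‖ ^ 2)) q v ∧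
      B.lev (fun p => Real.log (‖Ω (fE ex x P p) * (fP pa x P p).det‖ ^ 2)) q v ≤
        4 * (K * r ^ 2) * en (th (fE ex x P) (fP pa x P) q v) := by
  have hq := B.sub i hi
  have hz : ∀ p ∈ (B.c i).source, B.c i p ∈ e.target := fun p hp => h2 p ▸ e.map_source (h1 p hp)
  have nz : ∀ p ∈ (B.c i).source, co 1 Ω e (B.c i p) ≠ 0 := fun p hp => h2 p ▸ left_ne_zero_of_mul
    (vp_eq A.a Ω he (h1 p hp) _ ▸ mul_ne_zero (h0 _) (d.fm1.ne p (mem_univ _)))
  have sc : ContDiffAt ℝ 2 (B.c i) q := (B.sm i q hi).of_le (by norm_cast)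
  have s1 : ContDiffAt ℝ 2 (fun p => Real.log (‖co 1 Ω e (B.c i p)‖ ^ 2)) q :=
    ((((hΩ e he _ (hz q hi)).contDiffAt.restrict_scalars ℝ).comp q sc).norm_sq ℝ).log
      (pow_ne_zero 2 (norm_ne_zero_iff.2 (nz q hi)))
  have g1 := g_sm A he d.r0 (hz q hi)
  have s2 : ContDiffAt ℝ 2 (fun p => Real.log (wm r e (B.c i p)).det.re) q :=
    ((g1.1.of_le (by norm_cast)).comp q sc).log g1.2.ne'
  have ri : ∀ p ∈ (B.c i).source, ∀ᶠ z in 𝓝 (B.c i p), B.c i ((B.c i).symm z) = z := fun p hp =>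
    (B.c i).eventually_right_inverse ((B.c i).map_source hp)
  have e1 := ((c2.nsq (fun p => co 1 Ω e (B.c i p)) q hq (eventually_of_mem
    ((B.c i).open_source.mem_nhds hi) fun p hp => (c1.cr_iff ℂ _ i p hp).2
      ((hΩ e he _ (hz p hp)).differentiableAt.congr_of_eventuallyEq
        ((ri p hp).mono fun z h => congrArg (co 1 Ω e) h))) v).2 (nz q hi))
  obtain ⟨g2, g3⟩ := g_lv A he d.r0 (hz q hi) (fderiv ℝ (B.c i) q v)
  have e2 : B.lev (fun p => Real.log (‖Ω (fE ex x P p) * (fP pa x P p).det‖ ^ 2)) q v =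
      4 * qf (ric e (B.c i q)) (fderiv ℝ (B.c i) q v) := by
    rw [c2.congr _ (fun p => Real.log (‖co 1 Ω e (B.c i p)‖ ^ 2) +
      -1 * Real.log (wm r e (B.c i p)).det.re) q hq (eventually_of_mem
        ((B.c i).open_source.mem_nhds hi) fun p hp => ?_),
      c2.add _ _ q hq s1 (contDiffAt_const.mul s2), e1, c2.smul _ _ q hq s2, c2.eq _ i q hi s2,
      At.lv, lv2_congr (g := fun y => Real.log (wm r e y).det.re)
        ((ri q hi).mono fun z h => by simp only [h]), g2]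
    · ring
    · have h3 := eq_inv_of_mul_eq_one_right (det_uni (d.uni je he (h1 p hp)))
      have h4 := (g_sm A he d.r0 (hz p hp)).2
      have h5 := pow_ne_zero 2 (norm_ne_zero_iff.2 (nz p hp))
      simp only [h2] at h4 h5 ⊢
      rw [vp_eq A.a Ω he (h1 p hp), norm_mul, mul_pow, h3, Real.log_mul h5 (inv_ne_zero h4.ne'),
        Real.log_inv, neg_one_mul]
  obtain ⟨-, t1, t2⟩ := (d.s1 _ _ _ _ d.fm1).1 e he q (mem_univ _) (h1 q hi)
  have e3 := qf_vm (hm e (e (fE ex x P q))) (fr e (fE ex x P q) (fP pa x P q))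
    (th (fE ex x P) (fP pa x P) q v)
  rw [← t1, d.j1 je, qf_one, (t2 v).1, ← funext h2,
    A.b.wch e _ he (A.a.chart _) _ (h1 q hi) (mem_chart_source _ _), qf_pb] at e3
  have e4 := (d.kb _ (d.dist (le_of_lt hq)) (fderiv ℝ (B.c i) q v ᵥ*
    (jacM e (pc n (fE ex x P q)) (fE ex x P q))ᵀ)).1
  rw [e2]
  refine ⟨by positivity, ?_⟩
  rw [h2 q, A.b.ric_ch e _ he (A.a.chart _) _ (h1 q hi) (mem_chart_source _ _), qf_pb]
  refine (mul_le_mul_of_nonneg_left (e4.trans_eq (congrArg (K * ·) e3)) (by norm_num)).trans_eq ?_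
  ring

end FibA

open FibA

theorem fib {n : ℕ} (s1 : AllM n fun M _ _ _ _ _ => STR1 n M)
    (s2 : AllM n fun M _ _ _ _ _ => STR2 n M) (je : JE n) (sv : SV n) (la : LINA n)
    (mk : MKAT (Cm n)) (c1 : ∀ T Θ, ∀ A : At (V := Cm n) T Θ, A.Cal1)
    (c2 : ∀ T Θ, ∀ A : At (V := Cm n) T Θ, A.Cal2) : FIB n := by
  obtain ⟨δ₃, d3, near3⟩ := la.near
  have a1 := je.choose_spec.choose_spec.1
  have a2 := sv.choose_spec.choose_spec.1
  have n0 : (0 : ℝ) ≤ n := Nat.cast_nonneg n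
  obtain ⟨C, hC⟩ : ∃ C : ℝ, C = 2 * (n + 1) * je.choose + sv.choose + 4 := ⟨_, rfl⟩
  have b1 : 2 * je.choose ≤ C ∧ 2 * (n * je.choose) ≤ C ∧ sv.choose ≤ C ∧ 4 ≤ C := by
    refine ⟨?_, ?_, ?_, ?_⟩ <;> nlinarith
  refine ⟨C, min (min je.choose_spec.choose sv.choose_spec.choose) (min (1 / 2) δ₃ / C),
    by linarith, lt_min (lt_min je.choose_spec.choose_spec.2.1 sv.choose_spec.choose_spec.2.1)
      (div_pos (lt_min one_half_pos d3) (by linarith)), ?_⟩
  intro M _ _ _ _ _ _ _ _ _ _ _ μ km ex pa hE Ω hΩ h0 x P r K hr hK hδ hP kb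
  have A := km.all
  have d : D ex pa x P r K := ⟨s1 M μ km, s2 M μ km, hE, hr, hK, hP, kb⟩
  simp only [le_min_iff, le_div_iff₀' (show 0 < C by linarith)] at hδ
  obtain ⟨⟨δ1, δ2⟩, k1, k2⟩ := hδ
  have t0 : 0 ≤ K * r ^ 2 := by positivity
  generalize ht : K * r ^ 2 = t at δ1 δ2 k1 k2 t0
  have κ0 : 0 ≤ C * t := mul_nonneg (by linarith) t0
  have j3 := fun q hq v => ht ▸ d.j3 (q := q) je la (ht ▸ δ1) hq v
  have q1 : ∀ q ∈ UB n, 0 ≤ C * t * en q ∧ C * t * en q ≤ C * t := fun q hq =>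
    ⟨mul_nonneg κ0 (en_nonneg q), mul_le_of_le_one_right κ0 (le_of_lt hq)⟩
  have nr : ∀ q ∈ UB n, ∀ v, en (Th (fE ex x P) (fP pa x P) q v - v) ≤
      (C * t * en q) ^ 2 * en v := fun q hq v => by
    have h1 := mul_le_mul_of_nonneg_right b1.1 (mul_nonneg t0 (en_nonneg q))
    have h2 : 0 ≤ je.choose * t * en q := mul_nonneg (by positivity) (en_nonneg q)
    refine (near h2 (by linarith [q1 q hq]) (j3 q hq v).1).trans (mul_le_mul_of_nonneg_right
      (pow_le_pow_left₀ (by positivity) (by linarith) 2) (en_nonneg v))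
  have q2 : ∀ q ∈ UB n, (C * t * en q) ^ 2 ≤ C * t / 2 := fun q hq => by nlinarith [q1 q hq]
  obtain ⟨B, j, hB⟩ := mk (UB n) (Th (fE ex x P) (fP pa x P)) {e : Chart n M // Hc e}
    (fun e => fE ex x P ⁻¹' e.1.source) (fun e q => e.1 (fE ex x P q)) open_UB
    (fun e => e.1.open_source.preimage (continuousOn_univ.1 d.fm1.cont))
    (fun q _ => ⟨⟨_, A.a.chart (fE ex x P q)⟩, mem_chart_source _ _⟩)
    (fun q hq => (injective_iff_map_eq_zero _).2 fun v hv => by
      have h1 := nr q hq v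
      rw [hv, zero_sub, en_neg] at h1
      exact en_zero (by nlinarith [q2 q hq, en_nonneg v]))
    fun e q _ hq => ⟨(d.fm1.sm _ e.2 q (mem_univ _) hq).1, by
      obtain ⟨t1, -, t2⟩ := (d.s1 _ _ _ _ d.fm1).1 _ e.2 q (mem_univ _) hq
      exact (ex_L t1).imp fun L hL v => ((hL _).trans (t2 v).1).symm⟩
  have hs : ∀ i, ∀ q ∈ (B.c i).source, fE ex x P q ∈ (j i).1.source := fun i q hq => (hB i).1 hq
  have hT : ∀ i, (B.c i).target ⊆ (j i).1.target := fun i z hz => by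
    rw [← (B.c i).right_inv hz, (hB i).2]
    exact (j i).1.map_source (hs i _ ((B.c i).map_target hz))
  have dc : ∀ i, ∀ q ∈ (B.c i).source, ∀ v, fderiv ℝ (B.c i) q v =
      Th (fE ex x P) (fP pa x P) q v ᵥ* fr (j i).1 (fE ex x P q) (fP pa x P q) :=
    fun i q hq v => by
      rw [funext (hB i).2]
      exact (((d.s1 _ _ _ _ d.fm1).1 _ (j i).2 q (mem_univ _) (hs i q hq)).2.2 v).1.symm
  have uni : ∀ i, ∀ q ∈ (B.c i).source, fr (j i).1 (fE ex x P q) (fP pa x P q) *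
      wm r (j i).1 (B.c i q) * (fr (j i).1 (fE ex x P q) (fP pa x P q))ᴴ = 1 := fun i q hq =>
    (hB i).2 q ▸ d.uni je (j i).2 (hs i q hq)
  refine ⟨⟨_, B, fun i q => fr (j i).1 (fE ex x P q) (fP pa x P q), fun i => wm r (j i).1,
    fun q => Ω (fE ex x P q) * (fP pa x P q).det, fun i => co 1 Ω (j i).1, κ0, dc, uni,
    fun i => FibA.km A (j i).2 hr (hT i), nr, fun q _ => d.j2 je q, fun q hq v => ?_,
    fun i => ⟨fun z => (wm r (j i).1 z).det.re, fun z hz => ?_, fun q hq => ?_⟩, ?_,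
    fun q hq => near3 1 _ Matrix.PosDef.one fun v => ?_, fun q _ => d.vp_sm A.a hΩ q,
    fun q _ => mul_ne_zero (h0 _) (d.fm1.ne q (mem_univ _)),
    fun i q hq => (hB i).2 q ▸ vp_eq A.a Ω (j i).2 (hs i q hq) _,
    fun i z hz => hΩ _ (j i).2 z (hT i hz), fun q hq v v' hv => ?_, fun q hq v => ?_⟩,
    d.fm1, d.j1 je, fun _ _ _ => rfl, fun i => ⟨_, (j i).2, fun q hq => ⟨hs i q hq, (hB i).2 q⟩⟩⟩
  · refine (d.lev je sv (ht ▸ δ2) (c1 _ _ B) (c2 _ _ B) hq v).trans ?_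
    have := en_nonneg q
    have := en_nonneg (th (fE ex x P) (fP pa x P) q v)
    rw [ht, Th_eq]
    gcongr
    exact b1.2.2.1
  · have h1 := g_sm A (j i).2 hr (hT i hz)
    refine ⟨h1.1, h1.2, fun X => ?_⟩
    obtain ⟨h2, h3⟩ := g_lv A (j i).2 hr (hT i hz) X
    linarith
  · rw [la.mul _ _ _ (dc i q hq), ← mul_assoc, det_uni (uni i q hq), one_mul]
  · refine (ContinuousLinearMap.continuous_det.comp (continuous_clm_apply.2 fun v =>
      continuous_iff_continuousAt.2 fun q => ?_)).abs.continuousOn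
    exact ((d.s2 _ _ _ _ d.fm1).θ_sm q (mem_univ _) v).continuousAt
  · rw [qf_one', qf_one']
    exact (nr q hq v).trans (mul_le_mul_of_nonneg_right (by linarith [q2 q hq]) (en_nonneg v))
  · have h1 := d.db A.a hΩ q v v' hv
    have h2 := (j3 q hq v).2
    have h3 := (j3 q hq v').2
    rw [show th (fE ex x P) (fP pa x P) q v' = _ from hv, en_smul, Complex.norm_I, one_pow,
      one_mul, Th_eq] at h3
    rw [DD, one_mul] at h1
    have h4 := norm_add_le (om (fE ex x P) (fP pa x P) q v).trace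
      (I * (om (fE ex x P) (fP pa x P) q v').trace)
    rw [norm_mul, Complex.norm_I, one_mul] at h4
    have h5 := mul_le_mul_of_nonneg_right b1.2.1 (show 0 ≤ t * √(en q) *
      √(en (th (fE ex x P) (fP pa x P) q v)) by positivity)
    have h6 := pow_le_pow_left₀ (norm_nonneg _) (h4.trans (show _ ≤ C * t * √(en q) *
      √(en (th (fE ex x P) (fP pa x P) q v)) by linarith)) 2
    rw [mul_pow, mul_pow _ √(en q), Real.sq_sqrt (en_nonneg _), Real.sq_sqrt (en_nonneg _)] at h6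
    rw [h1, norm_mul, mul_pow]
    simp only [Th_eq]
    exact (mul_le_mul_of_nonneg_left h6 (sq_nonneg _)).trans_eq (by ring)
  · obtain ⟨i, hi⟩ := B.cover q hq
    obtain ⟨h1, h2⟩ := d.vlev A je hΩ h0 (c1 _ _ B) (c2 _ _ B) (j i).2 (hs i) (hB i).2 hi v
    refine ⟨h1, h2.trans ?_⟩
    have := en_nonneg (th (fE ex x P) (fP pa x P) q v)
    rw [ht, Th_eq]
    gcongr
    exact b1.2.2.2

end Vale.Agent.P253W.X
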