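import Vale.Agent.P253W.X.Defs

/-!
# P253W, row X.FIB, first part: algebra and the families of radial geodesics
-/

open scoped Manifold ContDiff Bundle ENNReal Topology ComplexConjugate ComplexOrder Matrix
open Bundle IsManifold MeasureTheory Set Metric Filter Vale.Agent.P253.Mfd Vale.Agent.P253Z
open Vale.Agent.P272.K (Cm dz dzb cHess jacM Chart)
open Vale.Agent.P272.K.C2
open Complex (I)

set_option linter.unusedSectionVars false

noncomputable section

namespace Vale.Agent.P253W.X.FibA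

variable {n : ℕ}

theorem qf_vm (H P : Mx n) (a : Cm n) : qf H (a ᵥ* P) = qf (P * H * Pᴴ) a := by
  rw [qf, qf, Matrix.star_vecMul, ← Matrix.mulVec_mulVec, ← Matrix.mulVec_mulVec,
    Matrix.dotProduct_mulVec a P]

theorem qf_pb (J H : Mx n) (a : Cm n) : qf (pb J H) a = qf H (a ᵥ* Jᵀ) := (qf_vm H Jᵀ a).symm

theorem hf_sm (c : ℂ) (N : Mx n) (a b : Cm n) : hf (N * c • (1 : Mx n)) a b = c * hf N a b := by
  rw [hf, hf, Matrix.mul_smul, Matrix.mul_one, Matrix.smul_mulVec, dotProduct_smul, smul_eq_mul]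

theorem hf_one (c : ℂ) (a b : Cm n) : hf (c • (1 : Mx n)) a b = c * (a ⬝ᵥ star b) := by
  rw [hf, Matrix.smul_mulVec, Matrix.one_mulVec, dotProduct_smul, smul_eq_mul]

theorem qf_one (c : ℝ) (a : Cm n) : qf ((c : ℂ) • (1 : Mx n)) a = c * en a := by
  change (hf _ a a).re = _
  rw [hf_one, Complex.re_ofReal_mul, dotProduct, Complex.re_sum, en]
  congr 1
  exact Finset.sum_congr rfl fun i _ => by
    rw [Pi.star_apply, Complex.star_def, Complex.mul_conj, Complex.ofReal_re, Complex.sq_norm]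

theorem qf_one' (a : Cm n) : qf (1 : Mx n) a = en a := by simpa using qf_one 1 a

theorem en_nonneg (a : Cm n) : 0 ≤ en a := Finset.sum_nonneg fun _ _ => sq_nonneg _

theorem nr_one {r : ℝ} (hr : 0 < r) (a : Cm n) :
    nr (((r ^ 2 : ℝ) : ℂ) • (1 : Mx n)) a = r * √(en a) := by
  rw [nr, qf_one, Real.sqrt_mul (sq_nonneg r), Real.sqrt_sq hr.le]

theorem en_add (a b : Cm n) : en (a + b) ≤ 2 * en a + 2 * en b := by
  simp only [en, Finset.mul_sum, ← Finset.sum_add_distrib]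
  refine Finset.sum_le_sum fun i _ => ?_
  have h := pow_le_pow_left₀ (norm_nonneg _) (norm_add_le (a i) (b i)) 2
  rw [Pi.add_apply]
  nlinarith [sq_nonneg (‖a i‖ - ‖b i‖)]

theorem en_smul (c : ℂ) (a : Cm n) : en (c • a) = ‖c‖ ^ 2 * en a := by
  simp only [en, Finset.mul_sum, Pi.smul_apply, norm_smul, mul_pow]

theorem en_smul' (c : ℝ) (a : Cm n) : en (c • a) = c ^ 2 * en a := by
  simp only [en, Finset.mul_sum, Pi.smul_apply, norm_smul, mul_pow, Real.norm_eq_abs, sq_abs]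

theorem en_neg (a : Cm n) : en (-a) = en a := by simp [en]

theorem en_zero {a : Cm n} (h : en a ≤ 0) : a = 0 := funext fun i => by
  have h1 := (Finset.single_le_sum (f := fun i => ‖a i‖ ^ 2) (fun _ _ => sq_nonneg _)
    (Finset.mem_univ i)).trans h
  exact norm_eq_zero.1 (pow_eq_zero_iff two_ne_zero |>.1 (le_antisymm h1 (sq_nonneg _)))

theorem en_sm : ContDiff ℝ ∞ (en : Cm n → ℝ) :=
  ContDiff.sum fun i _ => (contDiff_norm_sq ℝ).comp (contDiff_apply ℝ ℂ i)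

theorem open_UB : IsOpen (UB n) := isOpen_lt en_sm.continuous continuous_const

theorem near {v W : Cm n} {a : ℝ} (h0 : 0 ≤ a) (h1 : a ≤ 1 / 2)
    (h : √(en (v - W)) ≤ a * √(en W)) : en (W - v) ≤ (2 * a) ^ 2 * en v := by
  have h2 := pow_le_pow_left₀ (Real.sqrt_nonneg _) h 2
  rw [mul_pow, Real.sq_sqrt (en_nonneg _), Real.sq_sqrt (en_nonneg _), ← neg_sub, en_neg] at h2
  have h3 := en_add v (W - v)
  rw [add_sub_cancel] at h3
  have h4 : a ^ 2 ≤ 1 / 4 := by nlinarith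
  have h5 := en_nonneg W
  have h6 : en W ≤ 4 * en v := by nlinarith
  nlinarith [sq_nonneg a]

/-- right multiplication by a matrix -/
def vm (N : Mx n) : Cm n →L[ℝ] Cm n :=
  LinearMap.toContinuousLinearMap ((Matrix.vecMulLinear N).restrictScalars ℝ)

theorem ex_L {N : Mx n} (h : N.det ≠ 0) : ∃ L : Cm n ≃L[ℂ] Cm n, ∀ v, L v = v ᵥ* N :=
  ⟨(LinearEquiv.ofInjectiveEndo (Matrix.vecMulLinear N) (Matrix.vecMul_injective_of_isUnit
    ((Matrix.isUnit_iff_isUnit_det N).2 (Ne.isUnit h)))).toContinuousLinearEquiv, fun _ => rfl⟩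

theorem det_sm (c : ℝ) (H : Mx n) : ((c : ℂ) • H).det.re = c ^ n * H.det.re := by
  rw [Matrix.det_smul, Fintype.card_fin, ← Complex.ofReal_pow, Complex.re_ofReal_mul]

theorem det_uni {S W : Mx n} (h : S * W * Sᴴ = 1) : W.det.re * ‖S.det‖ ^ 2 = 1 := by
  have h1 := congrArg Matrix.det h
  rw [Matrix.det_mul, Matrix.det_mul, Matrix.det_conjTranspose, Matrix.det_one, mul_right_comm,
    Complex.star_def, Complex.mul_conj, ← Complex.sq_norm] at h1
  have h2 := congrArg Complex.re h1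
  rwa [Complex.re_ofReal_mul, mul_comm] at h2

theorem bk_sm {W : Cm n → Mx n} {z : Cm n} (hW : MC 2 W z) (h0 : (W z).det ≠ 0) {c : ℝ}
    (hc : c ≠ 0) (X a : Cm n) : bk (fun y => (c : ℂ) • W y) z X a = c * bk W z X a := by
  have c0 : (c : ℂ) ≠ 0 := Complex.ofReal_ne_zero.2 hc
  have d1 : ∀ {V : Cm n → Mx n} {y : Cm n} (k : Fin n), MD V y →
      DM k (fun y => (c : ℂ) • V y) y = (c : ℂ) • DM k V y := fun k h =>
    Matrix.ext fun i j => dz_const_mul k _ (h i j)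
  have d2 : ∀ {y : Cm n} (k : Fin n), MD W y →
      DMb k (fun y => (c : ℂ) • W y) y = (c : ℂ) • DMb k W y := fun k h =>
    Matrix.ext fun i j => dzb_const_mul k _ (h i j)
  have h1 : MC 1 W z := hW.mono (by norm_num)
  have e : ∀ k l, RM k l (fun y => (c : ℂ) • W y) z = (c : ℂ) • RM k l W z := fun k l => by
    have e1 : DMb l (fun y => (c : ℂ) • W y) =ᶠ[𝓝 z] fun y => (c : ℂ) • DMb l W y :=
      (MC.eventually (q := 1) h1).mono fun y hy => d2 l (hy.md one_ne_zero)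
    have := invertibleOfNonzero c0
    rw [RM, RM, D2, D2, DM_congr e1, d1 k ((hW.DMb (m' := 1) (by norm_num)).md one_ne_zero),
      d1 k (h1.md one_ne_zero), d2 l (h1.md one_ne_zero), Matrix.inv_smul _ _ h0.isUnit]
    simp only [Matrix.smul_mul, Matrix.mul_smul, smul_smul, smul_add, smul_neg, invOf_eq_inv,
      inv_mul_cancel₀ c0, mul_one]
  simp only [bk, Kxx, e, smul_comm _ (c : ℂ), ← Finset.smul_sum, qf, Matrix.smul_mulVec,
    dotProduct_smul, smul_eq_mul, Complex.re_ofReal_mul]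

theorem lv2_congr {V : Type} [NormedAddCommGroup V] [NormedSpace ℝ V] [NormedSpace ℂ V]
    {f g : V → ℝ} {z : V} (h : f =ᶠ[𝓝 z] g) (X : V) : lv2 f z X = lv2 g z X := by
  rw [lv2, lv2, (h.fderiv (𝕜 := ℝ)).fderiv_eq]

theorem lv2_sub {V : Type} [NormedAddCommGroup V] [NormedSpace ℝ V] [NormedSpace ℂ V]
    (c : ℝ) (f : V → ℝ) (z X : V) : lv2 (fun y => c - f y) z X = -lv2 f z X := by
  rw [lv2, lv2, show fderiv ℝ (fun y => c - f y) = fun y => -fderiv ℝ f y from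
    funext fun y => fderiv_const_sub c, fderiv_fun_neg]
  simp only [neg_apply]
  ring

variable {M : Type} [MetricSpace M] [ChartedSpace (Cm n) M]
  [RiemannianBundle (fun x : M => TangentSpace 𝓘(ℝ, Cm n) x)]
  {E : Type} [NormedAddCommGroup E] [NormedSpace ℝ E]

omit [RiemannianBundle (fun x : M => TangentSpace 𝓘(ℝ, Cm n) x)] in
theorem fm0 {U : Set E} (hU : IsOpen U) (x : M) {P : Mx n} (hP : P.det ≠ 0) :
    FM U (fun _ : E => x) fun _ => P :=
  ⟨hU, continuousOn_const, fun _ _ _ _ _ => ⟨contDiffAt_const, fun _ _ => contDiffAt_const⟩,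
    fun _ _ => hP⟩

theorem th_const (x : M) (P : Mx n) (q v : E) :
    th (fun _ : E => x) (fun _ => P) q v = 0 ∧ om (fun _ : E => x) (fun _ => P) q v = 0 := by
  have h : vel n (fun _ : E => x) q v = 0 := by simp [vel]
  have h1 : dM (fun _ : E => fr (pc n x) x P) q v = 0 := Matrix.ext fun i j => by simp [dM]
  simp [th, om, h, h1, Gam, DX]

theorem fd (p v : E) (s : ℝ) : fderiv ℝ (fun q : E => (q, s)) p v = (v, 0) := by
  rw [(hasFDerivAt_prodMk_left (𝕜 := ℝ) p s).fderiv]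
  rfl

/-- the data -/
structure D (ex : M → Cm n → M) (pa : M → Cm n → Mx n) (x : M) (P : Mx n) (r K : ℝ) : Prop where
  s1 : STR1 n M
  s2 : STR2 n M
  hE : Ex ex pa
  r0 : 0 < r
  K0 : 0 ≤ K
  hP : P * hx n x * Pᴴ = ((r ^ 2 : ℝ) : ℂ) • 1
  kb : KB n x r K

variable {ex : M → Cm n → M} {pa : M → Cm n → Mx n} {x : M} {P : Mx n} {r K : ℝ}
  (d : D ex pa x P r K) {O : Set E} {y : E → Cm n} {p : E}

include d

theorem D.ne : P.det ≠ 0 := fun h => by
  have h1 := congrArg Matrix.det d.hP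
  rw [Matrix.det_mul, Matrix.det_mul, h, zero_mul, zero_mul, Matrix.det_smul, Matrix.det_one,
    mul_one] at h1
  exact pow_ne_zero _ (Complex.ofReal_ne_zero.2 (pow_ne_zero 2 d.r0.ne')) h1.symm

theorem D.H0 (y : E → Cm n) (p : E) : gr (eγ ex (fun _ => x) (fun _ => P) y)
    (eP pa (fun _ => x) (fun _ => P) y) (p, 0) = ((r ^ 2 : ℝ) : ℂ) • 1 := by
  simp only [gr, eγ, eP, zero_smul, Matrix.zero_vecMul, d.hE.ex0, d.hE.pa0, Matrix.mul_one, d.hP]

theorem D.gD (y : E → Cm n) : gD (gr (eγ ex (fun _ => x) (fun _ => P) y)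
    (eP pa (fun _ => x) (fun _ => P) y)) y = fun p => r ^ 2 * en (y p) :=
  funext fun p => by rw [X.gD, d.H0, qf_one]

variable [FiniteDimensional ℝ E] (hO : IsOpen O) (hy : ∀ p ∈ O, ContDiffAt ℝ ∞ y p)

include hO hy

theorem D.fm : FM (O ×ˢ univ) (eγ ex (fun _ => x) (fun _ => P) y)
    (eP pa (fun _ => x) (fun _ => P) y) := (d.hE.fm E O _ _ y (fm0 hO x d.ne) hy).1

theorem D.geo : Geo O y
    (th (eγ ex (fun _ => x) (fun _ => P) y) (eP pa (fun _ => x) (fun _ => P) y))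
    (om (eγ ex (fun _ => x) (fun _ => P) y) (eP pa (fun _ => x) (fun _ => P) y))
    (gr (eγ ex (fun _ => x) (fun _ => P) y) (eP pa (fun _ => x) (fun _ => P) y))
    (cu (eγ ex (fun _ => x) (fun _ => P) y) (eP pa (fun _ => x) (fun _ => P) y)) :=
  have h := (d.hE.fm E O _ _ y (fm0 hO x d.ne) hy).2
  ⟨hO, d.s2 _ _ _ _ (d.fm hO hy), hy, fun p hp s => (h p hp s).1, fun p hp s => (h p hp s).2⟩

theorem D.slice (s : ℝ) : FM O (fun q => ex x ((s • y q) ᵥ* P))
    (fun q => P * pa x ((s • y q) ᵥ* P)) ∧ ∀ p ∈ O, ∀ v,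
    th (fun q => ex x ((s • y q) ᵥ* P)) (fun q => P * pa x ((s • y q) ᵥ* P)) p v =
      th (eγ ex (fun _ => x) (fun _ => P) y) (eP pa (fun _ => x) (fun _ => P) y) (p, s) (v, 0) ∧
    om (fun q => ex x ((s • y q) ᵥ* P)) (fun q => P * pa x ((s • y q) ᵥ* P)) p v =
      om (eγ ex (fun _ => x) (fun _ => P) y) (eP pa (fun _ => x) (fun _ => P) y) (p, s) (v, 0) := by
  obtain ⟨h1, h2⟩ := (d.s1 _ _ _ _ (d.fm hO hy)).2.2 E O (fun q => (q, s)) hO fun q hq =>
    ⟨⟨hq, mem_univ _⟩, contDiffAt_id.prodMk contDiffAt_const⟩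
  exact ⟨h1, fun p hp v => fd p v s ▸ h2 p hp v⟩

theorem D.th0 (hp : p ∈ O) (v : E) :
    th (eγ ex (fun _ => x) (fun _ => P) y) (eP pa (fun _ => x) (fun _ => P) y) (p, 0) (v, 0) = 0 ∧
    om (eγ ex (fun _ => x) (fun _ => P) y) (eP pa (fun _ => x) (fun _ => P) y) (p, 0) (v, 0) =
      0 := by
  have h := (d.slice hO hy 0).2 p hp v
  simp only [zero_smul, Matrix.zero_vecMul, d.hE.ex0, d.hE.pa0, Matrix.mul_one, th_const] at h
  exact ⟨h.1.symm, h.2.symm⟩

omit hO hy in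
theorem D.fm1 : FM univ (fE ex x P) (fP pa x P) := by
  have h := (d.slice (y := id) isOpen_univ (fun _ _ => contDiffAt_id) 1).1
  simp only [one_smul] at h
  exact h

theorem D.th1 (hp : p ∈ O) (v : E) :
    th (eγ ex (fun _ => x) (fun _ => P) y) (eP pa (fun _ => x) (fun _ => P) y) (p, 1) (v, 0) =
      th (fE ex x P) (fP pa x P) (y p) (fderiv ℝ y p v) ∧
    om (eγ ex (fun _ => x) (fun _ => P) y) (eP pa (fun _ => x) (fun _ => P) y) (p, 1) (v, 0) =
      om (fE ex x P) (fP pa x P) (y p) (fderiv ℝ y p v) := by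
  have h := (d.slice hO hy 1).2 p hp v
  simp only [one_smul] at h
  have h1 := ((d.s1 _ _ _ _ d.fm1).2.2 E O y hO fun q hq => ⟨mem_univ _, hy q hq⟩).2 p hp v
  exact ⟨h.1.symm.trans h1.1, h.2.symm.trans h1.2⟩

omit hO hy in
theorem D.dist {a : Cm n} (ha : en a ≤ 1) : dist (ex x (a ᵥ* P)) x ≤ r := by
  refine (d.hE.dist _ _).trans ?_
  rw [nr, qf_vm, d.hP, ← nr, nr_one d.r0]
  exact mul_le_of_le_one_right d.r0.le (Real.sqrt_le_one.2 ha)

theorem D.cb (je : JE n) (hp : p ∈ O) (h1 : en (y p) ≤ 1) :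
    CB (gr (eγ ex (fun _ => x) (fun _ => P) y) (eP pa (fun _ => x) (fun _ => P) y))
      (cu (eγ ex (fun _ => x) (fun _ => P) y) (eP pa (fun _ => x) (fun _ => P) y)) p 0 K 0 := by
  obtain ⟨C, δ, -, -, h⟩ := je
  have h2 := (h E O y _ _ _ _ (d.geo hO hy) p hp).1
  refine ⟨d.K0, le_rfl, fun s hs a => ⟨fun b => ?_, by simp [qf]⟩⟩
  have h3 := (d.s1 _ _ _ _ (d.fm hO hy)).2.1 (p, s) ⟨hp, mem_univ _⟩
  rw [← h2 s, (h3 a b).1, (h3 a b).2, (h3 b b).2]
  refine (d.kb _ (d.dist ?_) _).2 _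
  rw [en_smul']
  exact mul_le_one₀ (pow_le_one₀ hs.1 hs.2) (en_nonneg _) h1

end Vale.Agent.P253W.X.FibA
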