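import Vale.Agent.P253W.X.Defs
import Vale.Agent.P253W.Asm

/-!
# P253W, block X: the assembly of `G1`
-/

open scoped Manifold ContDiff Bundle ENNReal Topology ComplexConjugate ComplexOrder Matrix
open Bundle IsManifold MeasureTheory Set Metric Filter Vale.Agent.P253.Mfd Vale.Agent.P253Z
open Vale.Agent.P272.K (Cm dz dzb cHess jacM Chart)

noncomputable section

namespace Vale.Agent.P253W.X

namespace Sl

variable {n : ℕ}

theorem qf_smul (c : ℝ) (B : Mx n) (v : Cm n) : qf ((c : ℂ) • B) v = c * qf B v := by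
  unfold qf
  rw [Matrix.smul_mulVec, dotProduct_smul, smul_eq_mul, Complex.re_ofReal_mul]

theorem qf_sub (A B : Mx n) (v : Cm n) : qf (A - B) v = qf A v - qf B v := by
  unfold qf
  rw [Matrix.sub_mulVec, dotProduct_sub, Complex.sub_re]

theorem qf_nonneg {A : Mx n} (h : A.PosSemidef) (v : Cm n) : 0 ≤ qf A v := by
  have h1 := h.dotProduct_mulVec_nonneg (star v)
  rw [star_star] at h1
  exact (Complex.nonneg_iff.1 h1).1

theorem qf_one (v : Cm n) : qf 1 v = ∑ i, ‖v i‖ ^ 2 := by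
  unfold qf
  rw [Matrix.one_mulVec, dotProduct, Complex.re_sum]
  refine Finset.sum_congr rfl fun i _ => ?_
  rw [Pi.star_apply, Complex.star_def, Complex.mul_conj, Complex.ofReal_re, Complex.normSq_eq_norm_sq]

/-- a Hermitian matrix is determined by its quadratic form -/
theorem eq_of_qf {A B : Mx n} (hA : A.IsHermitian) (hB : B.IsHermitian)
    (h : ∀ v, qf A v = qf B v) : A = B := by
  have key : ∀ C : Mx n, C.IsHermitian → (∀ v, qf C v = 0) → C.PosSemidef := fun C hC h0 =>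
    Matrix.PosSemidef.of_dotProduct_mulVec_nonneg hC fun x => by
      have h1 := h0 (star x)
      unfold qf at h1
      rw [star_star] at h1
      have h2 := hC.im_star_dotProduct_mulVec_self x
      exact le_of_eq (Complex.ext h1.symm h2.symm)
  have h1 := key (A - B) (hA.sub hB) fun v => by rw [qf_sub, h, sub_self]
  ext i j
  have h2 : ∀ x, (A - B) *ᵥ x = 0 := fun x => by
    rw [← h1.dotProduct_mulVec_zero_iff]
    have h3 : qf (A - B) (star x) = 0 := by rw [qf_sub, h, sub_self]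
    unfold qf at h3
    rw [star_star] at h3
    exact Complex.ext h3 ((hA.sub hB).im_star_dotProduct_mulVec_self x)
  have h3 := congrFun (h2 (Pi.single j 1)) i
  simpa [sub_eq_zero] using h3

variable {M : Type} [MetricSpace M] [ChartedSpace (Cm n) M]
  [RiemannianBundle fun x : M => TangentSpace 𝓘(ℝ, Cm n) x] [MeasurableSpace M]
  [IsManifold 𝓘(ℝ, Cm n) ∞ M] [ConnectedSpace M] [NoncompactSpace M] {μ : Measure M}
  {F : Flow n M} {A : Fam F} {T : F.TA μ}

theorem km (p : P2 A T) {t : ℝ} (ht : 0 ≤ t) : Km (M := Wm (A.G t)) n (F.vol μ t) :=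
  ⟨p.c.npos, A.kahler t ht, p.s3b.all t ht⟩

theorem hc (p : P2 A T) (x : M) : Hc (pc n x) := (p.s3b.all 0 le_rfl).a.chart x

theorem hx_eq (p : P2 A T) {t : ℝ} (ht : 0 ≤ t) (x : M) :
    hx (M := Wm (A.G t)) n x = F.gx t x :=
  A.hm_eq t ht _ (hc p x) _ (mem_chart_target _ x)

omit [MeasurableSpace M] [NoncompactSpace M] in
theorem hm_ev {t : ℝ} (ht : 0 ≤ t) {e : Chart n M} (he : Hc e) {z : Cm n} (hz : z ∈ e.target) :
    hm (M := Wm (A.G t)) e =ᶠ[𝓝 z] F.g t e :=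
  mem_of_superset (e.open_target.mem_nhds hz) fun y hy => A.hm_eq t ht e he y hy

theorem cHess_congr {f g : Cm n → ℝ} {z : Cm n} (h : f =ᶠ[𝓝 z] g) : cHess f z = cHess g z := by
  ext j k
  have h1 : (dzb k fun y => (f y : ℂ)) =ᶠ[𝓝 z] dzb k fun y => (g y : ℂ) := by
    filter_upwards [h.eventuallyEq_nhds] with w hw
    have h2 : (fun y => (f y : ℂ)) =ᶠ[𝓝 w] fun y => (g y : ℂ) := hw.mono fun y hy => congrArg (fun r : ℝ => (r : ℂ)) hy
    unfold dzb
    rw [h2.fderiv_eq]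
  simp only [cHess, Matrix.of_apply]
  unfold dz
  rw [h1.fderiv_eq]

theorem bk_congr {W W' : Cm n → Mx n} {z : Cm n} (h : W =ᶠ[𝓝 z] W') (a b : Cm n) :
    bk W z a b = bk W' z a b := by
  have e1 : ∀ {W W' : Cm n → Mx n} {z : Cm n}, W =ᶠ[𝓝 z] W' → ∀ k,
      P272.K.C2.DM k W z = P272.K.C2.DM k W' z ∧ P272.K.C2.DMb k W z = P272.K.C2.DMb k W' z := by
    intro W W' z h k
    constructor <;> ext i j
    · have h2 : (fun y => W y i j) =ᶠ[𝓝 z] fun y => W' y i j :=
        h.mono fun y hy => congrFun (congrFun hy i) j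
      simp only [P272.K.C2.DM_apply]
      unfold dz
      rw [h2.fderiv_eq]
    · have h2 : (fun y => W y i j) =ᶠ[𝓝 z] fun y => W' y i j :=
        h.mono fun y hy => congrFun (congrFun hy i) j
      simp only [P272.K.C2.DMb_apply]
      unfold dzb
      rw [h2.fderiv_eq]
  have e2 : ∀ k l, P272.K.C2.RM k l W z = P272.K.C2.RM k l W' z := fun k l => by
    have h3 : P272.K.C2.DMb l W =ᶠ[𝓝 z] P272.K.C2.DMb l W' :=
      h.eventuallyEq_nhds.mono fun w hw => (e1 hw l).2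
    unfold P272.K.C2.RM P272.K.C2.D2
    rw [(e1 h k).1, (e1 h l).2, (e1 h3 k).1, h.self_of_nhds]
  unfold bk Kxx
  simp only [e2]

theorem ric_eq (p : P2 A T) {t : ℝ} (ht : 0 ≤ t) {e : Chart n M} (he : Hc e) {z : Cm n}
    (hz : z ∈ e.target) : ric (M := Wm (A.G t)) e z = hs (F.u t) e z := by
  rw [p.b2.u_hs t ht e he z hz]
  exact cHess_congr ((hm_ev (A := A) ht he hz).mono fun y hy =>
    congrArg (fun B : Mx n => -Real.log B.det.re) hy)

/-- a bound for the scalar curvature bounds the curvature -/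
theorem kb (p : P2 A T) {t : ℝ} (ht : 0 ≤ t) {x : M} {r K : ℝ}
    (h : ∀ q, A.d t q x ≤ r → F.R t q ≤ K) : KB (M := Wm (A.G t)) n x r K := by
  intro (q : M) hq a
  have h1 := hc p q
  have h2 : pc n q q ∈ (pc n q).target := mem_chart_target _ q
  have h3 : ∀ b, qf (hs (F.u t) (pc n q) (pc n q q)) b ≤ K * qf (F.gx t q) b := fun b => by
    have h4 := qf_nonneg (p.s3a.ric_le t ht _ h1 _ h2) b
    rw [qf_sub, qf_smul, (pc n q).left_inv (mem_chart_source _ q)] at h4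
    have h5 := mul_le_mul_of_nonneg_right (h q hq)
      (qf_nonneg (p.is.pos t ht _ h1 _ h2).posSemidef b)
    exact (sub_nonneg.1 h4).trans h5
  refine ⟨?_, fun b => ?_⟩
  · exact ((congrArg (qf · a) (ric_eq p ht h1 h2)).trans_le (h3 a)).trans_eq
      (congrArg (fun B => K * qf B a) (hx_eq p ht q).symm)
  · refine le_of_le_of_eq ?_ (congrArg (fun B => K * qf B a * qf B b) (hx_eq p ht q).symm)
    refine (bk_congr (hm_ev (A := A) ht h1 h2) a b).trans_le ((p.s3a.bk t ht _ h1 _ h2 a b).2.trans ?_)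
    have h5 := mul_le_mul_of_nonneg_left (h3 b)
      (qf_nonneg (p.is.pos t ht _ h1 _ h2).posSemidef a)
    refine h5.trans (le_of_eq ?_)
    unfold Flow.gx
    ring

theorem num {a s C D x N : ℝ} (ha : 0 < a) (ha1 : a ^ 2 ≤ 1) (hC : 1 ≤ C) (hD : C / a ^ 2 ≤ D)
    (hx : 0 ≤ x) (b1 : (a * s) ^ 2 * x ≤ C * N) (b2 : N ≤ C * ((a * s) ^ 2 * x)) :
    s ^ 2 * x ≤ D * N ∧ N ≤ D * (s ^ 2 * x) := by
  have b0 : C ≤ C / a ^ 2 := by rw [le_div_iff₀ (by positivity)]; nlinarith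
  have b4 : 0 ≤ s ^ 2 * x := by positivity
  have b5 : 0 ≤ N := by
    have : 0 ≤ C * N := le_trans (by positivity) b1
    exact nonneg_of_mul_nonneg_right (by rwa [mul_comm] at this) (by linarith)
  have b6 : (a * s) ^ 2 * x = s ^ 2 * x * a ^ 2 := by ring
  constructor
  · refine le_trans ?_ (mul_le_mul_of_nonneg_right hD b5)
    rw [div_mul_eq_mul_div, le_div_iff₀ (by positivity)]
    linarith
  · refine b2.trans (mul_le_mul (b0.trans hD) ?_ (by positivity) (by linarith))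
    nlinarith

end Sl

variable {n : ℕ} {M : Type} [MetricSpace M] [ChartedSpace (Cm n) M] [IsManifold 𝓘(ℂ, Cm n) 1 M]
  [RiemannianBundle fun x : M => TangentSpace 𝓘(ℝ, Cm n) x] [MeasurableSpace M] [BorelSpace M]
  [IsManifold 𝓘(ℝ, Cm n) ∞ M] [ConnectedSpace M] [NoncompactSpace M] {μ : Measure M}
  {F : Flow n M} {A : Fam F} {T : F.TA μ}

open Sl in
theorem g1_of (h1 : AllM n fun M _ _ _ _ _ => DEV n M) (h2 : FIB n) (h3 : G1F n)
    (h4 : AllM n fun M _ _ _ _ _ => CHT n M) (h5 : MULT n) (p : P2 A T) : F.G1 μ A.d := by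
  obtain ⟨C₁, δ, hC₁, hδ, h2⟩ := h2
  obtain ⟨κ₀, c, c', C, hκ, hc, -, -, hC, h3⟩ := h3
  obtain ⟨c₂, C₂, hc₂, hc₂', hC₂, h5⟩ := h5 C hC
  obtain ⟨a, ha, ha1, ha2, ha3⟩ : ∃ a : ℝ, 0 < a ∧ a ≤ 1 ∧ a ≤ δ ∧ C₁ * a ≤ κ₀ :=
    ⟨min (min 1 δ) (κ₀ / C₁), by positivity, (min_le_left _ _).trans (min_le_left _ _),
      (min_le_left _ _).trans (min_le_right _ _), by
        rw [mul_comm, ← le_div_iff₀ (by positivity)]; exact min_le_right _ _⟩
  have haa : a ^ 2 ≤ a := by nlinarith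
  have ha2' : a ^ 2 ≤ 1 := haa.trans ha1
  refine ⟨c * a, c₂ * a, max (C / a ^ 2) C₂, by positivity, by positivity, by nlinarith,
    hC₂.trans (le_max_right _ _), fun t s x L ht hs hR hL => ?_⟩
  have := p.s3b.cpl t ht.le
  have k := km p ht.le
  obtain ⟨ex, pa, hE⟩ := h1 _ _ k
  have hK : (1 / s ^ 2) * (a * s) ^ 2 = a ^ 2 := by field_simp
  have hpos := p.is.pos t ht.le _ (Sl.hc p x) _ (mem_chart_target _ x)
  have hP : (((a * s : ℝ) : ℂ) • Lᵀ) * hx (M := Wm (A.G t)) n x * (((a * s : ℝ) : ℂ) • Lᵀ)ᴴ =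
      (((a * s) ^ 2 : ℝ) : ℂ) • (1 : Mx n) := by
    have e1 : pb L (F.gx t x) = 1 := eq_of_qf
      (by
        have := Matrix.isHermitian_mul_mul_conjTranspose Lᵀ hpos.isHermitian
        exact this) Matrix.isHermitian_one fun v => by rw [qf_pb, qf_one]; exact hL v
    rw [hx_eq p ht.le, Matrix.conjTranspose_smul, Matrix.smul_mul, Matrix.smul_mul, Matrix.mul_smul,
      smul_smul, ← e1]
    congr 1
    simp [sq]
  obtain ⟨Φ, hΦ⟩ := h2 _ _ k ex pa hE F.Ω p.is.sec p.is.ne x _ (a * s) (1 / s ^ 2) (by positivity)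
    (by positivity) (by rw [hK]; linarith) hP
    (kb p ht.le fun q hq => by
      rw [le_div_iff₀ (by positivity), mul_comm]
      exact hR q (hq.trans (by nlinarith)))
  obtain ⟨z, Λ, hG⟩ := h3 _ (by rw [hK]; nlinarith) Φ
  obtain ⟨hCh, hd, -⟩ := h4 _ _ k ex pa hE x _ (a * s) _ c c' C Φ z Λ (by positivity) hΦ hG
  refine ⟨_, hCh.hol, hCh.zero, fun v => (hd v).trans ?_, fun y hy => ⟨?_, fun v => ?_⟩,
    fun G hG => ?_⟩
  · rw [Matrix.vecMul_smul, Matrix.vecMul_transpose, smul_smul]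
    congr 1
    push_cast
    ring
  · exact (hCh.dist y hy).trans (by nlinarith)
  · obtain ⟨b1, b2⟩ := hCh.met y hy v
    have e := congrArg (fun B => qf B (dn (M := Wm (A.G t))
      (fun y => fE ex x (((a * s : ℝ) : ℂ) • Lᵀ) (Λ y)) y v))
      (hx_eq p ht.le (fE ex x (((a * s : ℝ) : ℂ) • Lᵀ) (Λ y)))
    replace b1 := b1.trans_eq (congrArg (C * ·) e)
    replace b2 := e.symm.trans_le b2
    clear e
    exact num ha ha2' hC (le_max_left _ _) (by positivity) b1 b2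
  · have b1 := h5 _ _ k x (a * s) _ (by positivity) hCh G hG
    refine le_trans ?_ (b1.trans (mul_le_mul_left (ENNReal.ofReal_le_ofReal (le_max_right _ _)) _))
    refine mul_le_mul' (lintegral_mono_set (ball_subset_ball (by nlinarith))) (le_of_eq ?_)
    rw [mul_assoc]
    rfl

end Vale.Agent.P253W.X
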