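import Vale.Agent.P253W.X.Mat
import Vale.Agent.P253W.X.FibA

/-!
# P253W, row X.G1B: the holomorphic map is an immersion on a ball of uniform size
-/

open scoped Manifold ContDiff Bundle ENNReal Topology ComplexConjugate ComplexOrder Matrix
open MeasureTheory Set Metric Filter Vale.Agent.P253.Mfd Vale.Agent.P253Z
open Vale.Agent.P272.K (Cm)
open Complex (I)

noncomputable section

namespace Vale.Agent.P253W.X

namespace G1b

variable {n : ℕ} {κ : ℝ}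

theorem vol_UB : volume (UB n) ≠ ⊤ := by
  refine ((measure_mono fun y hy => ?_).trans_lt
    (measure_closedBall_lt_top (x := (0 : Cm n)) (r := 1))).ne
  rw [mem_closedBall_zero_iff]
  exact (pow_le_one_iff_of_nonneg (norm_nonneg y) two_ne_zero).1
    ((sq_le_en y).trans (le_of_lt hy))

theorem int_le {S : Set (Cm n)} (hS : MeasurableSet S) (hU : S ⊆ UB n) {f g : Cm n → ℝ}
    {a b c : ℝ} (ha : 0 ≤ a) (hb : 0 ≤ b) (hc : 0 ≤ c) (h : ∀ q ∈ S, f q ≤ a * g q + c)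
    (hg : ∫⁻ q in UB n, ENNReal.ofReal (g q) ≤ ENNReal.ofReal b) :
    ∫⁻ q in S, ENNReal.ofReal (f q) ≤ ENNReal.ofReal (a * b + c * (volume (UB n)).toReal) := by
  calc _ ≤ ∫⁻ q in S, ENNReal.ofReal a * ENNReal.ofReal (g q) + ENNReal.ofReal c :=
        setLIntegral_mono' hS fun q hq => by
          rw [← ENNReal.ofReal_mul ha]
          exact (ENNReal.ofReal_le_ofReal (h q hq)).trans ENNReal.ofReal_add_le
    _ ≤ _ := lintegral_mono_set hU
    _ ≤ _ := by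
      rw [lintegral_add_right _ measurable_const, lintegral_const_mul' _ _ ENNReal.ofReal_ne_top,
        setLIntegral_const, ENNReal.ofReal_add (mul_nonneg ha hb) (by positivity),
        ENNReal.ofReal_mul ha, ENNReal.ofReal_mul hc, ENNReal.ofReal_toReal vol_UB]
      gcongr

/-- the singular factor -/
def E (k : ℕ) (q : Cm n) : ℝ := (en q + 1 / (k + 1)) ^ (-(n + 1 / 2 : ℝ))

/-- the weights -/
def wt (Φ : Fb n κ) (k : ℕ) (q : Cm n) : ℝ :=
  Real.log (‖Φ.ϖ q‖ ^ 2) + ((n + 1 / 2) * Real.log (en q + 1 / (k + 1)) + en q)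

theorem pos (k : ℕ) (q : Cm n) : 0 < en q + 1 / ((k : ℝ) + 1) :=
  add_pos_of_nonneg_of_pos (en_nonneg q) (by positivity)

theorem E_pos (k : ℕ) (q : Cm n) : 0 < E k q := Real.rpow_pos_of_pos (pos k q) _

theorem exp_wt (Φ : Fb n κ) (k : ℕ) {q : Cm n} (hq : q ∈ UB n) :
    ‖Φ.ϖ q‖ ^ 2 * Real.exp (-wt Φ k q) = E k q * Real.exp (-en q) := by
  have h : 0 < ‖Φ.ϖ q‖ ^ 2 := pow_pos (norm_pos_iff.2 (Φ.ϖ_ne q hq)) 2
  rw [E, Real.rpow_def_of_pos (pos k q), ← Real.exp_add, wt, neg_add, Real.exp_add,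
    Real.exp_neg, Real.exp_log h, ← mul_assoc, mul_inv_cancel₀ h.ne', one_mul]
  congr 1
  ring

/-- upper and lower bounds for the weighted density -/
theorem den (Φ : Fb n κ) (k : ℕ) {q : Cm n} (hq : q ∈ UB n) :
    ‖Φ.ϖ q‖ ^ 2 * Real.exp (-wt Φ k q) * |(Φ.Θ q).det| ≤ 2 * E k q ∧
      E k q ≤ 6 * (‖Φ.ϖ q‖ ^ 2 * Real.exp (-wt Φ k q) * |(Φ.Θ q).det|) := by
  have h1 : Real.exp (-en q) ≤ 1 := Real.exp_le_one_iff.2 (neg_nonpos.2 (en_nonneg q))
  have h2 : 1 / 3 ≤ Real.exp (-en q) := by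
    have h3 : Real.exp (-1) ≤ Real.exp (-en q) := Real.exp_le_exp.2 (neg_le_neg (le_of_lt hq))
    linarith [Real.exp_neg_one_gt_d9]
  obtain ⟨h4, h5⟩ := Φ.ν_bd q hq
  have h6 := E_pos k q
  have h7 : Real.exp (-en q) * |(Φ.Θ q).det| ≤ 1 * 2 := by gcongr
  have h8 : 1 / 3 * (1 / 2) ≤ Real.exp (-en q) * |(Φ.Θ q).det| := by gcongr
  rw [exp_wt Φ k hq, mul_assoc]
  constructor <;> nlinarith

theorem sm1 (Φ : Fb n κ) {q : Cm n} (hq : q ∈ UB n) :
    ContDiffAt ℝ ∞ (fun p => Real.log (‖Φ.ϖ p‖ ^ 2)) q :=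
  ((Φ.ϖ_sm q hq).norm_sq ℝ).log (pow_pos (norm_pos_iff.2 (Φ.ϖ_ne q hq)) 2).ne'

theorem sm2 (k : ℕ) (q : Cm n) :
    ContDiffAt ℝ ∞ (fun p : Cm n => (n + 1 / 2) * Real.log (en p + 1 / (k + 1)) + en p) q :=
  (contDiffAt_const.mul ((FibA.en_sm.contDiffAt.add contDiffAt_const).log (pos k q).ne')).add
    FibA.en_sm.contDiffAt

theorem hd (Φ : Fb n κ) (c2 : Φ.A.Cal2) (hκ : κ ≤ 1)
    (fw : ∀ p δ : ℝ, 0 ≤ p → p ≤ n + 2 → 0 < δ → ∀ q ∈ UB n, ∀ v,
      en (Φ.Θ q v) ≤ Φ.A.lev (fun q => p * Real.log (en q + δ) + en q) q v)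
    {B : ℝ} (h0 : 0 ≤ B)
    (hB : ∫⁻ y in UB n, ENNReal.ofReal (en y ^ (1 / 2 - n : ℝ)) ≤ ENNReal.ofReal B) (k : ℕ) :
    Φ.A.HD volume (UB n) (fun q => |(Φ.Θ q).det|) (wt Φ k)
      (fun q => κ ^ 2 * en q * ‖Φ.ϖ q‖ ^ 2) Φ.ϖ (2 * B) := by
  have lv : ∀ q ∈ UB n, ∀ v, en (Φ.Θ q v) ≤ Φ.A.lev (wt Φ k) q v := fun q hq v => by
    have h1 := c2.add _ _ q hq ((sm1 Φ hq).of_le (by norm_cast)) ((sm2 k q).of_le (by norm_cast)) v
    have h2 := fw (n + 1 / 2) (1 / (k + 1)) (by positivity) (by linarith) (by positivity) q hq v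
    exact (h2.trans (le_add_of_nonneg_left (Φ.ϖ_lev q hq v).1)).trans_eq h1.symm
  have mU : MeasurableSet (UB n) := FibA.open_UB.measurableSet
  have np : -((n : ℝ) + 1 / 2) ≤ 0 := neg_nonpos.2 (by positivity)
  refine ⟨fun q hq => (sm1 Φ hq).add (sm2 k q), fun q hq v => (en_nonneg _).trans (lv q hq v),
    Φ.ϖ_sm, ?_, fun q hq => ?_, fun q _ => ?_, fun q hq v v' hv => ?_, by positivity, ?_⟩
  · refine (int_le (g := fun _ => 0) (a := 0) (b := 0)
      (c := 2 * (1 / ((k : ℝ) + 1)) ^ (-(n + 1 / 2 : ℝ))) mU Subset.rfl le_rfl le_rfl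
      (by positivity) (fun q hq => ?_) (by simp)).trans_lt ENNReal.ofReal_lt_top
    have h1 : E k q ≤ (1 / ((k : ℝ) + 1)) ^ (-(n + 1 / 2 : ℝ)) :=
      Real.rpow_le_rpow_of_nonpos (by positivity) (le_add_of_nonneg_left (en_nonneg q)) np
    linarith [(den Φ k hq).1]
  · exact ((continuousAt_const.mul FibA.en_sm.continuous.continuousAt).mul
      ((Φ.ϖ_sm q hq).continuousAt.norm.pow 2)).continuousWithinAt
  · have := en_nonneg q
    positivity
  · refine (Φ.ϖ_db q hq v v' hv).trans (mul_le_mul_of_nonneg_left (lv q hq v) ?_)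
    have := en_nonneg q
    positivity
  · refine (int_le (a := 2) (c := 0) mU Subset.rfl zero_le_two h0 le_rfl (fun q hq => ?_)
      hB).trans_eq (by rw [zero_mul, add_zero])
    have h1 : en q * E k q ≤ en q ^ (1 / 2 - n : ℝ) := by
      rcases (en_nonneg q).eq_or_lt with h | h
      · rw [← h, zero_mul]
        exact Real.rpow_nonneg le_rfl _
      · rw [show (1 / 2 - n : ℝ) = 1 + -(n + 1 / 2) by ring, Real.rpow_add h, Real.rpow_one]
        exact mul_le_mul_of_nonneg_left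
          (Real.rpow_le_rpow_of_nonpos h (le_add_of_nonneg_right (by positivity)) np) h.le
    have h2 := mul_le_mul_of_nonneg_left (den Φ k hq).1 (en_nonneg q)
    have h3 : κ ^ 2 ≤ 1 := pow_le_one₀ Φ.κ_pos hκ
    have h4 : 0 ≤ en q * (‖Φ.ϖ q‖ ^ 2 * Real.exp (-wt Φ k q) * |(Φ.Θ q).det|) :=
      mul_nonneg (en_nonneg q) (by positivity)
    nlinarith

theorem cr_mul {Θ : Cm n → Cm n →L[ℝ] Cm n} {u w : Cm n → ℂ} {q : Cm n} (hu : CR Θ u q)
    (hw : CR Θ w q) : CR Θ (fun p => u p * w p) q := by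
  refine ⟨hu.1.mul hw.1, fun v v' hv => ?_⟩
  rw [fd_mul hu.1 hw.1, fd_mul hu.1 hw.1, hu.2 v v' hv, hw.2 v v' hv]
  simp only [smul_eq_mul]
  ring

/-- a holomorphic section with the same value as `ϖ` at the origin -/
theorem sec (hn : 1 ≤ n) (Φ : Fb n κ) (c1 : Φ.A.Cal1) (c2 : Φ.A.Cal2)
    (hs : HORS (volume : Measure (Cm n))) (va : VAN n) (hκ : κ ≤ 1) {η : Cm n → ℝ}
    (ex : Φ.A.Exh (UB n) η)
    (fw : ∀ p δ : ℝ, 0 ≤ p → p ≤ n + 2 → 0 < δ → ∀ q ∈ UB n, ∀ v,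
      en (Φ.Θ q v) ≤ Φ.A.lev (fun q => p * Real.log (en q + δ) + en q) q v)
    {B : ℝ} (h0 : 0 ≤ B)
    (hB : ∫⁻ y in UB n, ENNReal.ofReal (en y ^ (1 / 2 - n : ℝ)) ≤ ENNReal.ofReal B) :
    ∃ s : Cm n → ℂ, (∀ q ∈ UB n, CR Φ.Θ s q) ∧ s 0 = Φ.ϖ 0 ∧
      ∫⁻ q in UB n, ENNReal.ofReal (‖s q / Φ.ϖ q - 1‖ ^ 2 * E 0 q) ≤ ENNReal.ofReal (12 * B) := by
  obtain ⟨s, s1, s2⟩ := hs _ _ Φ.A _ η _ Φ.den ex (wt Φ) _ _ _ (hd Φ c2 hκ fw h0 hB)
    fun k q _ => by
      have h1 : Real.log (en q + 1 / (((k + 1 : ℕ) : ℝ) + 1)) ≤ Real.log (en q + 1 / (k + 1)) :=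
        Real.log_le_log (pos _ q) (by gcongr; omega)
      have h2 := mul_le_mul_of_nonneg_left h1 (show 0 ≤ (n : ℝ) + 1 / 2 by positivity)
      unfold wt
      linarith
  have mU : MeasurableSet (UB n) := FibA.open_UB.measurableSet
  have s3 : ∀ k, ∫⁻ q in UB n, ENNReal.ofReal (‖s q / Φ.ϖ q - 1‖ ^ 2 * E k q) ≤
      ENNReal.ofReal (12 * B) := fun k => by
    refine (int_le (a := 6) (c := 0) mU Subset.rfl (by norm_num) (by positivity) le_rfl
      (fun q hq => ?_) (s2 k)).trans_eq (by congr 1; ring)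
    have h1 : s q - Φ.ϖ q = (s q / Φ.ϖ q - 1) * Φ.ϖ q := by
      rw [sub_mul, div_mul_cancel₀ _ (Φ.ϖ_ne q hq), one_mul]
    beta_reduce
    rw [h1, norm_mul, mul_pow]
    linarith [mul_le_mul_of_nonneg_left (den Φ k hq).2 (sq_nonneg ‖s q / Φ.ϖ q - 1‖)]
  have z : (0 : Cm n) ∈ UB n := by simp [UB, en]
  have n0 : (0 : ℝ) < n := by exact_mod_cast hn
  have n1 : (1 : ℝ) ≤ n := by exact_mod_cast hn
  obtain ⟨i, hi⟩ := Φ.A.cover 0 z
  have s4 := (c1.an ℂ s i 0 hi (mem_of_superset (FibA.open_UB.mem_nhds z) s1)).2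
  have s5 := (va.fib (fun q => s q / Φ.ϖ q - 1) (UB n) (n + 1 / 2)
    (ENNReal.ofReal ((n : ℝ) ^ (n + 1 / 2 : ℝ) * (12 * B) + 0 * (volume (UB n)).toReal))
    (FibA.open_UB.mem_nhds z)
    (((s4.mul ((Φ.ϖ_sm 0 z).inv (Φ.ϖ_ne 0 z))).sub contDiffAt_const).of_le (by norm_cast))
    ENNReal.ofReal_lt_top fun k => int_le mU Subset.rfl (by positivity) (by positivity) le_rfl
      (fun q _ => by
        have h1 : (n * (‖q‖ ^ 2 + 1 / ((k : ℝ) + 1))) ^ (-(n + 1 / 2 : ℝ)) ≤ E k q :=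
          Real.rpow_le_rpow_of_nonpos (pos k q) (by
            have h2 : 0 ≤ 1 / ((k : ℝ) + 1) := by positivity
            nlinarith [en_le q]) (neg_nonpos.2 (by positivity))
        rw [Real.mul_rpow n0.le (by positivity), Real.rpow_neg n0.le,
          inv_mul_le_iff₀ (by positivity)] at h1
        linarith [mul_le_mul_of_nonneg_left h1 (sq_nonneg ‖s q / Φ.ϖ q - 1‖)]) (s3 k)).1
    (by linarith)
  exact ⟨s, s1, (div_eq_one_iff_eq (Φ.ϖ_ne 0 z)).1 (sub_eq_zero.1 s5), s3 0⟩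

end G1b

open G1b in
theorem g1b {n : ℕ} (hn : 1 ≤ n) (c1 : ∀ T Θ, ∀ A : At (V := Cm n) T Θ, A.Cal1)
    (c2 : ∀ T Θ, ∀ A : At (V := Cm n) T Θ, A.Cal2) (hs : HORS (volume : Measure (Cm n)))
    (va : VAN n) (be : BERN n) (fw : FW n) (la : LINA n) (ja : JAC n) : G1B n := by
  intro C hC
  obtain ⟨κ₁, C', k1, hC', be⟩ := be
  obtain ⟨κ₂, k2, fw⟩ := fw
  obtain ⟨B₀, hB₀⟩ := la.int hn
  have hB : ∫⁻ y in UB n, ENNReal.ofReal (en y ^ (1 / 2 - n : ℝ)) ≤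
      ENNReal.ofReal (max B₀ 0) := by
    have h := hB₀ 1 1 Matrix.PosDef.one one_pos
    simp only [qf_one, Matrix.det_one, Complex.one_re, ENNReal.ofReal_one, mul_one, one_pow] at h
    exact h.trans (ENNReal.ofReal_le_ofReal (le_max_left _ _))
  have b0 : 0 ≤ max B₀ 0 := le_max_right _ _
  obtain ⟨D, hD⟩ : ∃ D : ℝ, D = 2 * C ^ n * 2 ^ (n + 1 / 2 : ℝ) * (12 * max B₀ 0) +
    2 * C ^ n * (volume (UB n)).toReal := ⟨_, rfl⟩
  have d0 : 0 ≤ D := by rw [hD]; positivity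
  obtain ⟨G, hG⟩ : ∃ G : ℝ, G = C' * (2 ^ n * √D) := ⟨_, rfl⟩
  have g0 : 0 ≤ G := by rw [hG]; positivity
  refine ⟨1 / (4 * G + 4), min 1 (min κ₁ κ₂), by positivity, by gcongr; linarith,
    by positivity, fun κ hκ Φ z ε hz q hq => ?_⟩
  simp only [le_min_iff] at hκ
  obtain ⟨ex, f1, f2⟩ := fw κ hκ.2.2 Φ
  obtain ⟨s, s1, s2, s3⟩ := sec hn Φ (c1 _ _ _) (c2 _ _ _) hs va hκ.1 ex f2 b0 hB
  obtain ⟨N, hN⟩ := ja κ Φ _ z FibA.open_UB Subset.rfl hz.cr
  have z0 : (0 : Cm n) ∈ UB n := by simp [UB, en]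
  have sub : ∀ p : Cm n, en p < (1 / 2) ^ 2 → p ∈ UB n := fun p hp =>
    show en p < 1 by linarith
  have cr : ∀ p ∈ UB n, CR Φ.Θ (fun p => (N p).det / Φ.ϖ p * s p) p := fun p hp =>
    cr_mul (hN p hp).2 (s1 p hp)
  have b1 := be κ hκ.2.1 Φ _ (1 / 2) (2 ^ n * √D) (by norm_num) (by norm_num) (by positivity)
    (fun p hp => cr p (sub p hp)) ((int_le (a := 2 * C ^ n * 2 ^ (n + 1 / 2 : ℝ)) (c := 2 * C ^ n)
      (isOpen_lt FibA.en_sm.continuous continuous_const).measurableSet sub (by positivity)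
      (by positivity) (by positivity) (fun p hp => by
        have hp' := sub p hp
        have h1 := la.hada (N p) C fun v => by
          obtain ⟨u, rfl⟩ := ((c1 _ _ Φ.A).bij p hp').2 v
          rw [← (hN p hp').1]
          exact hz.gr p (by linarith [show en p < (1 / 2) ^ 2 from hp]) u
        have h2 : (2 : ℝ) ^ (-(n + 1 / 2 : ℝ)) ≤ E 0 p :=
          Real.rpow_le_rpow_of_nonpos (pos 0 p) (by
            simp only [Nat.cast_zero]
            linarith [show en p < 1 from hp']) (neg_nonpos.2 (by positivity))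
        rw [Real.rpow_neg zero_le_two, inv_le_iff_one_le_mul₀' (by positivity)] at h2
        have h3 := norm_add_le (s p / Φ.ϖ p - 1) 1
        rw [sub_add_cancel, norm_one] at h3
        have h4 : ‖s p / Φ.ϖ p‖ ^ 2 ≤ 2 * ‖s p / Φ.ϖ p - 1‖ ^ 2 + 2 := by
          nlinarith [pow_le_pow_left₀ (norm_nonneg _) h3 2, sq_nonneg (‖s p / Φ.ϖ p - 1‖ - 1)]
        have h5 := mul_le_mul h1 (h4.trans (add_le_add_left (mul_le_mul_of_nonneg_left
          (le_mul_of_one_le_right (sq_nonneg ‖s p / Φ.ϖ p - 1‖) h2) zero_le_two) 2))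
          (sq_nonneg _) (by positivity)
        rw [div_mul_eq_mul_div, mul_div_assoc, norm_mul, mul_pow]
        exact h5.trans_eq (by ring)) s3).trans_eq (by
      rw [← hD, mul_pow, Real.sq_sqrt d0, ← pow_mul, mul_comm n 2, mul_right_comm, ← mul_pow]
      norm_num))
  rw [← hG] at b1
  have c0 : 1 / (4 * G + 4) ≤ 1 / 4 := by gcongr; linarith
  have q1 : en q ≤ (1 / 4) ^ 2 := hq.trans (by gcongr)
  have hq' : q ∈ UB n := show en q < 1 by linarith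
  have mv := norm_image_sub_le_of_norm_deriv_le_segment_01'
    (f := fun t : ℝ => (N (t • q)).det / Φ.ϖ (t • q) * s (t • q)) (C := 3 / 4)
    (f' := fun t => fderiv ℝ (fun p => (N p).det / Φ.ϖ p * s p) (t • q) q) (fun t ht => by
      have h1 : en (t • q) < 1 := by
        rw [FibA.en_smul']
        nlinarith [pow_le_one₀ ht.1 ht.2 (n := 2), en_nonneg q]
      have h2 := (hasDerivAt_id' t).smul_const q
      rw [one_smul] at h2
      exact ((cr _ h1).1.hasFDerivAt.comp_hasDerivAt t h2).hasDerivWithinAt) fun t ht => by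
      have h1 : en (t • q) ≤ (1 / 2) ^ 2 / 4 := by
        rw [FibA.en_smul']
        nlinarith [pow_le_one₀ ht.1 ht.2.le (n := 2), en_nonneg q]
      have h2 := (b1 _ h1).2 q
      have h3 := (f1 (t • q) (show en (t • q) < 1 by linarith) q).2
      have h4 : G * (1 / (4 * G + 4)) ≤ 1 / 4 := by
        rw [mul_one_div, div_le_iff₀ (by positivity)]
        linarith
      have h5 := pow_le_pow_left₀ (by positivity) h4 2
      have h6 := mul_le_mul_of_nonneg_left (h3.trans (mul_le_mul_of_nonneg_left hq zero_le_two))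
        (sq_nonneg G)
      exact le_of_sq_le_sq (by linarith) (by norm_num)
  have N0 : N 0 = 1 := by
    have h1 : ∀ v, v ᵥ* N 0 = v := fun v => by
      have h2 := Φ.near 0 z0 v
      rw [show en (0 : Cm n) = 0 by simp [en], mul_zero, zero_pow two_ne_zero, zero_mul] at h2
      have h3 := (hN 0 z0).1 v
      rw [sub_eq_zero.1 (FibA.en_zero h2), hz.d0] at h3
      exact h3.symm
    ext i j
    simpa [Matrix.one_apply, Pi.single_apply, eq_comm] using congrFun (h1 (Pi.single i 1)) j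
  simp only [one_smul, zero_smul, N0, Matrix.det_one, s2, one_div,
    inv_mul_cancel₀ (Φ.ϖ_ne 0 z0)] at mv
  have dn : (N q).det ≠ 0 := fun h => by
    rw [h, zero_div, zero_mul, zero_sub, norm_neg, norm_one] at mv
    linarith
  intro v v' hv
  rw [(hN q hq').1, (hN q hq').1] at hv
  refine ((c1 _ _ Φ.A).bij q hq').1 ?_
  rw [← vecMul_inv (Φ.Θ q v) dn, hv, vecMul_inv _ dn]

end Vale.Agent.P253W.X
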