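import Vale.Agent.P253W.X.HordA
import Mathlib.RingTheory.Norm.Transitivity
import Mathlib.RingTheory.Complex
import Mathlib.MeasureTheory.Function.Jacobian

/-!
# P253W, block X: the theorem of Hörmander on a pseudoconvex domain
-/

open scoped ContDiff ENNReal Topology
open MeasureTheory Set Metric Filter
open Vale.Agent.P272.K (Cm)
open Vale.Agent.P253W.Y.Hd (two_le)
open Complex (I)

noncomputable section

namespace Vale.Agent.P253W.X

namespace Hd

variable {V : Type} [NormedAddCommGroup V] [NormedSpace ℝ V] [NormedSpace ℂ V]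

theorem lv2_congr {u w : V → ℝ} {z : V} (h : u =ᶠ[𝓝 z] w) (v : V) : lv2 u z v = lv2 w z v := by
  unfold lv2
  rw [h.fderiv.fderiv_eq]

variable {T : Set V} {Θ : V → V →L[ℝ] V} (A : At T Θ)

theorem dc_ne {i : A.ι} {q : V} (hq : q ∈ (A.c i).source) : (fderiv ℝ (A.c i) q).det ≠ 0 := by
  have h1 := (((A.sm' i _ ((A.c i).map_source hq)).differentiableAt (by simp)).hasFDerivAt.comp q
    ((A.sm i q hq).differentiableAt (by simp)).hasFDerivAt).unique
    ((hasFDerivAt_id q).congr_of_eventuallyEq ((A.c i).eventually_left_inverse hq))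
  have h2 := (LinearMap.det_comp _ _).symm.trans
    ((congrArg ContinuousLinearMap.det h1).trans LinearMap.det_id)
  exact right_ne_zero_of_mul (h2 ▸ one_ne_zero)

variable {A} in
theorem den_cont {ν : V → ℝ} (h : A.Den ν) : ∀ q ∈ T, ContinuousAt ν q ∧ 0 ≤ ν q := fun q hq => by
  obtain ⟨i, hi⟩ := A.cover q hq
  obtain ⟨g, h1, h2⟩ := h i
  have h3 := h1 _ ((A.c i).map_source hi)
  refine ⟨((h3.1.continuousAt.comp ((A.c i).continuousAt hi)).mul
    (ContinuousLinearMap.continuous_det.continuousAt.comp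
      ((A.sm i q hi).continuousAt_fderiv (by simp))).abs).congr ?_,
    h2 q hi ▸ mul_nonneg h3.2.1.le (abs_nonneg _)⟩
  exact mem_of_superset ((A.c i).open_source.mem_nhds hi) fun y hy => (h2 y hy).symm

variable [IsScalarTower ℝ ℂ V] {n : ℕ} {O : Set V} (hO : IsOpen O) (L : V ≃L[ℂ] Cm n) (x₀ : O)

theorem lv2_lin {q : V → ℝ} {p : Cm n} (hq : ContDiffAt ℝ 2 q (L.symm p)) (a : ℝ) (k : Cm n) :
    lv2 (fun y => a + q (L.symm y)) p k = lv2 q (L.symm p) (L.symm k) := by
  let R := (L.symm : Cm n →L[ℂ] V).restrictScalars ℝ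
  have h1 : fderiv ℝ (fun y => a + q (L.symm y)) =ᶠ[𝓝 p] fun y => (fderiv ℝ q (R y)).comp R := by
    filter_upwards [L.symm.continuous.continuousAt.eventually (hq.eventually (by simp))] with y h2
    exact (((h2.differentiableAt (by simp)).hasFDerivAt.comp y R.hasFDerivAt).const_add a).fderiv
  have h2 := (((hq.fderiv_right (m := 1) le_rfl).differentiableAt (by simp)).hasFDerivAt.comp p
    R.hasFDerivAt).clm_comp (hasFDerivAt_const R p)
  unfold lv2
  rw [h1.fderiv_eq.trans h2.fderiv]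
  simp [R]

/-- the inverse of a chart -/
def pa (i : A.ι) (z : Cm n) : V := (A.c i).symm (L.symm z)

open Classical in
/-- the charts of the subtype -/
def ch (i : A.ι) : OpenPartialHomeomorph O (Cm n) where
  toFun x := L (A.c i x)
  invFun z := if h : (A.c i).symm (L.symm z) ∈ O then ⟨_, h⟩ else x₀
  source := Subtype.val ⁻¹' (A.c i).source
  target := L.symm ⁻¹' ((A.c i).target ∩ (A.c i).symm ⁻¹' O)
  map_source' x hx := by simp [(A.c i).map_source hx, (A.c i).left_inv hx]
  map_target' z hz := by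
    rw [dif_pos (show _ ∈ O from hz.2)]
    exact (A.c i).map_target hz.1
  left_inv' x hx := by simp [(A.c i).left_inv hx]
  right_inv' z hz := by
    rw [dif_pos (show _ ∈ O from hz.2), (A.c i).right_inv hz.1, L.apply_symm_apply]
  open_source := (A.c i).open_source.preimage continuous_subtype_val
  open_target := ((A.c i).isOpen_inter_preimage_symm hO).preimage L.symm.continuous
  continuousOn_toFun := L.continuous.comp_continuousOn
    ((A.c i).continuousOn.comp continuous_subtype_val.continuousOn fun _ h => h)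
  continuousOn_invFun := Topology.IsInducing.subtypeVal.continuousOn_iff.2
    (((A.c i).continuousOn_symm.comp L.symm.continuous.continuousOn fun _ h => h.1).congr
      fun z hz => congrArg Subtype.val (dif_pos (show _ ∈ O from hz.2)))

variable {A hO L x₀} {i : A.ι} {z : Cm n}

omit [IsScalarTower ℝ ℂ V] in
theorem ch_symm (hz : z ∈ (ch A hO L x₀ i).target) :
    ((ch A hO L x₀ i).symm z : V) = pa A L i z :=
  congrArg Subtype.val (dif_pos (show _ ∈ O from hz.2))

omit [IsScalarTower ℝ ℂ V] in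
theorem ch_near {W : Type} (f : V → W) (hz : z ∈ (ch A hO L x₀ i).target) :
    (fun y => f ((ch A hO L x₀ i).symm y)) =ᶠ[𝓝 z] fun y => f (pa A L i y) :=
  mem_of_superset ((ch A hO L x₀ i).open_target.mem_nhds hz) fun _ hy => congrArg f (ch_symm hy)

omit [IsScalarTower ℝ ℂ V] in
theorem pa_right (hz : L.symm z ∈ (A.c i).target) :
    (fun w => A.c i (pa A L i w)) =ᶠ[𝓝 z] L.symm :=
  L.symm.continuous.continuousAt.eventually ((A.c i).eventually_right_inverse hz)

omit [IsScalarTower ℝ ℂ V] in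
theorem pa_hm (c1 : A.Cal1) (hz : L.symm z ∈ (A.c i).target) :
    ∀ᶠ w in 𝓝 z, HM Θ (pa A L i) w :=
  (c1.hm_iff (Cm n) _ z i ((A.c i).map_target hz)).2
    ⟨((A.c i).continuousAt_symm hz).comp L.symm.continuous.continuousAt,
      (L.symm.analyticAt z).congr (pa_right hz).symm⟩

theorem pa_ne (c1 : A.Cal1) (hz : L.symm z ∈ (A.c i).target) {v : Cm n} (hv : v ≠ 0) :
    fderiv ℝ (pa A L i) z v ≠ 0 := fun h => by
  have h1 := (((A.sm i _ ((A.c i).map_target hz)).differentiableAt (by simp)).hasFDerivAt.comp z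
    ((pa_hm c1 hz).self_of_nhds.1.differentiableAt (by simp)).hasFDerivAt).unique
    (((L.symm : Cm n →L[ℂ] V).restrictScalars ℝ).hasFDerivAt.congr_of_eventuallyEq (pa_right hz))
  have h2 := DFunLike.congr_fun h1 v
  rw [ContinuousLinearMap.comp_apply, h, map_zero] at h2
  exact hv (L.symm.map_eq_zero_iff.1 h2.symm)

theorem den_ch (c1 : A.Cal1) {j : A.ι} {q : V} (hi : q ∈ (A.c i).source)
    (hj : q ∈ (A.c j).source) : |(fderiv ℝ (A.c j) q).det| =
      ‖(fderiv ℂ (fun z => A.c j ((A.c i).symm z)) (A.c i q)).det‖ ^ 2 *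
        |(fderiv ℝ (A.c i) q).det| := by
  have h1 := c1.hol i j _ ((A.c i).map_source hi) (by rwa [(A.c i).left_inv hi])
  have h2 := (((h1.differentiableAt.hasFDerivAt.restrictScalars ℝ).comp q
    ((A.sm i q hi).differentiableAt (by simp)).hasFDerivAt).congr_of_eventuallyEq
      (f₁ := A.c j) (((A.c i).eventually_left_inverse hi).mono fun y hy =>
        congrArg (A.c j) hy.symm)).fderiv
  have h3 := LinearMap.det_restrictScalars (R := ℝ)
    (f := (fderiv ℂ (fun z => A.c j ((A.c i).symm z)) (A.c i q) : V →ₗ[ℂ] V))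
  rw [Algebra.norm_complex_apply, ← Complex.sq_norm] at h3
  rw [(congrArg ContinuousLinearMap.det h2).trans (LinearMap.det_comp _ _), abs_mul]
  congr 1
  exact (congrArg abs h3).trans (abs_of_nonneg (sq_nonneg _))

variable [FiniteDimensional ℝ V] [MeasurableSpace V] [BorelSpace V] {μ : Measure V}
  [μ.IsAddHaarMeasure] (c1 : A.Cal1) (hT : O ⊆ T) {ν : V → ℝ} (hν : A.Den ν) {k : ℝ} (hk : 0 < k)
  (hL : ∀ f : V → ℝ≥0∞, ∫⁻ z, f z ∂μ = ∫⁻ z, ENNReal.ofReal k * f (L.symm z))

omit [IsScalarTower ℝ ℂ V] [FiniteDimensional ℝ V] [μ.IsAddHaarMeasure] in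
include hO hT hν in
theorem lint_sub (f : V → ℝ≥0∞) :
    ∫⁻ x : O, f x ∂((μ.comap Subtype.val).withDensity fun x : O => ENNReal.ofReal (ν x)) =
      ∫⁻ q in O, ENNReal.ofReal (ν q) * f q ∂μ :=
  (lintegral_withDensity_eq_lintegral_mul_non_measurable _ (Continuous.measurable
    (continuous_iff_continuousAt.2 fun x : O => (den_cont hν x (hT x.2)).1.comp
      continuous_subtype_val.continuousAt)).ennreal_ofReal
    (Eventually.of_forall fun _ => ENNReal.ofReal_lt_top) _).trans
    (lintegral_subtype_comap hO.measurableSet fun q => ENNReal.ofReal (ν q) * f q)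

variable (hO x₀) in
/-- the atlas of the subtype -/
def tr : Atd n O where
  I := A.ι
  e := ch A hO L x₀
  l i z := Real.log k + Real.log ((hν i).choose (L.symm z))
  ν := (μ.comap Subtype.val).withDensity fun x : O => ENNReal.ofReal (ν x)
  cover x := A.cover x (hT x.2)
  hol i j z hz h := ((L.analyticAt _).comp ((c1.hol i j _ hz.1 (ch_symm hz ▸ h :
    pa A L i z ∈ (A.c j).source)).comp (L.symm.analyticAt z))).congr
      (ch_near (fun x => L (A.c j x)) hz).symm
  sm i z hz := by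
    obtain ⟨h1, h2, h3⟩ := (hν i).choose_spec.1 _ hz.1
    exact ⟨contDiffAt_const.add ((h1.log h2.ne').comp z
      ((L.symm : Cm n →L[ℂ] V).restrictScalars ℝ).contDiff.contDiffAt), fun v =>
      (lv2_lin L ((h1.log h2.ne').of_le two_le) _ v).trans_le (h3 _)⟩
  ch i j x hi hj := by
    have h1 := c1.hol i j _ ((A.c i).map_source hi) (by rwa [(A.c i).left_inv hi])
    have h2 : HasFDerivAt (fun z => A.c j ((A.c i).symm z))
        (fderiv ℂ (fun z => A.c j ((A.c i).symm z)) (A.c i x)) (L.symm (L (A.c i x))) := by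
      rw [L.symm_apply_apply]
      exact h1.differentiableAt.hasFDerivAt
    have h3 := ((ch_near (fun x => L (A.c j x)) ((ch A hO L x₀ i).map_source hi)).fderiv_eq
      (𝕜 := ℂ)).trans (L.hasFDerivAt.comp _ (h2.comp _ L.symm.hasFDerivAt)).fderiv
    have h4 := (congrArg ContinuousLinearMap.det h3).trans (LinearMap.det_conj _ L.toLinearEquiv)
    have h5 := ((hν i).choose_spec.2 x hi).symm.trans ((hν j).choose_spec.2 x hj)
    rw [den_ch c1 hi hj, ← mul_assoc, mul_left_inj' (abs_ne_zero.2 (dc_ne A hi))] at h5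
    change Real.exp (_ + Real.log ((hν i).choose (L.symm (L (A.c i x))))) =
      ‖(fderiv ℂ (fun y => L (A.c j ((ch A hO L x₀ i).symm y))) (ch A hO L x₀ i x)).det‖ ^ 2 *
        Real.exp (_ + Real.log ((hν j).choose (L.symm (L (A.c j x)))))
    rw [h4, L.symm_apply_apply, L.symm_apply_apply, Real.exp_add, Real.exp_add,
      Real.exp_log ((hν i).choose_spec.1 _ ((A.c i).map_source hi)).2.1,
      Real.exp_log ((hν j).choose_spec.1 _ ((A.c j).map_source hj)).2.1, h5]
    unfold ContinuousLinearMap.det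
    ring
  hν i f _ h0 := by
    obtain ⟨F, rfl⟩ : ∃ F : V → ℝ≥0∞, f = fun x : O => F x :=
      ⟨Function.extend Subtype.val f 0, funext fun x =>
        (Subtype.val_injective.extend_apply f 0 x).symm⟩
    have hS := ((A.c i).open_source.inter hO).measurableSet
    have h1 := lintegral_image_eq_lintegral_abs_det_fderiv_mul μ hS
      (fun q hq => ((A.sm i q hq.1).differentiableAt (by simp)).hasFDerivAt.hasFDerivWithinAt)
      ((A.c i).injOn.mono inter_subset_left)
      fun w => F ((A.c i).symm w) * ENNReal.ofReal ((hν i).choose w)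
    rw [(A.c i).image_source_inter_eq',
      ← lintegral_indicator ((A.c i).isOpen_inter_preimage_symm hO).measurableSet, hL] at h1
    rw [lint_sub (hO := hO) hT hν, ← lintegral_indicator (ch A hO L x₀ i).open_target.measurableSet]
    refine Eq.trans ?_ (h1.symm.trans (lintegral_congr fun z => ?_))
    · rw [← lintegral_indicator hO.measurableSet, ← lintegral_indicator hS]
      refine lintegral_congr fun q => ?_
      by_cases hq : q ∈ O
      swap
      · rw [indicator_of_notMem hq, indicator_of_notMem fun h => hq h.2]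
      by_cases hi : q ∈ (A.c i).source
      swap
      · rw [indicator_of_mem hq, indicator_of_notMem fun h => hi h.1,
          show F q = 0 from h0 ⟨q, hq⟩ hi, mul_zero]
      rw [indicator_of_mem hq, indicator_of_mem (mem_inter hi hq), (A.c i).left_inv hi,
        (hν i).choose_spec.2 q hi, ENNReal.ofReal_mul' (abs_nonneg _)]
      ring
    · by_cases hz : z ∈ (ch A hO L x₀ i).target
      · rw [indicator_of_mem hz, indicator_of_mem (a := L.symm z) (mem_inter hz.1 hz.2),
          Real.exp_add, Real.exp_log hk, Real.exp_log ((hν i).choose_spec.1 _ hz.1).2.1,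
          ENNReal.ofReal_mul hk.le, mul_left_comm]
        exact congrArg (fun t => F t * _) (ch_symm hz).symm
      · rw [indicator_of_notMem hz, indicator_of_notMem (a := L.symm z)
          (s := (A.c i).target ∩ (A.c i).symm ⁻¹' O) hz, mul_zero]

variable {c1 hT hν hk hL} {W : Type} [NormedAddCommGroup W] [NormedSpace ℝ W]

theorem tr_sm {f : V → W} (h : ∀ q ∈ O, ContDiffAt ℝ ∞ f q) :
    (tr hO x₀ c1 hT hν hk hL).Sm fun x => f x := fun _ z hz =>
  ((h _ hz.2).comp z (pa_hm c1 hz.1).self_of_nhds.1).congr_of_eventuallyEq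
    (ch_near (hO := hO) f hz)

theorem tr_fd {f : V → W} (h : ∀ q ∈ O, ContDiffAt ℝ ∞ f q) (hz : z ∈ (ch A hO L x₀ i).target)
    (v : Cm n) : fderiv ℝ ((tr hO x₀ c1 hT hν hk hL).c (fun x => f x) i) z v =
      fderiv ℝ f (pa A L i z) (fderiv ℝ (pa A L i) z v) :=
  DFunLike.congr_fun ((ch_near f hz).fderiv_eq.trans
    (((h _ hz.2).differentiableAt (by simp)).hasFDerivAt.comp z
      ((pa_hm c1 hz.1).self_of_nhds.1.differentiableAt (by simp)).hasFDerivAt).fderiv) v

theorem tr_lev (c2 : A.Cal2) {f : V → ℝ} (h : ∀ q ∈ O, ContDiffAt ℝ ∞ f q)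
    (hz : z ∈ (ch A hO L x₀ i).target) (v : Cm n) :
    lv2 ((tr hO x₀ c1 hT hν hk hL).c (fun x => f x) i) z v =
      A.lev f (pa A L i z) (fderiv ℝ (pa A L i) z v) :=
  (lv2_congr (ch_near f hz) v).trans
    (c2.pull (Cm n) _ z f (hT hz.2) (pa_hm c1 hz.1) ((h _ hz.2).of_le two_le) v)

theorem tr_int (f : V → ℝ) : ∫⁻ x : O, ENNReal.ofReal (f x) ∂(tr hO x₀ c1 hT hν hk hL).ν =
    ∫⁻ q in O, ENNReal.ofReal (f q * ν q) ∂μ :=
  (lint_sub (hO := hO) hT hν fun q => ENNReal.ofReal (f q)).trans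
    (setLIntegral_congr_fun hO.measurableSet fun q hq =>
      (mul_comm _ _).trans (ENNReal.ofReal_mul' (den_cont hν q (hT hq)).2).symm)

end Hd

open Hd in
/-- **HORD** -/
theorem hord (V : Type) [NormedAddCommGroup V] [NormedSpace ℝ V] [NormedSpace ℂ V]
    [IsScalarTower ℝ ℂ V] [FiniteDimensional ℂ V] [Nontrivial V] [MeasurableSpace V] [BorelSpace V]
    (μ : Measure V) [μ.IsAddHaarMeasure]
    (h1 : ∀ (T : Set V) (Θ : V → V →L[ℝ] V) (A : At T Θ), A.Cal1 ∧ A.Cal2) : HORD μ := by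
  intro T Θ A O η ν hν hη ψ Λ s₀ C₀ h
  obtain ⟨c1, c2⟩ := h1 T Θ A
  rcases O.eq_empty_or_nonempty with rfl | ⟨x₀, hx₀⟩
  · exact ⟨s₀, fun q hq => hq.elim, by simp [N2]⟩
  obtain ⟨r, hr⟩ := Nat.exists_eq_add_of_le' (Module.finrank_pos (R := ℂ) (M := V))
  let L : V ≃L[ℂ] Cm (r + 1) := .ofFinrankEq (by simpa using hr)
  have := L.symm.isAddHaarMeasure_map volume
  have := FiniteDimensional.proper_rclike ℂ V
  have : FiniteDimensional ℝ V := Module.Finite.trans ℂ V
  set k := Measure.addHaarScalarFactor μ (Measure.map L.symm volume) with hk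
  have k0 : 0 < (k : ℝ) := Measure.addHaarScalarFactor_pos_of_isAddHaarMeasure _ _
  have hL : ∀ f : V → ℝ≥0∞, ∫⁻ z, f z ∂μ = ∫⁻ z, ENNReal.ofReal k * f (L.symm z) := fun f => by
    rw [Measure.isAddLeftInvariant_eq_smul μ (Measure.map L.symm volume),
      lintegral_smul_measure, ENNReal.ofReal_coe_nnreal,
      lintegral_const_mul' _ _ ENNReal.coe_ne_top]
    exact congrArg _ (L.symm.toHomeomorph.measurableEmbedding.lintegral_map f)
  have e1 : ∀ q ∈ O, ContDiffAt ℝ ∞ (fun q => Real.exp (η q)) q := fun q hq => (hη.sm q hq).exp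
  have e2 : ∀ q ∈ O, ContDiffAt ℝ ∞ (fun q => Real.exp (2⁻¹ * η q)) q := fun q hq =>
    (contDiffAt_const.mul (hη.sm q hq)).exp
  obtain ⟨s, a1, a2⟩ := hord_cm (tr hη.op ⟨x₀, hx₀⟩ c1 hη.sub hν k0 hL)
    (ψ := fun x => Real.exp (η x)) (η := fun x => Real.exp (2⁻¹ * η x)) (φ := fun x => ψ x)
    (Λ := fun x => Λ x) (s₀ := fun x => s₀ x) (C₀ := C₀) (tr_sm e1) (tr_sm e2)
    (fun _ => (Real.exp_pos _).le) (fun a => ⟨{x | η x ≤ 2 * a}, by
      rw [Subtype.isCompact_iff]
      convert hη.cpt (2 * a) using 1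
      ext x
      simp [and_comm], fun x hx => by
        linarith [Real.add_one_le_exp (2⁻¹ * η x), not_le.1 (show ¬η x ≤ 2 * a from hx)]⟩)
    (fun i z hz v hv => by
      have b0 : pa A L i z ∈ O := hz.2
      have b1 := hη.sm _ b0
      have b2 := hη.pos _ b0 _ (pa_ne c1 hz.1 hv)
      rw [tr_lev c2 e1 hz, tr_fd e2 hz, c2.comp η Real.exp _ (hη.sub b0) (b1.of_le two_le)
        Real.contDiff_exp.contDiffAt _ _ ((pa_hm c1 hz.1).self_of_nhds.2 v), Real.deriv_exp,
        Real.deriv_exp, (((b1.differentiableAt (by simp)).hasFDerivAt.const_mul 2⁻¹).exp).fderiv]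
      simp only [smul_apply, smul_eq_mul, mul_pow, ← Real.exp_nat_mul]
      rw [show ((2 : ℕ) : ℝ) * (2⁻¹ * η (pa A L i z)) = η (pa A L i z) by push_cast; ring,
        ← mul_add]
      exact ⟨by positivity, mul_le_mul_of_nonneg_left (by nlinarith [sq_nonneg (fderiv ℝ η
        (pa A L i z) (fderiv ℝ (pa A L i) z v)), sq_nonneg (fderiv ℝ η (pa A L i z)
          (fderiv ℝ (pa A L i) z (I • v)))]) (Real.exp_pos _).le⟩)
    (tr_sm h.ψ_sm) (fun i z hz v => (h.ψ_pos _ hz.2 _).trans_eq (tr_lev c2 h.ψ_sm hz v).symm)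
    (tr_sm h.s_sm) (fun x => h.Λ_pos x x.2) h.C_pos (fun i z hz v => by
      rw [tr_fd h.s_sm hz, tr_fd h.s_sm hz, tr_lev c2 h.ψ_sm hz]
      exact (h.db _ hz.2 _ _ ((pa_hm c1 hz.1).self_of_nhds.2 v)).trans_eq
        (congrArg (fun t => Λ t * _) (ch_symm (hO := hη.op) hz).symm))
    ((tr_int fun q => Λ q * Real.exp (-ψ q)).trans_le h.le)
    ((tr_int fun q => ‖s₀ q‖ ^ 2 * Real.exp (-ψ q)).trans_lt h.fin)
  obtain ⟨s', rfl⟩ : ∃ s' : V → ℂ, s = fun x : O => s' x :=
    ⟨Function.extend Subtype.val s 0, funext fun x =>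
      (Subtype.val_injective.extend_apply s 0 x).symm⟩
  refine ⟨s', fun q hq => ?_,
    (tr_int fun q => ‖s' q - s₀ q‖ ^ 2 * Real.exp (-ψ q)).symm.trans_le a2⟩
  obtain ⟨i, hi⟩ := A.cover q (hη.sub hq)
  have hz := (Hd.ch A hη.op L ⟨x₀, hx₀⟩ i).map_source (x := ⟨q, hq⟩) hi
  refine (c1.cr_iff ℂ s' i q hi).2 ?_
  simpa [Function.comp_def, pa] using
    (AnalyticAt.comp (f := L) (x := A.c i q) ((a1 i _ hz).congr (ch_near s' hz))
      (L.analyticAt _)).differentiableAt

end Vale.Agent.P253W.X
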