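import Vale.Agent.P253W.Y.HordA

/-!
# P253W, block X: the theorem of Hörmander for an atlas with a density
-/

open scoped ContDiff ENNReal Topology ComplexConjugate ComplexOrder Matrix
open MeasureTheory Set Metric Filter
open Vale.Agent.P253.R2.H451 (levi2)
open Vale.Agent.P272.K (Cm dz dzb cHess jacM Chart)
open Vale.Agent.P284.H608.K Vale.Agent.P284.H286.K
open Vale.Agent.P253Z.HORa (ev_dt hn_dt top_eq dt_comp)
open Vale.Agent.P253W.Y.Hd (two_le quad psd_gg psd_bb det_jm)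

noncomputable section

namespace Vale.Agent.P253W.X.H2

/-- a holomorphic atlas with a density -/
structure Ag (n : ℕ) (M : Type) [TopologicalSpace M] [MeasurableSpace M] where
  I : Type
  e : I → OpenPartialHomeomorph M (Cm n)
  g : I → Cm n → ℝ
  ν : Measure M
  cover : ∀ x, ∃ i, x ∈ (e i).source
  hol : ∀ i j, ∀ z ∈ (e i).target, (e i).symm z ∈ (e j).source →
    AnalyticAt ℂ (fun z => e j ((e i).symm z)) z
  gs : ∀ i, ∀ z ∈ (e i).target, ContDiffAt ℝ ∞ (g i) z ∧ 0 < g i z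
  ch : ∀ i j, ∀ x ∈ (e i).source, x ∈ (e j).source →
    g i (e i x) = ‖(fderiv ℂ (fun z => e j ((e i).symm z)) (e i x)).det‖ ^ 2 * g j (e j x)
  hν : ∀ i (f : M → ℝ≥0∞), Measurable f → (∀ x ∉ (e i).source, f x = 0) →
    ∫⁻ x, f x ∂ν = ∫⁻ z in (e i).target, f ((e i).symm z) * ENNReal.ofReal (g i z)

variable {n : ℕ}

theorem an_det {τ : Cm n → Cm n} {z : Cm n} (h : AnalyticAt ℂ τ z) :
    AnalyticAt ℂ (fun z => (fderiv ℂ τ z).det) z := by
  have e : (fun z => (fderiv ℂ τ z).det) = fun z => ∑ σ : Equiv.Perm (Fin n),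
      ((Equiv.Perm.sign σ : ℤ) : ℂ) * ∏ i, fderiv ℂ τ z (Pi.single i 1) (σ i) := by
    funext z
    rw [ContinuousLinearMap.det, ← LinearMap.det_toMatrix', Matrix.det_apply']
    simp [LinearMap.toMatrix'_apply]
  rw [e]
  refine Finset.analyticAt_fun_sum _ fun σ _ => analyticAt_const.mul
    (Finset.analyticAt_fun_prod _ fun i _ => ?_)
  exact analyticAt_pi_iff.1
    (((ContinuousLinearMap.apply ℂ (Cm n) (Pi.single i 1 : Cm n)).analyticAt _).comp h.fderiv) _

variable {M : Type} [TopologicalSpace M] [MeasurableSpace M] (A : Ag n M)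

namespace Ag

/-- a function in a chart -/
def c {V : Type} (f : M → V) (i : A.I) (z : Cm n) : V := f ((A.e i).symm z)

/-- smooth functions -/
def Sm {V : Type} [NormedAddCommGroup V] [NormedSpace ℝ V] (f : M → V) : Prop :=
  ∀ i, ∀ z ∈ (A.e i).target, ContDiffAt ℝ ∞ (A.c f i) z

/-- the weight in a chart -/
def wt (φ : M → ℝ) (i : A.I) (z : Cm n) : ℝ := A.c φ i z - Real.log (A.g i z)

/-- the weighted norm -/
def L2 (s : M → ℂ) (φ : M → ℝ) : ℝ≥0∞ :=
  ∫⁻ x, ENNReal.ofReal (‖s x‖ ^ 2 * Real.exp (-φ x)) ∂A.ν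

/-- the determinant of the transition map -/
def J (i j : A.I) (z : Cm n) : ℂ := (fderiv ℂ (fun z => A.e j ((A.e i).symm z)) z).det

end Ag

theorem c_ch {V : Type} (f : M → V) {i j : A.I} {x : M} (hi : x ∈ (A.e i).source)
    (hj : x ∈ (A.e j).source) :
    A.c f i =ᶠ[𝓝 (A.e i x)] fun z => A.c f j (A.e j ((A.e i).symm z)) := by
  have h := ((A.e i).continuousAt_symm ((A.e i).map_source hi)).eventually
    ((A.e j).open_source.mem_nhds (by rwa [(A.e i).left_inv hi]))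
  exact h.mono fun z hz => congrArg f ((A.e j).left_inv hz).symm

theorem cont {V : Type} [TopologicalSpace V] {f : M → V}
    (h : ∀ i, ∀ z ∈ (A.e i).target, ContinuousAt (A.c f i) z) : Continuous f :=
  continuous_iff_continuousAt.2 fun x => by
    obtain ⟨i, hi⟩ := A.cover x
    refine ((h i _ ((A.e i).map_source hi)).comp ((A.e i).continuousAt hi)).congr ?_
    exact mem_of_superset ((A.e i).open_source.mem_nhds hi) fun y hy =>
      congrArg f ((A.e i).left_inv hy)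

theorem an_ch {i j : A.I} {x : M} (hi : x ∈ (A.e i).source) (hj : x ∈ (A.e j).source) :
    AnalyticAt ℂ (fun z => A.e j ((A.e i).symm z)) (A.e i x) :=
  A.hol i j _ ((A.e i).map_source hi) (by rwa [(A.e i).left_inv hi])

theorem J_ne {i j : A.I} {x : M} (hi : x ∈ (A.e i).source) (hj : x ∈ (A.e j).source) :
    A.J i j (A.e i x) ≠ 0 := fun h => (A.gs i _ ((A.e i).map_source hi)).2.ne' (by
  rw [A.ch i j x hi hj]
  change ‖A.J i j (A.e i x)‖ ^ 2 * _ = 0
  simp [h])

theorem J_mul {i j k : A.I} {x : M} (hi : x ∈ (A.e i).source) (hj : x ∈ (A.e j).source)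
    (hk : x ∈ (A.e k).source) : A.J i k (A.e i x) = A.J j k (A.e j x) * A.J i j (A.e i x) := by
  have h1 := (an_ch A hj hk).differentiableAt.hasFDerivAt
  have h2 := (an_ch A hi hj).differentiableAt.hasFDerivAt
  have h3 := HasFDerivAt.comp (A.e i x) (g := fun z => A.e k ((A.e j).symm z))
    (by rwa [(A.e i).left_inv hi]) h2
  exact (congrArg ContinuousLinearMap.det (((c_ch A (A.e k) hi hj).fderiv_eq).trans
    h3.fderiv)).trans (LinearMap.det_comp _ _)

/-- the density of the volume of `i∂∂̄ψ` -/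
def rho (ψ : M → ℝ) (x : M) : ℝ :=
  (cHess (A.c ψ (A.cover x).choose) (A.e (A.cover x).choose x)).det.re /
    A.g (A.cover x).choose (A.e (A.cover x).choose x)

variable {A} {ψ φ : M → ℝ}

theorem wch (hψ : A.Sm ψ) (i j : A.I) (x : M) (hi : x ∈ (A.e i).source)
    (hj : x ∈ (A.e j).source) : cHess (A.c ψ i) (A.e i x) = (jacM (A.e i) (A.e j) x)ᵀ *
      cHess (A.c ψ j) (A.e j x) * (jacM (A.e i) (A.e j) x).map (starRingEnd ℂ) := by
  have h := P272.K.cHess_comp (f := A.c ψ j) (τ := fun z => A.e j ((A.e i).symm z))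
    (z := A.e i x) (by
      rw [(A.e i).left_inv hi]
      exact (hψ j _ ((A.e j).map_source hj)).of_le two_le) (an_ch A hi hj).contDiffAt
  rw [P272.K.cHess_congr (c_ch A ψ hi hj), h, (A.e i).left_inv hi]
  rfl

theorem rho_eq (hψ : A.Sm ψ) {i : A.I} {x : M} (hi : x ∈ (A.e i).source) :
    rho A ψ x = (cHess (A.c ψ i) (A.e i x)).det.re / A.g i (A.e i x) := by
  have hj := (A.cover x).choose_spec
  unfold rho
  generalize (A.cover x).choose = j at hj
  have h1 := A.ch i j x hi hj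
  have h3 := norm_ne_zero_iff.2 (J_ne A hi hj)
  rw [Ag.J, det_jm (an_ch A hi hj).differentiableAt] at h3
  rw [det_jm (an_ch A hi hj).differentiableAt] at h1
  change _ = ‖(jacM (A.e i) (A.e j) x).det‖ ^ 2 * _ at h1
  rw [wch hψ i j x hi hj, Matrix.det_mul, Matrix.det_mul, Matrix.det_transpose, h1,
    ← RingHom.mapMatrix_apply, ← RingHom.map_det, mul_right_comm, Complex.mul_conj',
    ← Complex.ofReal_pow, Complex.re_ofReal_mul]
  exact (mul_div_mul_left _ _ (pow_ne_zero 2 h3)).symm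

theorem wsm (hψ : A.Sm ψ) (i : A.I) (z : Cm n) (hz : z ∈ (A.e i).target) (j k : Fin n) :
    ContDiffAt ℝ ∞ (fun z => cHess (A.c ψ i) z j k) z :=
  P272.K.C2.contDiffAt_cHess (hψ i z hz) (WithTop.coe_le_coe.2 le_top) j k

theorem rho_cont (hψ : A.Sm ψ) : Continuous (rho A ψ) := cont A fun i z hz => by
  have h1 : ContinuousAt (cHess (A.c ψ i)) z :=
    continuousAt_pi.2 fun j => continuousAt_pi.2 fun k => (wsm hψ i z hz j k).continuousAt
  refine ((P284Z.L.S3.cont_det h1).div (A.gs i z hz).1.continuousAt (A.gs i z hz).2.ne').congr ?_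
  filter_upwards [(A.e i).open_target.mem_nhds hz] with y hy
  rw [Ag.c, rho_eq hψ ((A.e i).map_target hy), (A.e i).right_inv hy]
  rfl

theorem wt_sm (hφ : A.Sm φ) (i : A.I) (z : Cm n) (hz : z ∈ (A.e i).target) :
    ContDiffAt ℝ ∞ (A.wt φ i) z := (hφ i z hz).sub ((A.gs i z hz).1.log (A.gs i z hz).2.ne')

theorem exp_wt {i : A.I} {x : M} (hi : x ∈ (A.e i).source) :
    Real.exp (-A.wt φ i (A.e i x)) = Real.exp (-φ x) * A.g i (A.e i x) := by
  rw [Ag.wt, Ag.c, (A.e i).left_inv hi, neg_sub, sub_eq_neg_add, Real.exp_add,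
    Real.exp_log (A.gs i _ ((A.e i).map_source hi)).2]

variable [BorelSpace M] (hψ : A.Sm ψ)
  (hp : ∀ i, ∀ z ∈ (A.e i).target, (cHess (A.c ψ i) z).PosDef) (hφ : A.Sm φ)

include hψ in
theorem lint (g : M → ℝ≥0∞) : ∫⁻ x, g x ∂(A.ν.withDensity fun x => ENNReal.ofReal (rho A ψ x)) =
    ∫⁻ x, ENNReal.ofReal (rho A ψ x) * g x ∂A.ν :=
  lintegral_withDensity_eq_lintegral_mul_non_measurable _
    (rho_cont hψ).measurable.ennreal_ofReal (Eventually.of_forall fun _ => ENNReal.ofReal_lt_top) g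

/-- the anticanonical bundle on the Kähler manifold with the metric `i∂∂̄ψ` -/
def ka : KA n M where
  I := A.I
  e := A.e
  w i := cHess (A.c ψ i)
  φ i := A.wt φ i
  a i j z := (A.J i j z)⁻¹
  μ := A.ν.withDensity fun x => ENNReal.ofReal (rho A ψ x)
  cover := A.cover
  wsm := wsm hψ
  wpos := hp
  wcl i z hz j k l := P272.K.C2.dz_dz_comm l j (P272.K.C2.contDiffAt_dzb k
    (P272.K.C2.contDiffAt_ofReal (hψ i z hz)) (WithTop.coe_le_coe.2 le_top))
  φsm := wt_sm hφ
  hol i j z := A.hol i j z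
  wch := wch hψ
  ahol i j z hz h := (an_det (A.hol i j z hz h)).fun_inv
    ((A.e i).right_inv hz ▸ J_ne A ((A.e i).map_target hz) h)
  coc i j k x hi hj hk := by rw [J_mul A hi hj hk, mul_inv_rev]
  aself i x hi := by
    have h := J_mul A hi hi hi
    rw [left_eq_mul₀ (J_ne A hi hi)] at h
    rw [h, inv_one]
  φch i j x hi hj := by
    have h3 := norm_ne_zero_iff.2 (J_ne A hi hj)
    rw [exp_wt hi, exp_wt hj, A.ch i j x hi hj, norm_inv]
    change _ * (‖A.J i j (A.e i x)‖ ^ 2 * _) * _ = _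
    field_simp
  hμ i f hf h0 := by
    rw [lint hψ, A.hν i _ ((rho_cont hψ).measurable.ennreal_ofReal.fun_mul hf)
      fun x hx => by rw [h0 x hx, mul_zero]]
    refine setLIntegral_congr_fun (A.e i).open_target.measurableSet fun z hz => ?_
    have h1 := (A.gs i z hz).2
    have h2 := (Complex.lt_def.1 (hp i z hz).det_pos).1.le
    simp only [rho_eq hψ ((A.e i).map_target hz), (A.e i).right_inv hz]
    rw [mul_right_comm, ← ENNReal.ofReal_mul (div_nonneg h2 h1.le),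
      div_mul_cancel₀ _ h1.ne', mul_comm]

theorem cut {η : M → ℝ} (h1 : A.Sm η) (h0 : ∀ x, 0 ≤ η x)
    (h2 : ∀ a, IsCompact {x | η x ≤ a}) (h3 : ∀ i, ∀ z ∈ (A.e i).target, ∀ v, v ≠ 0 →
      fderiv ℝ (A.c η i) z v ^ 2 ≤ levi2 (A.c ψ i) z v) : Nonempty (ka hψ hp hφ).Cut := by
  obtain ⟨L, hL⟩ := P284Z.L.S3.th_bd
  refine ⟨⟨fun ν x => P284Z.L.S3.th (η x / (ν + 1)), fun ν => L / (ν + 1) ^ 2 * 2,
    fun ν i z hz => P284Z.L.S3.th_sm.contDiffAt.comp z ((h1 i z hz).div_const _),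
    fun ν => ⟨_, h2 (2 * (ν + 1)), fun x hx => P284Z.L.S3.th_zero ?_⟩,
    fun _ _ => Real.smoothTransition.nonneg _, fun ν x => ?_,
    fun _ _ => Real.smoothTransition.le_one _, fun x => ?_, fun ν i z hz => ?_, ?_⟩⟩
  · rw [le_div_iff₀ (by positivity)]
    exact (not_le.1 hx).le
  · refine Real.smoothTransition.monotone (sub_le_sub_left ?_ _)
    push_cast
    exact div_le_div_of_nonneg_left (h0 x) (by positivity) (by linarith)
  · have h4 : ∀ᶠ x' in 𝓝 x, η x' < η x + 1 :=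
      (cont A fun i z hz => (h1 i z hz).continuousAt).continuousAt.eventually
        (gt_mem_nhds (lt_add_one _))
    filter_upwards [tendsto_natCast_atTop_atTop.eventually_ge_atTop (η x)] with ν hν
    refine h4.mono fun x' h => P284Z.L.S3.th_one ?_
    rw [div_le_one (by positivity)]
    linarith
  · have hd : DifferentiableAt ℝ (A.c η i) z := (h1 i z hz).differentiableAt (by simp)
    refine P284Z.L.S3.cut_grad hL hd EventuallyEq.rfl ?_
    have e : P284.H650.gg (A.c η i) (A.c η i) z = Matrix.of fun j l =>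
        dz j (fun y => ((A.c η i y : ℝ) : ℂ)) z * conj (dz l (fun y => ((A.c η i y : ℝ) : ℂ)) z) :=
      Matrix.ext fun j l => congrArg (fun t => dz j (fun y => ((A.c η i y : ℝ) : ℂ)) z * t)
        (P284Z.L.S1.dzb_real _ hd l)
    exact e ▸ psd_gg ((hψ i z hz).of_le two_le) (h3 i z hz)
  · have := ((tendsto_one_div_add_atTop_nhds_zero_nat (𝕜 := ℝ)).pow 2).const_mul (L * 2)
    simp only [ne_eq, OfNat.ofNat_ne_zero, not_false_eq_true, zero_pow, mul_zero] at this
    exact this.congr fun ν => by rw [div_pow]; ring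

open Classical in
/-- the form given by a function -/
def fm (s : M → ℂ) : (ka hψ hp hφ).Fm n := fun (i : A.I) z =>
  if z ∈ (A.e i).target then A.c s i z • P284Z.L.dt n else 0

variable {hψ hp hφ} {s t : M → ℂ} {i : A.I} {z : Cm n}

theorem fm_in (hz : z ∈ (A.e i).target) : fm hψ hp hφ s i z = A.c s i z • P284Z.L.dt n := if_pos hz

theorem fm_near (hz : z ∈ (A.e i).target) : fm hψ hp hφ s i =ᶠ[𝓝 z] fun y => A.c s i y • P284Z.L.dt n :=
  mem_of_superset ((A.e i).open_target.mem_nhds hz) fun _ hy => fm_in hy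

theorem fm_form (s : M → ℂ) : (ka hψ hp hφ).IsForm (fm hψ hp hφ s) where
  off _ _ hz := if_neg hz
  change (i j : A.I) x hi hj := by
    change fm hψ hp hφ s i (A.e i x) = (A.J i j (A.e i x))⁻¹ •
      (fm hψ hp hφ s j (A.e j x)).compContinuousLinearMap
        (fderiv ℂ (fun z => A.e j ((A.e i).symm z)) (A.e i x))
    have e : ∀ (c : ℂ) (L : Cm n →L[ℂ] Cm n), (c • P284Z.L.dt n).compContinuousLinearMap L =
      c • (P284Z.L.dt n).compContinuousLinearMap L := fun _ _ => rfl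
    have h := J_ne A hi hj
    rw [fm_in ((A.e i).map_source hi), fm_in ((A.e j).map_source hj), e,
      dt_comp, LinearMap.det_toMatrix', smul_smul, smul_smul, Ag.c, Ag.c,
      (A.e i).left_inv hi, (A.e j).left_inv hj]
    congr 1
    change _ = _ * _ * A.J i j (A.e i x)
    field_simp

theorem fm_sub : fm hψ hp hφ s - fm hψ hp hφ t = fm hψ hp hφ (s - t) := by
  funext i z
  change fm hψ hp hφ s i z - fm hψ hp hφ t i z = _
  unfold fm Ag.c
  split_ifs
  · ext v
    simp only [ContinuousAlternatingMap.sub_apply, ContinuousAlternatingMap.smul_apply,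
      smul_eq_mul, Pi.sub_apply]
    ring
  · exact sub_zero _

omit [BorelSpace M] in
include hψ hp in
theorem rho_pos (x : M) : 0 < rho A ψ x := by
  obtain ⟨i, hi⟩ := A.cover x
  have hz := (A.e i).map_source hi
  rw [rho_eq hψ hi]
  exact div_pos (Complex.lt_def.1 (hp i _ hz).det_pos).1 (A.gs i _ hz).2

theorem fm_nl (s : M → ℂ) : (ka hψ hp hφ).nl (fm hψ hp hφ s) = A.L2 s φ := by
  unfold Ag.L2
  refine (lint hψ _).trans (lintegral_congr fun x => ?_)
  have hx := mem_ix (ka hψ hp hφ) x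
  unfold KA.dn
  generalize (ka hψ hp hφ).ix x = i at hx
  have hz := (A.e i).map_source hx
  have h1 := (rho_pos (hψ := hψ) (hp := hp) x).ne'
  rw [← ENNReal.ofReal_mul (rho_pos (hψ := hψ) (hp := hp) x).le, Complex.re_ofReal_mul]
  change ENNReal.ofReal (_ * (Real.exp (-A.wt φ i (A.e i x)) * (hn (cHess (A.c ψ i) (A.e i x))
    (fm hψ hp hφ s i (A.e i x)) (fm hψ hp hφ s i (A.e i x))).re)) = _
  rw [fm_in hz, P284Z.L.S1.hn_smul, hn_dt (hp i _ hz), exp_wt hx]
  rw [rho_eq hψ hx] at h1 ⊢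
  simp only [Ag.c, (A.e i).left_inv hx]
  congr 1
  obtain ⟨h2, h3⟩ := div_ne_zero_iff.1 h1
  field_simp

theorem exists_sec {η : (ka hψ hp hφ).Fm n} (h : (ka hψ hp hφ).IsForm η) :
    ∃ s, η = fm hψ hp hφ s := by
  choose k hk using A.cover
  refine ⟨fun x => ev (η (k x) (A.e (k x) x)) id, funext fun (i : A.I) => funext fun z => ?_⟩
  by_cases hz : z ∈ (A.e i).target
  swap
  · rw [h.off i z hz, (fm_form _).off i z hz]
  have hx := (A.e i).map_target hz
  have h1 := h.change i (k _) _ hx (hk _)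
  have h2 := (fm_form (hψ := hψ) (hp := hp) (hφ := hφ)
    fun x => ev (η (k x) (A.e (k x) x)) id).change i (k _) _ hx (hk _)
  rw [← (A.e i).right_inv hz]
  refine h1.trans (Eq.trans ?_ h2.symm)
  congr 2
  have hz' := (A.e _).map_source (hk ((A.e i).symm z))
  refine (top_eq _).trans ((fm_in hz').trans ?_).symm
  rw [Ag.c, (A.e _).left_inv (hk _)]
  rfl

theorem hord_ag {r : ℕ} {M : Type} [TopologicalSpace M] [T2Space M] [MeasurableSpace M]
    [BorelSpace M] (A : Ag (r + 1) M) {ψ η φ Λ : M → ℝ} {s₀ : M → ℂ} {C₀ : ℝ} (hψ : A.Sm ψ)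
    (hη : A.Sm η) (η0 : ∀ x, 0 ≤ η x) (ηc : ∀ a, IsCompact {x | η x ≤ a})
    (hl : ∀ i, ∀ z ∈ (A.e i).target, ∀ v, v ≠ 0 →
      0 < levi2 (A.c ψ i) z v ∧ fderiv ℝ (A.c η i) z v ^ 2 ≤ levi2 (A.c ψ i) z v)
    (hφ : A.Sm φ) (hφ' : ∀ i, ∀ z ∈ (A.e i).target, ∀ v, 0 ≤ levi2 (A.wt φ i) z v)
    (h1 : A.Sm s₀) (h3 : ∀ x, 0 ≤ Λ x) (h4 : 0 ≤ C₀) (h5 : ∀ i, ∀ z ∈ (A.e i).target, ∀ v,
      ‖fderiv ℝ (A.c s₀ i) z v + Complex.I * fderiv ℝ (A.c s₀ i) z (Complex.I • v)‖ ^ 2 ≤
        A.c Λ i z * levi2 (A.wt φ i) z v)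
    (h6 : ∫⁻ x, ENNReal.ofReal (Λ x * Real.exp (-φ x)) ∂A.ν ≤ ENNReal.ofReal C₀)
    (h2 : A.L2 s₀ φ < ⊤) : ∃ s : M → ℂ, (∀ i, ∀ z ∈ (A.e i).target, AnalyticAt ℂ (A.c s i) z) ∧
      A.L2 (s - s₀) φ ≤ ENNReal.ofReal C₀ := by
  have hp : ∀ i, ∀ z ∈ (A.e i).target, (cHess (A.c ψ i) z).PosDef := fun i z hz =>
    .of_dotProduct_mulVec_pos (P272.K.cHess_isHermitian ((hψ i z hz).of_le two_le)) fun x hx => by
      rw [quad ((hψ i z hz).of_le two_le), Complex.zero_lt_real]
      linarith [(hl i z hz _ (star_ne_zero.2 hx)).1]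
  have k1 := P284.H752.k1Stmt
  have k3 := k3 (r + 1) M (ka hψ hp hφ)
  obtain ⟨χ⟩ := cut hψ hp hφ hη η0 ηc fun i z hz v hv => (hl i z hz v hv).2
  have hp' : ∀ i, ∀ z ∈ (A.e i).target, (cHess (A.wt φ i) z).PosSemidef := fun i z hz =>
    .of_dotProduct_mulVec_nonneg (P272.K.cHess_isHermitian ((wt_sm hφ i z hz).of_le two_le))
      fun x => by
        rw [quad ((wt_sm hφ i z hz).of_le two_le), Complex.zero_le_real]
        linarith [hφ' i z hz (star x)]
  have g1 := fm_form (hψ := hψ) (hp := hp) (hφ := hφ) s₀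
  have g2 : (ka hψ hp hφ).Smooth (fm hψ hp hφ s₀) := fun i z hz =>
    ((h1 i z hz).smul_const _).congr_of_eventuallyEq (fm_near hz)
  obtain ⟨η, a1, a2, -, a4⟩ := eng (r + 1) M _ χ hp' r _ g1 g2 ((fm_nl s₀).trans_lt h2)
    (funext fun i => funext fun z => P284.H136.K8.af_zero _) C₀ fun τ hτ => by
      rw [mul_comm]
      refine P284.H752.K8.int_cs (S := univ)
        (B := fun x => Λ x * Real.exp (-φ x) / rho A ψ x) (k3.intT r τ hτ).2
        (dA_nonneg k1 hp' τ) (fun x => ?_) (fun x _ => div_nonneg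
          (mul_nonneg (h3 x) (Real.exp_pos _).le) (rho_pos (hψ := hψ) (hp := hp) x).le) h4 ?_
      swap
      · rw [Measure.restrict_univ]
        refine ((lint hψ _).trans (lintegral_congr fun x => ?_)).trans_le h6
        have := rho_pos (hψ := hψ) (hp := hp) x
        rw [← ENNReal.ofReal_mul this.le, mul_div_cancel₀ _ this.ne']
      obtain ⟨i, hx⟩ := A.cover x
      have hz := (A.e i).map_source hx
      have e1 : (ka hψ hp hφ).S (fm hψ hp hφ s₀) i (A.e i x) = SL (cHess (A.c ψ i))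
          (fun y => A.c s₀ i y • P284Z.L.dt (r + 1)) (A.e i x) := by
        refine (if_pos hz).trans ?_
        unfold SL
        rw [funext (P284Z.L.S1.dbV_congr (fm_near hz))]
        rfl
      have h9 := P284Z.L.S1.hn_SL (w := cHess (A.c ψ i)) (σ := fun _ => P284Z.L.dt (r + 1))
        (hp i _ hz) ((h1 i _ hz).differentiableAt (by simp)) (differentiableAt_const _)
        (psd_bb ((wt_sm hφ i _ hz).of_le two_le) (h5 i _ hz)) (τ i (A.e i x))
      rw [hn_dt (hp i _ hz), ← e1] at h9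
      rw [indicator_univ, k3.dn_eq r τ _ hτ.form (k3.S_form r _ g1 g2).1 i x hx,
        k3.dA_eq r τ hτ.form i x hx, norm_mul, mul_pow, Complex.norm_real,
        Real.norm_of_nonneg (Real.exp_pos _).le, rho_eq hψ hx]
      refine (mul_le_mul_of_nonneg_left h9 (sq_nonneg _)).trans (le_of_eq ?_)
      change Real.exp (-A.wt φ i (A.e i x)) ^ 2 * _ = Real.exp (-A.wt φ i (A.e i x)) *
        (Ad (cHess (A.c ψ i) (A.e i x)) (cHess (A.wt φ i) (A.e i x)) (τ i (A.e i x))).re * _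
      rw [exp_wt hx, show A.c Λ i (A.e i x) = Λ x from congrArg Λ ((A.e i).left_inv hx)]
      field_simp
  obtain ⟨s, rfl⟩ := exists_sec a1
  refine ⟨s, fun i z hz => ?_, by rwa [fm_sub, fm_nl] at a4⟩
  refine (((ContinuousAlternatingMap.apply ℂ (Cm (r + 1)) ℂ fun i => Pi.single i 1).analyticAt
    _).comp (a2 i z hz)).congr ?_
  filter_upwards [(A.e i).open_target.mem_nhds hz] with y hy
  have h7 := ev_dt (1 : Equiv.Perm (Fin (r + 1)))
  rw [Function.comp_apply, fm_in hy]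
  change A.c s i y * ev (P284Z.L.dt (r + 1)) (fun i => (1 : Equiv.Perm (Fin (r + 1))) i) = _
  rw [h7]
  simp

end Vale.Agent.P253W.X.H2
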