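import Vale.Agent.P253W.X.Defs
import Vale.Agent.P253W.Y.HordA
import Vale.Agent.P253Z.B1a.Ch

/-!
# P253W, block X: the theorem of Hörmander for an atlas with values in `ℂⁿ` and a volume density
-/

open scoped ContDiff ENNReal Topology ComplexConjugate ComplexOrder Matrix
open MeasureTheory Set Metric Filter
open Vale.Agent.P272.K (Cm dz dzb cHess jacM Chart)
open Vale.Agent.P284.H608.K Vale.Agent.P284.H286.K
open Vale.Agent.P253Z.HORa (ev_dt hn_dt top_eq dt_comp)
open Vale.Agent.P253W.Y.Hd (two_le psd_gg psd_bb det_jm)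

noncomputable section

namespace Vale.Agent.P253W.X.Hd

theorem lv2_sub {V : Type} [NormedAddCommGroup V] [NormedSpace ℝ V] [NormedSpace ℂ V]
    {u w : V → ℝ} {z : V} (hu : ContDiffAt ℝ 2 u z) (hw : ContDiffAt ℝ 2 w z) (v : V) :
    lv2 (fun y => u y - w y) z v = lv2 u z v - lv2 w z v := by
  have h1 : fderiv ℝ (fun y => u y - w y) =ᶠ[𝓝 z] fun y => fderiv ℝ u y - fderiv ℝ w y := by
    filter_upwards [hu.eventually (by simp), hw.eventually (by simp)] with y h1 h2
    exact fderiv_fun_sub (h1.differentiableAt two_ne_zero) (h2.differentiableAt two_ne_zero)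
  unfold lv2
  rw [h1.fderiv_eq, fderiv_fun_sub ((hu.fderiv_right (m := 1) le_rfl).differentiableAt one_ne_zero)
    ((hw.fderiv_right (m := 1) le_rfl).differentiableAt one_ne_zero)]
  simp only [sub_apply]
  ring

variable {n : ℕ}

theorem quad {u : Cm n → ℝ} {z : Cm n} (hu : ContDiffAt ℝ ∞ u z) (x : Cm n) :
    star x ⬝ᵥ cHess u z *ᵥ x = (lv2 u z (star x) / 4 : ℝ) := Y.Hd.quad (hu.of_le two_le) x

/-- a holomorphic atlas with a measure which has the density `exp (l i)` in the chart `i` -/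
structure Atd (n : ℕ) (M : Type) [TopologicalSpace M] [MeasurableSpace M] where
  I : Type
  e : I → OpenPartialHomeomorph M (Cm n)
  l : I → Cm n → ℝ
  ν : Measure M
  cover : ∀ x, ∃ i, x ∈ (e i).source
  hol : ∀ i j, ∀ z ∈ (e i).target, (e i).symm z ∈ (e j).source →
    AnalyticAt ℂ (fun z => e j ((e i).symm z)) z
  sm : ∀ i, ∀ z ∈ (e i).target, ContDiffAt ℝ ∞ (l i) z ∧ ∀ v, lv2 (l i) z v ≤ 0
  ch : ∀ i j, ∀ x ∈ (e i).source, x ∈ (e j).source → Real.exp (l i (e i x)) =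
    ‖(fderiv ℂ (fun z => e j ((e i).symm z)) (e i x)).det‖ ^ 2 * Real.exp (l j (e j x))
  hν : ∀ i (f : M → ℝ≥0∞), Measurable f → (∀ x ∉ (e i).source, f x = 0) →
    ∫⁻ x, f x ∂ν = ∫⁻ z in (e i).target, f ((e i).symm z) * ENNReal.ofReal (Real.exp (l i z))

variable {M : Type} [TopologicalSpace M] [MeasurableSpace M] (A : Atd n M)

namespace Atd

/-- a function in a chart -/
def c {V : Type} (f : M → V) (i : A.I) (z : Cm n) : V := f ((A.e i).symm z)

/-- smooth functions -/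
def Sm {V : Type} [NormedAddCommGroup V] [NormedSpace ℝ V] (f : M → V) : Prop :=
  ∀ i, ∀ z ∈ (A.e i).target, ContDiffAt ℝ ∞ (A.c f i) z

/-- the weighted norm -/
def L2 (s : M → ℂ) (φ : M → ℝ) : ℝ≥0∞ :=
  ∫⁻ x, ENNReal.ofReal (‖s x‖ ^ 2 * Real.exp (-φ x)) ∂A.ν

/-- the Jacobian determinant -/
def jd (i j : A.I) (z : Cm n) : ℂ := (fderiv ℂ (fun z => A.e j ((A.e i).symm z)) z).det

end Atd

theorem c_ch {V : Type} (f : M → V) {i j : A.I} {x : M} (hi : x ∈ (A.e i).source)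
    (hj : x ∈ (A.e j).source) :
    A.c f i =ᶠ[𝓝 (A.e i x)] fun z => A.c f j (A.e j ((A.e i).symm z)) := by
  have h := ((A.e i).continuousAt_symm ((A.e i).map_source hi)).eventually
    ((A.e j).open_source.mem_nhds (by rwa [(A.e i).left_inv hi]))
  exact h.mono fun z hz => congrArg f ((A.e j).left_inv hz).symm

theorem cont {V : Type} [TopologicalSpace V] {f : M → V}
    (h : ∀ i, ∀ z ∈ (A.e i).target, ContinuousAt (A.c f i) z) : Continuous f :=
  continuous_iff_continuousAt.2 fun x => by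
    obtain ⟨i, hi⟩ := A.cover x
    refine ((h i _ ((A.e i).map_source hi)).comp ((A.e i).continuousAt hi)).congr ?_
    exact mem_of_superset ((A.e i).open_source.mem_nhds hi) fun y hy =>
      congrArg f ((A.e i).left_inv hy)

theorem an_ch {i j : A.I} {x : M} (hi : x ∈ (A.e i).source) (hj : x ∈ (A.e j).source) :
    AnalyticAt ℂ (fun z => A.e j ((A.e i).symm z)) (A.e i x) :=
  A.hol i j _ ((A.e i).map_source hi) (by rwa [(A.e i).left_inv hi])

theorem jd_ne {i j : A.I} {x : M} (hi : x ∈ (A.e i).source) (hj : x ∈ (A.e j).source) :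
    A.jd i j (A.e i x) ≠ 0 := fun h => by
  have h1 := A.ch i j x hi hj
  change _ = ‖A.jd i j (A.e i x)‖ ^ 2 * _ at h1
  rw [h, norm_zero, zero_pow two_ne_zero, zero_mul] at h1
  exact (Real.exp_pos _).ne' h1

theorem jd_mul {i j k : A.I} {x : M} (hi : x ∈ (A.e i).source) (hj : x ∈ (A.e j).source)
    (hk : x ∈ (A.e k).source) : A.jd i k (A.e i x) = A.jd j k (A.e j x) * A.jd i j (A.e i x) := by
  have h2 : HasFDerivAt (fun z => A.e k ((A.e j).symm z))
      (fderiv ℂ (fun z => A.e k ((A.e j).symm z)) (A.e j x))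
      (A.e j ((A.e i).symm (A.e i x))) := by
    rw [(A.e i).left_inv hi]
    exact (an_ch A hj hk).differentiableAt.hasFDerivAt
  have h3 := ((c_ch A (A.e k) hi hj).fderiv_eq (𝕜 := ℂ)).trans
    (HasFDerivAt.comp (f := fun z => A.e j ((A.e i).symm z)) _ h2
      (an_ch A hi hj).differentiableAt.hasFDerivAt).fderiv
  exact (congrArg ContinuousLinearMap.det h3).trans (LinearMap.det_comp _ _)

/-- the density of the volume of `i∂∂̄ψ` -/
def rho (ψ : M → ℝ) (x : M) : ℝ :=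
  (cHess (A.c ψ (A.cover x).choose) (A.e (A.cover x).choose x)).det.re /
    Real.exp (A.l (A.cover x).choose (A.e (A.cover x).choose x))

variable {A} {ψ φ : M → ℝ}

theorem wch (hψ : A.Sm ψ) (i j : A.I) (x : M) (hi : x ∈ (A.e i).source)
    (hj : x ∈ (A.e j).source) : cHess (A.c ψ i) (A.e i x) = (jacM (A.e i) (A.e j) x)ᵀ *
      cHess (A.c ψ j) (A.e j x) * (jacM (A.e i) (A.e j) x).map (starRingEnd ℂ) := by
  have h := P272.K.cHess_comp (f := A.c ψ j) (τ := fun z => A.e j ((A.e i).symm z))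
    (z := A.e i x) (by
      rw [(A.e i).left_inv hi]
      exact (hψ j _ ((A.e j).map_source hj)).of_le two_le) (an_ch A hi hj).contDiffAt
  rw [P272.K.cHess_congr (c_ch A ψ hi hj), h, (A.e i).left_inv hi]
  rfl

theorem rho_eq (hψ : A.Sm ψ) {i : A.I} {x : M} (hi : x ∈ (A.e i).source) :
    rho A ψ x = (cHess (A.c ψ i) (A.e i x)).det.re / Real.exp (A.l i (A.e i x)) := by
  have hj := (A.cover x).choose_spec
  unfold rho
  generalize (A.cover x).choose = j at hj
  have h1 := A.ch i j x hi hj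
  have h3 := norm_ne_zero_iff.2 (jd_ne A hi hj)
  rw [Atd.jd] at h3
  rw [det_jm (an_ch A hi hj).differentiableAt] at h1 h3
  change _ = ‖(jacM (A.e i) (A.e j) x).det‖ ^ 2 * _ at h1
  change ‖(jacM (A.e i) (A.e j) x).det‖ ≠ 0 at h3
  rw [wch hψ i j x hi hj, Matrix.det_mul, Matrix.det_mul, Matrix.det_transpose, h1,
    ← RingHom.mapMatrix_apply, ← RingHom.map_det, mul_right_comm, Complex.mul_conj',
    ← Complex.ofReal_pow, Complex.re_ofReal_mul, mul_div_mul_left _ _ (pow_ne_zero 2 h3)]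

theorem wsm (hψ : A.Sm ψ) (i : A.I) (z : Cm n) (hz : z ∈ (A.e i).target) (j k : Fin n) :
    ContDiffAt ℝ ∞ (fun z => cHess (A.c ψ i) z j k) z :=
  P272.K.C2.contDiffAt_cHess (hψ i z hz) (WithTop.coe_le_coe.2 le_top) j k

theorem rho_cont (hψ : A.Sm ψ) : Continuous (rho A ψ) := cont A fun i z hz => by
  have h1 : ContinuousAt (cHess (A.c ψ i)) z :=
    continuousAt_pi.2 fun j => continuousAt_pi.2 fun k => (wsm hψ i z hz j k).continuousAt
  refine ((P284Z.L.S3.cont_det h1).div (A.sm i z hz).1.continuousAt.rexp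
    (Real.exp_pos _).ne').congr ?_
  filter_upwards [(A.e i).open_target.mem_nhds hz] with y hy
  rw [Atd.c, rho_eq hψ ((A.e i).map_target hy), (A.e i).right_inv hy]
  rfl

variable [BorelSpace M] (hψ : A.Sm ψ)
  (hp : ∀ i, ∀ z ∈ (A.e i).target, (cHess (A.c ψ i) z).PosDef) (hφ : A.Sm φ)

include hψ in
theorem lint (g : M → ℝ≥0∞) : ∫⁻ x, g x ∂(A.ν.withDensity fun x => ENNReal.ofReal (rho A ψ x)) =
    ∫⁻ x, ENNReal.ofReal (rho A ψ x) * g x ∂A.ν :=
  lintegral_withDensity_eq_lintegral_mul_non_measurable _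
    (rho_cont hψ).measurable.ennreal_ofReal (Eventually.of_forall fun _ => ENNReal.ofReal_lt_top) g

/-- the anticanonical bundle with the weight `φ - l` on the Kähler manifold with the metric
`i∂∂̄ψ` -/
def ka : KA n M where
  I := A.I
  e := A.e
  w i := cHess (A.c ψ i)
  φ i z := A.c φ i z - A.l i z
  a i j z := (A.jd i j z)⁻¹
  μ := A.ν.withDensity fun x => ENNReal.ofReal (rho A ψ x)
  cover x := A.cover x
  wsm := wsm hψ
  wpos := hp
  wcl i z hz j k l := P272.K.C2.dz_dz_comm l j (P272.K.C2.contDiffAt_dzb k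
    (P272.K.C2.contDiffAt_ofReal (hψ i z hz)) (WithTop.coe_le_coe.2 le_top))
  φsm i z hz := (hφ i z hz).sub (A.sm i z hz).1
  hol i j z := A.hol i j z
  wch := wch hψ
  ahol i j z hz h := by
    have h1 := P253Z.B1aP.analyticAt_det (A.hol i j z hz h)
    simp only [LinearMap.det_toMatrix'] at h1
    have h2 := jd_ne A ((A.e i).map_target hz) h
    rw [(A.e i).right_inv hz] at h2
    exact h1.fun_inv h2
  coc i j k x hi hj hk := by rw [jd_mul A hi hj hk, mul_inv, mul_comm]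
  aself i x hi := inv_eq_one.2 (mul_left_cancel₀ (jd_ne A hi hi)
    ((jd_mul A hi hi hi).symm.trans (mul_one _).symm))
  φch i j x hi hj := by
    have h1 := A.ch i j x hi hj
    have h3 := norm_ne_zero_iff.2 (jd_ne A hi hj)
    change _ = ‖A.jd i j (A.e i x)‖ ^ 2 * _ at h1
    simp only [Atd.c, (A.e i).left_inv hi, (A.e j).left_inv hj, neg_sub, Real.exp_sub, h1,
      norm_inv]
    field_simp
  hμ i f hf h0 := by
    rw [lint hψ, A.hν i _ ((rho_cont hψ).measurable.ennreal_ofReal.fun_mul hf)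
      fun x hx => by rw [h0 x hx, mul_zero]]
    refine setLIntegral_congr_fun (A.e i).open_target.measurableSet fun z hz => ?_
    have h2 := (Complex.lt_def.1 (hp i z hz).det_pos).1.le
    simp only [rho_eq hψ ((A.e i).map_target hz), (A.e i).right_inv hz]
    rw [mul_right_comm, ← ENNReal.ofReal_mul (div_nonneg h2 (Real.exp_pos _).le),
      div_mul_cancel₀ _ (Real.exp_pos _).ne', mul_comm]

theorem cut {η : M → ℝ} (h1 : A.Sm η) (h0 : ∀ x, 0 ≤ η x)
    (h2 : ∀ a, ∃ C, IsCompact C ∧ ∀ x ∉ C, a ≤ η x)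
    (h3 : ∀ i, ∀ z ∈ (A.e i).target, ∀ v, v ≠ 0 →
      fderiv ℝ (A.c η i) z v ^ 2 ≤ lv2 (A.c ψ i) z v) : Nonempty (ka hψ hp hφ).Cut := by
  obtain ⟨L, hL⟩ := P284Z.L.S3.th_bd
  refine ⟨⟨fun ν x => P284Z.L.S3.th (η x / (ν + 1)), fun ν => L / (ν + 1) ^ 2 * 2,
    fun ν i z hz => P284Z.L.S3.th_sm.contDiffAt.comp z ((h1 i z hz).div_const _),
    fun ν => (h2 (2 * (ν + 1))).imp fun C hC => ⟨hC.1, fun x hx => P284Z.L.S3.th_zero ?_⟩,
    fun _ _ => Real.smoothTransition.nonneg _, fun ν x => ?_,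
    fun _ _ => Real.smoothTransition.le_one _, fun x => ?_, fun ν i z hz => ?_, ?_⟩⟩
  · rw [le_div_iff₀ (by positivity)]
    exact hC.2 x hx
  · refine Real.smoothTransition.monotone (sub_le_sub_left ?_ _)
    push_cast
    exact div_le_div_of_nonneg_left (h0 x) (by positivity) (by linarith)
  · have h4 : ∀ᶠ x' in 𝓝 x, η x' < η x + 1 :=
      (cont A fun i z hz => (h1 i z hz).continuousAt).continuousAt.eventually
        (gt_mem_nhds (lt_add_one _))
    filter_upwards [tendsto_natCast_atTop_atTop.eventually_ge_atTop (η x)] with ν hν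
    refine h4.mono fun x' h => P284Z.L.S3.th_one ?_
    rw [div_le_one (by positivity)]
    linarith
  · have hd : DifferentiableAt ℝ (A.c η i) z := (h1 i z hz).differentiableAt (by simp)
    refine P284Z.L.S3.cut_grad hL hd EventuallyEq.rfl ?_
    have e : P284.H650.gg (A.c η i) (A.c η i) z = Matrix.of fun j l =>
        dz j (fun y => ((A.c η i y : ℝ) : ℂ)) z * conj (dz l (fun y => ((A.c η i y : ℝ) : ℂ)) z) :=
      Matrix.ext fun j l => congrArg (fun t => dz j (fun y => ((A.c η i y : ℝ) : ℂ)) z * t)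
        (P284Z.L.S1.dzb_real _ hd l)
    exact e ▸ psd_gg ((hψ i z hz).of_le two_le) (h3 i z hz)
  · have := ((tendsto_one_div_add_atTop_nhds_zero_nat (𝕜 := ℝ)).pow 2).const_mul (L * 2)
    simp only [ne_eq, OfNat.ofNat_ne_zero, not_false_eq_true, zero_pow, mul_zero] at this
    exact this.congr fun ν => by rw [div_pow]; ring

open Classical in
/-- the form given by a function -/
def fm (s : M → ℂ) : (ka hψ hp hφ).Fm n := fun (i : A.I) z =>
  if z ∈ (A.e i).target then A.c s i z • P284Z.L.dt n else 0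

variable {hψ hp hφ} {s t : M → ℂ} {i : A.I} {z : Cm n}

theorem fm_in (hz : z ∈ (A.e i).target) : fm hψ hp hφ s i z = A.c s i z • P284Z.L.dt n :=
  if_pos hz

theorem fm_near (hz : z ∈ (A.e i).target) :
    fm hψ hp hφ s i =ᶠ[𝓝 z] fun y => A.c s i y • P284Z.L.dt n :=
  mem_of_superset ((A.e i).open_target.mem_nhds hz) fun _ hy => fm_in hy

theorem fm_form (s : M → ℂ) : (ka hψ hp hφ).IsForm (fm hψ hp hφ s) where
  off _ _ hz := if_neg hz
  change (i j : A.I) x hi hj := by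
    change fm hψ hp hφ s i (A.e i x) = (A.jd i j (A.e i x))⁻¹ •
      (fm hψ hp hφ s j (A.e j x)).compContinuousLinearMap
        (fderiv ℂ (fun z => A.e j ((A.e i).symm z)) (A.e i x))
    have e : ∀ (c : ℂ) (L : Cm n →L[ℂ] Cm n), (c • P284Z.L.dt n).compContinuousLinearMap L =
      c • (P284Z.L.dt n).compContinuousLinearMap L := fun _ _ => rfl
    rw [fm_in ((A.e i).map_source hi), fm_in ((A.e j).map_source hj), e, dt_comp,
      LinearMap.det_toMatrix', smul_smul, smul_smul, Atd.c, Atd.c, (A.e i).left_inv hi,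
      (A.e j).left_inv hj]
    congr 1
    change _ = _ * _ * A.jd i j (A.e i x)
    field_simp [jd_ne A hi hj]

theorem fm_sub : fm hψ hp hφ s - fm hψ hp hφ t = fm hψ hp hφ (s - t) := by
  funext i z
  change fm hψ hp hφ s i z - fm hψ hp hφ t i z = _
  unfold fm Atd.c
  split_ifs
  · ext v
    simp only [ContinuousAlternatingMap.sub_apply, ContinuousAlternatingMap.smul_apply,
      smul_eq_mul, Pi.sub_apply]
    ring
  · exact sub_zero _

omit [BorelSpace M] in
include hψ hp in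
theorem rho_pos (x : M) : 0 < rho A ψ x := by
  obtain ⟨i, hi⟩ := A.cover x
  rw [rho_eq hψ hi]
  exact div_pos (Complex.lt_def.1 (hp i _ ((A.e i).map_source hi)).det_pos).1 (Real.exp_pos _)

theorem fm_nl (s : M → ℂ) : (ka hψ hp hφ).nl (fm hψ hp hφ s) = A.L2 s φ := by
  refine (lint hψ _).trans (lintegral_congr fun x => ?_)
  have hx := mem_ix (ka hψ hp hφ) x
  unfold KA.dn
  generalize (ka hψ hp hφ).ix x = i at hx
  have hz := (A.e i).map_source hx
  have h1 := (rho_pos (hψ := hψ) (hp := hp) x).ne'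
  rw [← ENNReal.ofReal_mul (rho_pos (hψ := hψ) (hp := hp) x).le, Complex.re_ofReal_mul]
  change ENNReal.ofReal (_ * (Real.exp (-(A.c φ i (A.e i x) - A.l i (A.e i x))) *
    (hn (cHess (A.c ψ i) (A.e i x)) (fm hψ hp hφ s i (A.e i x))
      (fm hψ hp hφ s i (A.e i x))).re)) = _
  rw [fm_in hz, P284Z.L.S1.hn_smul, hn_dt (hp i _ hz)]
  rw [rho_eq hψ hx] at h1 ⊢
  simp only [Atd.c, (A.e i).left_inv hx, neg_sub, Real.exp_sub, Real.exp_neg]
  congr 1
  obtain ⟨h2, -⟩ := div_ne_zero_iff.1 h1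
  field_simp

theorem exists_sec {η : (ka hψ hp hφ).Fm n} (h : (ka hψ hp hφ).IsForm η) :
    ∃ s, η = fm hψ hp hφ s := by
  choose k hk using A.cover
  refine ⟨fun x => ev (η (k x) (A.e (k x) x)) id, funext fun (i : A.I) => funext fun z => ?_⟩
  by_cases hz : z ∈ (A.e i).target
  swap
  · rw [h.off i z hz, (fm_form _).off i z hz]
  have hx := (A.e i).map_target hz
  have h1 := h.change i (k _) _ hx (hk _)
  have h2 := (fm_form (hψ := hψ) (hp := hp) (hφ := hφ)
    fun x => ev (η (k x) (A.e (k x) x)) id).change i (k _) _ hx (hk _)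
  rw [← (A.e i).right_inv hz]
  refine h1.trans (Eq.trans ?_ h2.symm)
  congr 2
  have hz' := (A.e _).map_source (hk ((A.e i).symm z))
  refine (top_eq _).trans ((fm_in hz').trans ?_).symm
  rw [Atd.c, (A.e _).left_inv (hk _)]
  rfl

theorem hord_cm {r : ℕ} {M : Type} [TopologicalSpace M] [T2Space M] [MeasurableSpace M]
    [BorelSpace M] (A : Atd (r + 1) M) {ψ η φ Λ : M → ℝ} {s₀ : M → ℂ} {C₀ : ℝ} (hψ : A.Sm ψ)
    (hη : A.Sm η) (η0 : ∀ x, 0 ≤ η x) (ηc : ∀ a, ∃ C, IsCompact C ∧ ∀ x ∉ C, a ≤ η x)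
    (hl : ∀ i, ∀ z ∈ (A.e i).target, ∀ v, v ≠ 0 → 0 < lv2 (A.c ψ i) z v ∧
      fderiv ℝ (A.c η i) z v ^ 2 ≤ lv2 (A.c ψ i) z v) (hφ : A.Sm φ)
    (hφ' : ∀ i, ∀ z ∈ (A.e i).target, ∀ v, 0 ≤ lv2 (A.c φ i) z v) (h1 : A.Sm s₀)
    (h3 : ∀ x, 0 ≤ Λ x) (h4 : 0 ≤ C₀) (h5 : ∀ i, ∀ z ∈ (A.e i).target, ∀ v,
      ‖fderiv ℝ (A.c s₀ i) z v + Complex.I * fderiv ℝ (A.c s₀ i) z (Complex.I • v)‖ ^ 2 ≤
        A.c Λ i z * lv2 (A.c φ i) z v)
    (h6 : ∫⁻ x, ENNReal.ofReal (Λ x * Real.exp (-φ x)) ∂A.ν ≤ ENNReal.ofReal C₀)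
    (h2 : A.L2 s₀ φ < ⊤) : ∃ s, (∀ i, ∀ z ∈ (A.e i).target, AnalyticAt ℂ (A.c s i) z) ∧
      A.L2 (s - s₀) φ ≤ ENNReal.ofReal C₀ := by
  have hp : ∀ i, ∀ z ∈ (A.e i).target, (cHess (A.c ψ i) z).PosDef := fun i z hz =>
    .of_dotProduct_mulVec_pos (P272.K.cHess_isHermitian ((hψ i z hz).of_le two_le)) fun x hx => by
      rw [quad (hψ i z hz), Complex.zero_lt_real]
      linarith [(hl i z hz _ (star_ne_zero.2 hx)).1]
  have k1 := P284.H752.k1Stmt
  have k3 := k3 (r + 1) M (ka hψ hp hφ)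
  obtain ⟨χ⟩ := cut hψ hp hφ hη η0 ηc fun i z hz v hv => (hl i z hz v hv).2
  have hs : ∀ i, ∀ z ∈ (A.e i).target, ContDiffAt ℝ ∞ (fun z => A.c φ i z - A.l i z) z :=
    (ka hψ hp hφ).φsm
  have hw : ∀ i, ∀ z ∈ (A.e i).target, ∀ v,
      lv2 (A.c φ i) z v ≤ lv2 (fun z => A.c φ i z - A.l i z) z v := fun i z hz v => by
    rw [lv2_sub ((hφ i z hz).of_le two_le) ((A.sm i z hz).1.of_le two_le)]
    linarith [(A.sm i z hz).2 v]
  have hp' : ∀ i, ∀ z ∈ (A.e i).target,
      (cHess (fun z => A.c φ i z - A.l i z) z).PosSemidef := fun i z hz =>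
    .of_dotProduct_mulVec_nonneg (P272.K.cHess_isHermitian ((hs i z hz).of_le two_le))
      fun x => by
        rw [quad (hs i z hz), Complex.zero_le_real]
        linarith [hφ' i z hz (star x), hw i z hz (star x)]
  have g1 := fm_form (hψ := hψ) (hp := hp) (hφ := hφ) s₀
  have g2 : (ka hψ hp hφ).Smooth (fm hψ hp hφ s₀) := fun i z hz =>
    ((h1 i z hz).smul_const _).congr_of_eventuallyEq (fm_near hz)
  obtain ⟨η, a1, a2, -, a4⟩ := eng (r + 1) M _ χ hp' r _ g1 g2 ((fm_nl s₀).trans_lt h2)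
    (funext fun i => funext fun z => P284.H136.K8.af_zero _) C₀ fun τ hτ => by
      rw [mul_comm]
      refine P284.H752.K8.int_cs (S := univ) (B := fun x => Λ x * Real.exp (-φ x) / rho A ψ x)
        (k3.intT r τ hτ).2 (dA_nonneg k1 hp' τ) (fun x => ?_) (fun x _ => div_nonneg (mul_nonneg
          (h3 x) (Real.exp_pos _).le) (rho_pos (hψ := hψ) (hp := hp) x).le) h4 ?_
      swap
      · rw [Measure.restrict_univ]
        refine ((lint hψ _).trans (lintegral_congr fun x => ?_)).trans_le h6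
        have := rho_pos (hψ := hψ) (hp := hp) x
        rw [← ENNReal.ofReal_mul this.le, mul_div_cancel₀ _ this.ne']
      obtain ⟨i, hx⟩ := A.cover x
      have hz := (A.e i).map_source hx
      have e1 : (ka hψ hp hφ).S (fm hψ hp hφ s₀) i (A.e i x) = SL (cHess (A.c ψ i))
          (fun y => A.c s₀ i y • P284Z.L.dt (r + 1)) (A.e i x) := by
        refine (if_pos hz).trans ?_
        unfold SL
        rw [funext (P284Z.L.S1.dbV_congr (fm_near hz))]
        rfl
      have h9 := P284Z.L.S1.hn_SL (w := cHess (A.c ψ i)) (σ := fun _ => P284Z.L.dt (r + 1))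
        (hp i _ hz) ((h1 i _ hz).differentiableAt (by simp)) (differentiableAt_const _)
        (psd_bb ((hs i _ hz).of_le two_le) fun v => (h5 i _ hz v).trans
          (mul_le_mul_of_nonneg_left (hw i _ hz v) (h3 _))) (τ i (A.e i x))
      rw [hn_dt (hp i _ hz), ← e1] at h9
      rw [indicator_univ, k3.dn_eq r τ _ hτ.form (k3.S_form r _ g1 g2).1 i x hx,
        k3.dA_eq r τ hτ.form i x hx, norm_mul, mul_pow, Complex.norm_real,
        Real.norm_of_nonneg (Real.exp_pos _).le, rho_eq hψ hx]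
      refine (mul_le_mul_of_nonneg_left h9 (sq_nonneg _)).trans (le_of_eq ?_)
      change Real.exp (-(A.c φ i (A.e i x) - A.l i (A.e i x))) ^ 2 * _ =
        Real.exp (-(A.c φ i (A.e i x) - A.l i (A.e i x))) * (Ad (cHess (A.c ψ i) (A.e i x))
          (cHess (fun z => A.c φ i z - A.l i z) (A.e i x)) (τ i (A.e i x))).re * _
      rw [show A.c Λ i (A.e i x) = Λ x from congrArg Λ ((A.e i).left_inv hx),
        show A.c φ i (A.e i x) = φ x from congrArg φ ((A.e i).left_inv hx), neg_sub, Real.exp_sub,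
        Real.exp_neg]
      field_simp
  obtain ⟨s, rfl⟩ := exists_sec a1
  refine ⟨s, fun i z hz => ?_, by rwa [fm_sub, fm_nl] at a4⟩
  refine (((ContinuousAlternatingMap.apply ℂ (Cm (r + 1)) ℂ fun i => Pi.single i 1).analyticAt
    _).comp (a2 i z hz)).congr ?_
  filter_upwards [(A.e i).open_target.mem_nhds hz] with y hy
  have h7 := ev_dt (1 : Equiv.Perm (Fin (r + 1)))
  rw [Function.comp_apply, fm_in hy]
  change A.c s i y * ev (P284Z.L.dt (r + 1)) (fun i => (1 : Equiv.Perm (Fin (r + 1))) i) = _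
  rw [h7]
  simp

end Vale.Agent.P253W.X.Hd
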