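import Vale.Agent.P253W.X.Mat
import Vale.Agent.P253W.X.Cal1
import Vale.Agent.P253W.V.Lfp

/-!
# P253W, block X, row IMM: immersed charts
-/

open scoped Manifold ContDiff Bundle Topology ComplexOrder Matrix
open Bundle IsManifold Set Metric Filter Vale.Agent.P253.Mfd Vale.Agent.P253Z
open Vale.Agent.P272.K (Cm dz jacM Chart)

set_option linter.all false

noncomputable section

namespace Vale.Agent.P253W.X

/-- a local Lipschitz bound on a segment -/
theorem seg_le {Y : Type} [MetricSpace Y] {γ : ℝ → Y} {b : ℝ}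
    (h : ∀ t ∈ Icc (0 : ℝ) 1, ∀ᶠ s in 𝓝 t, dist (γ s) (γ t) ≤ b * |s - t|) :
    dist (γ 1) (γ 0) ≤ b := by
  have c : ContinuousOn γ (Icc 0 1) := fun t ht => (tendsto_iff_dist_tendsto_zero.2
    (squeeze_zero' (.of_forall fun _ => dist_nonneg) (h t ht)
      (Continuous.tendsto' (by fun_prop) _ _ (by simp)))).mono_left nhdsWithin_le_nhds
  rw [← mul_one b]
  refine IsClosed.Icc_subset_of_forall_mem_nhdsWithin (s := {s | dist (γ s) (γ 0) ≤ b * s}) ?_
    (by simp) (fun x hx => ?_) (right_mem_Icc.2 zero_le_one)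
  · rw [inter_comm]
    exact isClosed_Icc.isClosed_le (f := fun s => dist (γ s) (γ 0)) (g := fun s => b * s)
      (continuous_dist.comp_continuousOn (c.prodMk continuousOn_const)) (by fun_prop)
  filter_upwards [nhdsWithin_le_nhds (h x (Ico_subset_Icc_self hx.2)), self_mem_nhdsWithin]
    with s a1 a2
  rw [abs_of_pos (sub_pos.2 a2)] at a1
  have a3 : dist (γ x) (γ 0) ≤ b * x := hx.1
  show dist (γ s) (γ 0) ≤ b * s
  linarith [dist_triangle (γ s) (γ x) (γ 0)]

/-- **IMM** -/
theorem imm (n : ℕ) : AllM n fun M _ _ _ _ _ => IMM n M := by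
  intro M _ _ _ _ _ _ _ _ _ _ _ μ hK x r C Ψ r0 hC hΨ
  have C0 : 0 < C := by linarith
  have s1 : 1 ≤ √C := Real.one_le_sqrt.2 hC
  have s2 : √C ^ 2 = C := Real.sq_sqrt C0.le
  have a := hK.all.a
  have b := hK.all.b
  have key : ∀ y ∈ ball (0 : Cm n) 1, (jm Ψ y).det ≠ 0 ∧
      ∃ e : Chart n M, Hc e ∧ y ∈ e.target ∧ e.target ⊆ ball 0 1 ∧ ∀ w ∈ e.target,
        e.symm w = Ψ w ∧ jacM e (pc n (Ψ w)) (Ψ w) = jm Ψ w := fun y hy => by
    have d : (jm Ψ y).det ≠ 0 := fun d => by
      obtain ⟨v, v0, hv⟩ := Matrix.exists_mulVec_eq_zero_iff.2 d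
      have := (hΨ.met y hy v).1
      rw [dn, hv, qf_zero, mul_zero] at this
      exact this.not_gt (by positivity)
    obtain ⟨e, he, h1, h2⟩ := V.LfpA.chart_of isOpen_ball hΨ.hol hy d
    have o := e.isOpen_inter_preimage (isOpen_ball (x := (0 : Cm n)) (ε := 1))
    set e' := e.restr (e.source ∩ e ⁻¹' ball 0 1)
    have h3 : ∀ w ∈ e'.target, e'.symm w = Ψ w := fun w hw => h2 w hw.1
    refine ⟨d, e', a.restr e he _ o, ⟨h1, ?_⟩, fun w hw => ?_, fun w hw => ⟨h3 w hw, ?_⟩⟩
    · rw [o.interior_eq]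
      exact ⟨e.map_target h1, by rw [mem_preimage, e.right_inv h1]; exact hy⟩
    · have := (interior_subset hw.2).2
      rwa [mem_preimage, e.right_inv hw.1] at this
    · ext p i
      rw [jacM, show e' (Ψ w) = w by rw [← h3 w hw, e'.right_inv hw]]
      exact P272.K.C2.dz_congr i (mem_of_superset (e'.open_target.mem_nhds hw) fun w hw =>
        congrArg (fun x => pc n (Ψ _) x p) (h3 w hw))
  refine ⟨?_, key⟩
  have k2 : ∀ y ∈ ball (0 : Cm n) 1, ∃ e : Chart n M, Hc e ∧ y ∈ e.target ∧ e.target ⊆ ball 0 1 ∧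
      ∀ w ∈ e.target, e.symm w = Ψ w ∧ ∀ v, r / √C * ‖v‖ ≤ √(chartG e w v v) ∧
        √(chartG e w v v) ≤ √C * r * ‖v‖ := fun y hy => by
    obtain ⟨-, e, he, h1, h2, h3⟩ := key y hy
    refine ⟨e, he, h1, h2, fun w hw => ⟨(h3 w hw).1, fun v => ?_⟩⟩
    have g : chartG e w v v = qf (hx n (Ψ w)) (dn Ψ w v) := by
      have e1 := b.wch e _ he (a.chart (Ψ w)) (Ψ w) ((h3 w hw).1 ▸ e.map_target hw)
        (mem_chart_source _ _)
      rw [(h3 w hw).2, show e (Ψ w) = w by rw [← (h3 w hw).1, e.right_inv hw]] at e1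
      rw [dn, ← qf_pb, hx, ← e1, chartG_apply, b.quad e he w hw, qf_eq, hf_sum]
      simp only [mul_left_comm, mul_assoc]
    have m := hΨ.met w (h2 hw) v
    rw [g]
    refine ⟨Real.le_sqrt_of_sq_le ?_, Real.sqrt_le_iff.2 ⟨by positivity, ?_⟩⟩
    · rw [mul_pow, div_pow, s2, div_mul_eq_mul_div, div_le_iff₀' C0]
      exact m.1
    · rw [mul_pow, mul_pow, s2, mul_assoc]
      exact m.2
  refine ⟨by positivity, ?_, fun y hy => ?_, fun y hy y' hy' => ?_, fun y hy => ?_,
    fun y hy y' hy' e0 => ?_⟩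
  · rw [div_le_iff₀ (by positivity)]
    nlinarith [mul_le_mul_of_nonneg_left hC r0.le]
  · obtain ⟨e, -, h1, h2, h3⟩ := k2 y hy
    exact ⟨e.symm, h1, h2, fun w hw => (h3 w hw).1.symm⟩
  · have := seg_le (γ := fun t => Ψ (y' + t • (y - y'))) (b := √C * r * ‖y - y'‖) fun t ht => by
      obtain ⟨e, he, h1, h2, h3⟩ := k2 _ ((convex_ball 0 1).add_smul_sub_mem hy' hy ht)
      obtain ⟨δ, d0, d1⟩ := Metric.isOpen_iff.1 e.open_target _ h1
      have ct : Continuous fun t : ℝ => y' + t • (y - y') := by fun_prop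
      filter_upwards [ct.continuousAt.eventually (ball_mem_nhds _ d0)] with s hs
      set p := y' + t • (y - y')
      set q := y' + s • (y - y')
      have m : ∀ u ∈ Icc (0 : ℝ) 1, p + u • (q - p) ∈ e.target := fun u hu =>
        d1 ((convex_ball p δ).add_smul_sub_mem (mem_ball_self d0) hs hu)
      have l := dist_le_chart (mem_maximalAtlas_real he) (c := fun u => p + u • (q - p))
        (c' := fun _ => q - p) zero_le_one (fun u _ => by simpa using
          (((hasDerivAt_id u).smul_const (q - p)).const_add p).hasDerivWithinAt) continuousOn_const m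
      have l2 := intervalIntegral.norm_integral_le_of_norm_le_const (a := 0) (b := 1)
        (f := fun u => √(chartG e (p + u • (q - p)) (q - p) (q - p))) fun u hu =>
          (Real.norm_of_nonneg (Real.sqrt_nonneg _)).trans_le ((h3 _ (m u (Ioc_subset_Icc_self
            (by simpa using hu)))).2 _).2
      simp only [zero_smul, add_zero, one_smul, add_sub_cancel, (h3 _ h1).1, (h3 _ (d1 hs)).1] at l
      rw [dist_comm]
      refine (l.trans ((le_abs_self _).trans l2)).trans_eq ?_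
      rw [add_sub_add_left_eq_sub, ← sub_smul, norm_smul, Real.norm_eq_abs]
      norm_num
      ring
    simpa using this
  · obtain ⟨e, he, h1, h2, h3⟩ := k2 y hy
    obtain ⟨δ, d0, d1⟩ := Metric.isOpen_iff.1 e.open_source _ (e.map_target h1)
    have ev := ((e.continuousAt_symm h1).eventually (ball_mem_nhds _ (by positivity : 0 < δ / 5))).and
      (e.open_target.mem_nhds h1)
    filter_upwards [(continuous_fst.tendsto (y, y)).eventually ev,
      (continuous_snd.tendsto (y, y)).eventually ev] with q q1 q2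
    rw [← (h3 _ q1.2).1, ← (h3 _ q2.2).1]
    rcases (dist_nonneg (x := e.symm q.1) (y := e.symm q.2)).eq_or_lt with d | d
    · rw [e.symm.injOn q1.2 q2.2 (dist_eq_zero.1 d.symm)]
      simp
    obtain ⟨c, c', g1, g2, g3, g4, g5, g6⟩ := exists_chart_curve (mem_maximalAtlas_real he)
      (x := e.symm q.1) (y := e.symm q.2) (r := 4 * (δ / 5)) ((ball_subset_ball'
        (by linarith [q1.1])).trans d1) d
      (by linarith [q1.1, q2.1, dist_triangle_right (e.symm q.1) (e.symm q.2) (e.symm y)])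
    have cc : ContinuousOn c (Icc 0 1) := fun t ht => (g1 t ht).continuousWithinAt
    have i1 := intervalIntegral.integral_eq_sub_of_hasDeriv_right_of_le zero_le_one cc
      (fun t ht => ((g1 t (Ioo_subset_Icc_self ht)).hasDerivAt
        (Icc_mem_nhds ht.1 ht.2)).hasDerivWithinAt) (g2.intervalIntegrable_of_Icc zero_le_one)
    rw [g3, g4, e.right_inv q1.2, e.right_inv q2.2] at i1
    have i2 := intervalIntegral.integral_mono_on (μ := MeasureTheory.volume) zero_le_one
      ((g2.norm.intervalIntegrable_of_Icc zero_le_one).const_mul (r / √C))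
      (((((contDiffOn_chartG (mem_maximalAtlas_real he)).continuousOn.comp cc
        fun t ht => (g5 t ht).1).clm_apply g2).clm_apply g2).sqrt.intervalIntegrable_of_Icc
          zero_le_one) fun t ht => ((h3 _ (g5 t ht).1).2 _).1
    have i3 := mul_le_mul_of_nonneg_left (intervalIntegral.norm_integral_le_integral_norm
      (μ := MeasureTheory.volume) (f := c') zero_le_one) (show 0 ≤ r / √C by positivity)
    rw [intervalIntegral.integral_const_mul] at i2
    rw [i1, norm_sub_rev] at i3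
    have i4 := i3.trans (i2.trans g6.le)
    rw [mul_comm 2, ← div_div]
    linarith
  · obtain ⟨e, he, h1, h2, h3⟩ := k2 y hy
    obtain ⟨e', he', h1', h2', h3'⟩ := k2 y' hy'
    have e1 : e.symm y = e'.symm y' := by rw [(h3 y h1).1, (h3' y' h1').1, e0]
    have m : e.symm y ∈ e'.source := e1 ▸ e'.map_target h1'
    refine ⟨_, a.hol e e' he he' y h1 m, by rw [e1, e'.right_inv h1'], ?_⟩
    filter_upwards [(e.continuousAt_symm h1).eventually (e'.open_source.mem_nhds m),
      e.open_target.mem_nhds h1] with w w1 w2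
    rw [← (h3' _ (e'.map_source w1)).1, e'.left_inv w1, (h3 w w2).1]

/-- **CHT** -/
theorem cht (n : ℕ) : AllM n fun M _ _ _ _ _ => CHT n M := by
  intro M _ _ _ _ _ _ _ _ _ _ _ μ hK ex pa hE x P r κ c c' C Φ z Λ r0 ⟨h1, h2, h3, h4⟩ hG
  have ub : ∀ y ∈ ball (0 : Cm n) 1, Λ y ∈ UB n := fun y hy =>
    (hG.mem y hy).2.trans_lt (by norm_num)
  have hol : ∀ y ∈ ball (0 : Cm n) 1,
      MDifferentiableAt 𝓘(ℂ, Cm n) 𝓘(ℂ, Cm n) (fun y => fE ex x P (Λ y)) y := fun y hy => by
    obtain ⟨i, hi⟩ := Φ.A.cover _ (ub y hy)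
    obtain ⟨e, he, h5⟩ := h4 i
    obtain ⟨k1, k2⟩ := ((cal1 Φ.A).hm_iff _ Λ y i hi).1
      (eventually_of_mem (isOpen_ball.mem_nhds hy) hG.hol)
    refine (((((contMDiffOn_symm_of_mem_maximalAtlas he).mdifferentiableOn
      one_ne_zero).mdifferentiableAt (e.open_target.mem_nhds ((h5 _ hi).2 ▸ e.map_source
        (h5 _ hi).1))).comp y k2.differentiableAt.mdifferentiableAt)).congr_of_eventuallyEq ?_
    filter_upwards [k1.eventually ((Φ.A.c i).open_source.mem_nhds hi)] with w hw
    rw [Function.comp, (h5 _ hw).2, e.left_inv (h5 _ hw).1]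
  have der : ∀ y ∈ ball (0 : Cm n) 1, ∀ v, dn (fun y => fE ex x P (Λ y)) y v =
      Φ.Θ (Λ y) (fderiv ℝ Λ y v) ᵥ* fP pa x P (Λ y) := fun y hy v => by
    have he := hK.all.a.chart (fE ex x P (Λ y))
    have hs := mem_chart_source (Cm n) (fE ex x P (Λ y))
    have d := mdifferentiableAt_iff_differentiableAt.1
      ((((contMDiffOn_of_mem_maximalAtlas he).mdifferentiableOn one_ne_zero).mdifferentiableAt
        ((chartAt _ _).open_source.mem_nhds hs)).comp y (hol y hy))
    rw [h3 _ (ub y hy), th, inv_vecMul _ (h1.ne _ trivial), vel, ← fd_comp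
      ((h1.sm _ he _ trivial hs).1.differentiableAt (by simp))
      ((hG.hol y hy).1.differentiableAt (by simp))]
    refine Eq.trans ?_ (congrArg (· v) (d.hasFDerivAt.restrictScalars ℝ).fderiv.symm)
    refine Eq.trans ?_ (LinearMap.toMatrix'_mulVec _ v)
    rw [dn]
    congr 1
    ext p i
    exact B1aP.dz_comp d p i
  have z0 := mem_ball_self (x := (0 : Cm n)) one_pos
  have p0 : fP pa x P 0 = P := by rw [fP, Matrix.zero_vecMul, hE.pa0, mul_one]
  have e0 : fE ex x P 0 = x := by rw [fE, Matrix.zero_vecMul, hE.ex0]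
  have g : ∀ q a, qf (hx n (fE ex x P q)) (a ᵥ* fP pa x P q) = r ^ 2 * en a := fun q a => by
    rw [← qf_pull, ← gr, h2, qf_msmul, qf_one]
  refine ⟨⟨fun y hy => (hol y hy).mdifferentiableWithinAt, by simp only [hG.zero, e0],
    fun y hy => (hE.dist _ _).trans (Real.sqrt_le_iff.2 ⟨r0.le, ?_⟩), fun y hy v => ?_⟩,
    fun v => ?_, der⟩
  · have := g 0 (Λ y)
    rw [p0, e0] at this
    rw [this]
    exact mul_le_of_le_one_right (sq_nonneg _) (ub y hy).le
  · rw [der y hy, g, mul_left_comm C, mul_left_comm C]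
    exact ⟨mul_le_mul_of_nonneg_left (hG.met y hy v).1 (sq_nonneg _),
      mul_le_mul_of_nonneg_left (hG.met y hy v).2 (sq_nonneg _)⟩
  · have u := ub 0 z0
    rw [hG.zero] at u
    have := (sq_le_en _).trans (Φ.near 0 u ((c : ℂ) • v))
    rw [show en (0 : Cm n) = 0 by simp [en], mul_zero, zero_pow two_ne_zero, zero_mul, sq_nonpos_iff,
      norm_eq_zero, sub_eq_zero] at this
    rw [der 0 z0, hG.d0, hG.zero, p0, this, Matrix.smul_vecMul]

end Vale.Agent.P253W.X
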