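import Vale.Agent.P253W.X.Defs

/-!
# P253W, block X, row LIFT: lifting of Lipschitz maps
-/

open scoped Topology
open Set Metric Filter
open Vale.Agent.P272.K (Cm)

set_option linter.all false

noncomputable section

namespace Vale.Agent.P253W.X

namespace Lift

variable {n : ℕ} {Y : Type} [MetricSpace Y] {Ψ : Cm n → Y} {l L b t : ℝ} {γ : ℝ → Y} {p : Cm n}

theorem lh (h : Imm Ψ l L) : IsLocalHomeomorph fun y : ball (0 : Cm n) 1 => Ψ y :=
  isLocalHomeomorph_iff_isLocalHomeomorphOn_univ.2 ((IsLocalHomeomorphOn.mk Ψ (ball 0 1)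
    fun y hy => let ⟨e, a, _, c⟩ := h.loc y hy; ⟨e, a, c⟩).comp
      isOpen_ball.isOpenEmbedding_subtypeVal.isLocalHomeomorph.isLocalHomeomorphOn fun y _ => y.2)

theorem lip (h : Imm Ψ l L) {k : ℝ → Cm n} (hk : ContinuousOn k (Icc 0 t))
    (hm : ∀ s ∈ Icc 0 t, k s ∈ ball (0 : Cm n) 1)
    (hb : ∀ s ∈ Icc 0 t, ∀ s' ∈ Icc 0 t, dist (Ψ (k s)) (Ψ (k s')) ≤ b * |s - s'|) :
    ∀ s ∈ Icc 0 t, l * ‖k s - k 0‖ ≤ b * s := by
  refine IsClosed.Icc_subset_of_forall_mem_nhdsWithin (s := {s | l * ‖k s - k 0‖ ≤ b * s}) ?_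
    (by simp) fun x hx => ?_
  · rw [inter_comm]
    exact isClosed_Icc.isClosed_le (f := fun s => l * ‖k s - k 0‖) (g := fun s => b * s)
      (by fun_prop) (by fun_prop)
  have x1 : x ∈ Icc 0 t := Ico_subset_Icc_self hx.2
  have m : Icc 0 t ∈ 𝓝[>] x := mem_of_superset (Ioc_mem_nhdsGT hx.2.2) fun s hs =>
    ⟨x1.1.trans hs.1.le, hs.2⟩
  have c : Tendsto k (𝓝[>] x) (𝓝 (k x)) := (hk x x1).mono_of_mem_nhdsWithin m
  filter_upwards [(c.prodMk_nhds tendsto_const_nhds).eventually (h.low _ (hm x x1)), m,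
    self_mem_nhdsWithin] with s a1 a2 a3
  have a4 := a1.trans (hb s a2 x x1)
  rw [abs_of_pos (sub_pos.2 a3)] at a4
  have a5 := mul_le_mul_of_nonneg_left (norm_sub_le_norm_sub_add_norm_sub (k s) (k x) (k 0)) h.pos.le
  have a6 : l * ‖k x - k 0‖ ≤ b * x := hx.1
  show l * ‖k s - k 0‖ ≤ b * s
  linarith

variable (Ψ γ p) in
/-- a lift of the path `γ` on `[0, t]` -/
def Lf (t : ℝ) (k : ℝ → Cm n) : Prop := ContinuousOn k (Icc 0 t) ∧ k 0 = p ∧
  ∀ s ∈ Icc 0 t, k s ∈ ball (0 : Cm n) 1 ∧ Ψ (k s) = γ s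

theorem glue {k : ℝ → Cm n} (hk : Lf Ψ γ p t k) (t0 : 0 ≤ t) {e : OpenPartialHomeomorph (Cm n) Y}
    (e1 : e.source ⊆ ball 0 1) (e2 : EqOn Ψ e e.source) (e3 : k t ∈ e.source) {t' : ℝ}
    (hγ : ContinuousOn γ (Icc t t')) (e4 : ∀ s ∈ Icc t t', γ s ∈ e.target) :
    ∃ k', Lf Ψ γ p t' k' := by
  refine ⟨fun s => if s ≤ t then k s else e.symm (γ s), ?_, by simp [t0, hk.2.1], fun s hs => ?_⟩
  · refine (ContinuousOn.union_of_isClosed (hk.1.congr fun s hs => if_pos hs.2)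
      ((e.continuousOn_symm.comp hγ e4).congr fun s hs => ?_) isClosed_Icc isClosed_Icc).mono
      Icc_subset_Icc_union_Icc
    rcases hs.1.eq_or_lt with rfl | a
    · simp only [le_refl, if_true, Function.comp, ← (hk.2.2 t ⟨t0, le_rfl⟩).2, e2 e3, e.left_inv e3]
    · exact if_neg a.not_ge
  · by_cases a : s ≤ t
    · simpa only [a, if_true] using hk.2.2 s ⟨hs.1, a⟩
    · have b := e4 s ⟨(not_le.1 a).le, hs.2⟩
      simp only [a, if_false]
      exact ⟨e1 (e.map_target b), (e2 (e.map_target b)).trans (e.right_inv b)⟩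

theorem path (h : Imm Ψ l L) (b0 : 0 ≤ b)
    (hb : ∀ s ∈ Icc (0 : ℝ) 1, ∀ s' ∈ Icc (0 : ℝ) 1, dist (γ s) (γ s') ≤ b * |s - s'|)
    (hp : Ψ p = γ 0) (hr : ‖p‖ + b / l < 1) : ∃ k, Lf Ψ γ p 1 k := by
  have l0 := h.pos
  have cγ : ContinuousOn γ (Icc 0 1) := (LipschitzOnWith.of_dist_le_mul (K := ⟨b, b0⟩) hb).continuousOn
  have ch : ∀ t ∈ Icc (0 : ℝ) 1, ∀ x ∈ ball (0 : Cm n) 1, Ψ x = γ t →
      ∃ e : OpenPartialHomeomorph (Cm n) Y, x ∈ e.source ∧ e.source ⊆ ball 0 1 ∧ EqOn Ψ e e.source ∧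
        ∃ δ > 0, ∀ s ∈ Icc (0 : ℝ) 1, dist s t < δ → γ s ∈ e.target := fun t ht x hx e => by
    obtain ⟨c, c1, c2, c3⟩ := h.loc x hx
    obtain ⟨δ, d0, d1⟩ := Metric.mem_nhdsWithin_iff.1 (cγ t ht (c.open_target.mem_nhds
      (by rw [← e, c3 c1]; exact c.map_source c1)))
    exact ⟨c, c1, c2, c3, δ, d0, fun s hs a => d1 ⟨a, hs⟩⟩
  refine IsClosed.Icc_subset_of_forall_mem_nhdsWithin (s := {t | ∃ k, Lf Ψ γ p t k}) ?_
    ⟨fun _ => p, continuousOn_const, rfl, fun s hs => ⟨mem_ball_zero_iff.2 ?_, ?_⟩⟩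
    (fun t ⟨⟨k, hk⟩, ht⟩ => ?_) (right_mem_Icc.2 zero_le_one)
  · refine IsSeqClosed.isClosed fun u t hu hl => ?_
    have t1 : t ∈ Icc (0 : ℝ) 1 := isClosed_Icc.mem_of_tendsto hl (.of_forall fun j => (hu j).2)
    refine ⟨?_, t1⟩
    choose k hk using fun j => (hu j).1
    by_cases a : ∃ j, t ≤ u j
    · obtain ⟨j, a⟩ := a
      have s := Icc_subset_Icc (le_refl 0) a
      exact ⟨k j, (hk j).1.mono s, (hk j).2.1, fun s' hs => (hk j).2.2 s' (s hs)⟩
    have m : ∀ j, k j (u j) ∈ closedBall (0 : Cm n) (‖p‖ + b / l) := fun j => by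
      have s := Icc_subset_Icc (le_refl 0) (hu j).2.2
      have := lip h (hk j).1 (fun s hs => ((hk j).2.2 s hs).1) (b := b) (fun x hx y hy => by
        rw [((hk j).2.2 x hx).2, ((hk j).2.2 y hy).2]; exact hb x (s hx) y (s hy)) (u j)
        ⟨(hu j).2.1, le_rfl⟩
      rw [(hk j).2.1] at this
      have a1 : ‖k j (u j) - p‖ ≤ b / l :=
        (le_div_iff₀' l0).2 (this.trans (mul_le_of_le_one_right b0 (hu j).2.2))
      exact mem_closedBall_zero_iff.2 (by linarith [norm_sub_norm_le (k j (u j)) p])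
    obtain ⟨x, x1, φ, hφ, x2⟩ := (isCompact_closedBall _ _).tendsto_subseq m
    have x3 : x ∈ ball (0 : Cm n) 1 := closedBall_subset_ball hr x1
    have hl' := hl.comp hφ.tendsto_atTop
    have x4 : Ψ x = γ t := by
      obtain ⟨c, c1, -, c3⟩ := h.loc x x3
      refine tendsto_nhds_unique (((c.continuousAt c1).congr (c3.eventuallyEq_of_mem
        (c.open_source.mem_nhds c1)).symm).tendsto.comp x2) (((cγ t t1).tendsto.comp
          (tendsto_nhdsWithin_iff.2 ⟨hl', .of_forall fun j => (hu _).2⟩)).congr fun j => ?_)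
      exact ((hk _).2.2 _ ⟨(hu _).2.1, le_rfl⟩).2.symm
    obtain ⟨e, e0, e1, e2, δ, d0, d1⟩ := ch t t1 x x3 x4
    obtain ⟨j, j1, j2⟩ := ((x2.eventually (e.open_source.mem_nhds e0)).and
      (Metric.tendsto_nhds.1 hl' δ d0)).exists
    have s := Icc_subset_Icc (hu (φ j)).2.1 t1.2
    refine glue (hk _) (hu _).2.1 e1 e2 j1 (cγ.mono s) fun y hy => d1 y (s hy) ?_
    have := abs_lt.1 (show |u (φ j) - t| < δ from j2)
    exact abs_lt.2 ⟨by linarith [hy.1], by linarith [hy.2]⟩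
  · linarith [div_nonneg b0 l0.le]
  · rw [le_antisymm hs.2 hs.1, hp]
  · obtain ⟨e, e0, e1, e2, δ, d0, d1⟩ := ch t (Ico_subset_Icc_self ht) _
      (hk.2.2 t ⟨ht.1, le_rfl⟩).1 (hk.2.2 t ⟨ht.1, le_rfl⟩).2
    filter_upwards [Ioc_mem_nhdsGT ht.2, Ioo_mem_nhdsGT (lt_add_of_pos_right t d0)] with y y1 y2
    have s := Icc_subset_Icc ht.1 y1.2
    exact glue hk ht.1 e1 e2 e0 (cγ.mono s) fun z hz => d1 z (s hz)
      (abs_lt.2 ⟨by linarith [hz.1], by linarith [hz.2, y2.2]⟩)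

end Lift

open Lift in
/-- **LIFT** -/
theorem lift (n : ℕ) : LIFT n := by
  intro Y _ Ψ l L h V _ _ _
  have l0 := h.pos
  refine ⟨fun g v₀ r a p r0 a0 hg hp hr => ?_, fun S k k' hS c c' m m' e v₀ h0 e0 v hv => ?_⟩
  · have seg : ∀ v ∈ ball v₀ r, ∀ v' ∈ ball v₀ r, ∀ s ∈ Icc (0 : ℝ) 1,
        v + s • (v' - v) ∈ ball v₀ r := fun v hv v' hv' s hs =>
      (convex_ball v₀ r).add_smul_sub_mem hv hv' hs
    have lp : ∀ v ∈ ball v₀ r, ∀ v' ∈ ball v₀ r, ∀ s ∈ Icc (0 : ℝ) 1, ∀ s' ∈ Icc (0 : ℝ) 1,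
        dist (g (v + s • (v' - v))) (g (v + s' • (v' - v))) ≤ a * ‖v' - v‖ * |s - s'| :=
      fun v hv v' hv' s hs s' hs' => (hg _ (seg v hv v' hv' s hs) _ (seg v hv v' hv' s' hs')).trans_eq
        (by rw [add_sub_add_left_eq_sub, ← sub_smul, norm_smul, Real.norm_eq_abs]; ring)
    have v0 := mem_ball_self (x := v₀) r0
    choose K hK using fun v : ball v₀ r => path (γ := fun s => g (v₀ + s • (v.1 - v₀))) h
      (mul_nonneg a0 (norm_nonneg _)) (lp v₀ v0 v v.2) (by simpa using hp) (lt_of_le_of_lt (by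
        gcongr; exact (mem_ball_iff_norm.1 v.2).le) hr)
    have cg : ContinuousOn g (ball v₀ r) := (LipschitzOnWith.of_dist_le_mul (K := ⟨a, a0⟩)
      fun v hv v' hv' => by simpa [dist_eq_norm] using! hg v hv v' hv').continuousOn
    have cK := (lh h).continuous_lift (T2Space.isSeparatedMap _)
      ⟨fun q : unitInterval × ball v₀ r => g (v₀ + q.1.1 • (q.2.1 - v₀)),
        cg.comp_continuous (by fun_prop) fun q => seg v₀ v0 _ q.2.2 _ q.1.2⟩
      (g := fun q => ⟨K q.2 q.1, ((hK q.2).2.2 _ q.1.2).1⟩)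
      (funext fun q => ((hK q.2).2.2 _ q.1.2).2)
      (Continuous.subtype_mk (continuous_const.congr fun v => (hK v).2.1.symm) _)
      fun v => Continuous.subtype_mk ((hK v).1.comp_continuous continuous_subtype_val
        fun s => s.2) _
    have one := right_mem_Icc.2 (zero_le_one' ℝ)
    obtain ⟨k, hk⟩ : ∃ k : V → Cm n, ∀ v : ball v₀ r, k v = K v 1 := by
      classical
      exact ⟨fun v => if h : v ∈ ball v₀ r then K ⟨v, h⟩ 1 else p, fun v => dif_pos v.2⟩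
    have ck : ContinuousOn k (ball v₀ r) := continuousOn_iff_continuous_restrict.2
      ((continuous_subtype_val.comp (cK.comp (Continuous.prodMk_right 1))).congr
        fun v => (hk v).symm)
    have k1 : ∀ v ∈ ball v₀ r, k v ∈ ball (0 : Cm n) 1 ∧ Ψ (k v) = g v := fun v hv => by
      simpa [hk ⟨v, hv⟩] using (hK ⟨v, hv⟩).2.2 1 one
    refine ⟨k, ?_, fun v hv => ⟨(k1 v hv).1, (k1 v hv).2, fun v' hv' => ?_⟩⟩
    · have := lip h (hK ⟨v₀, v0⟩).1 (fun s hs => ((hK _).2.2 s hs).1) (b := 0) (fun s hs s' hs' => by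
        simp [((hK _).2.2 s hs).2, ((hK _).2.2 s' hs').2]) 1 one
      rw [(hK _).2.1, zero_mul, ← hk] at this
      exact sub_eq_zero.1 (norm_le_zero_iff.1 (le_of_mul_le_mul_left (this.trans_eq (mul_zero l).symm) l0))
    · simpa using lip h (k := fun s => k (v' + s • (v - v'))) (ck.comp (by fun_prop) (seg v' hv' v hv))
        (fun s hs => (k1 _ (seg v' hv' v hv s hs)).1) (fun s hs s' hs' => by
          rw [(k1 _ (seg v' hv' v hv s hs)).2, (k1 _ (seg v' hv' v hv s' hs')).2]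
          exact lp v' hv' v hv s hs s' hs') 1 one
  · have := isPreconnected_iff_preconnectedSpace.1 hS
    exact congrArg Subtype.val (congrFun ((T2Space.isSeparatedMap _).eq_of_comp_eq
      (lh h).isLocallyInjective (c.mapsToRestrict m) (c'.mapsToRestrict m')
      (funext fun x => e x x.2) ⟨v₀, h0⟩ (Subtype.ext e0)) ⟨v, hv⟩)

end Vale.Agent.P253W.X
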