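import Vale.Agent.P253W.X.Main0
import Vale.Agent.P253W.X.Hord2

/-!
# P253W, block X: `G1`
-/

open scoped Manifold ContDiff Bundle
open Bundle MeasureTheory
open Vale.Agent.P272.K (Cm)

namespace Vale.Agent.P253W.X

variable {n : ℕ} {M : Type} [MetricSpace M] [ChartedSpace (Cm n) M] [IsManifold 𝓘(ℂ, Cm n) 1 M]
  [RiemannianBundle fun x : M => TangentSpace 𝓘(ℝ, Cm n) x] [MeasurableSpace M] [BorelSpace M]
  [IsManifold 𝓘(ℝ, Cm n) ∞ M] [ConnectedSpace M] [NoncompactSpace M] {μ : Measure M}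

/-- **the block X** -/
theorem g1C : Of2 n μ fun F A _ => F.G1 μ A.d := g1_hord hord2

end Vale.Agent.P253W.X
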