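import Vale.Agent.P253W.X.Lift
import Vale.Agent.P253W.X.Mat
import Vale.Agent.P253W.V.GeoA

/-!
# P253W, block X, row MULT: the multiplicity of an immersed chart
-/

open scoped ENNReal Matrix ComplexOrder
open MeasureTheory Set Metric Vale.Agent.P253.Mfd Vale.Agent.P253Z
open Vale.Agent.P272.K (Cm)

set_option linter.all false

noncomputable section

namespace Vale.Agent.P253W.X

/-- the number of preimages does not decrease along a short geodesic -/
theorem cnt_le {n : ℕ} {Y : Type} [MetricSpace Y] [ProperSpace Y] (hY : ApproxMid Y)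
    {Ψ : Cm n → Y} {l L c : ℝ} (hl : LIFT n) (h : Imm Ψ l L) (q q' : Y)
    (hr : ∀ p ∈ ball (0 : Cm n) c, Ψ p = q → ‖p‖ + dist q q' / l < 1) :
    (Ψ ⁻¹' {q} ∩ ball 0 c).encard ≤ (Ψ ⁻¹' {q'} ∩ ball 0 1).encard := by
  obtain ⟨γ, hγ, γ0, γ1⟩ := V.GeoA.minGeo_of q q' (isCompact_closedBall _ _)
    fun p _ s hs hsd => exists_mid hY p q' s hs hsd
  have d0 := dist_nonneg (x := q) (y := q')
  have m : ∀ s ∈ Icc (0 : ℝ) 1, s * dist q q' ∈ Icc 0 (dist q q') := fun s hs =>
    ⟨mul_nonneg hs.1 d0, mul_le_of_le_one_left d0 hs.2⟩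
  have ex : ∀ p ∈ Ψ ⁻¹' {q} ∩ ball 0 c, ∃ k, Lift.Lf Ψ (fun t => γ (t * dist q q')) p 1 k :=
    fun p hp => Lift.path h d0 (fun s hs s' hs' => (hγ _ (m s hs) _ (m s' hs')).trans_le (by
      rw [← sub_mul, abs_mul, abs_of_nonneg d0, mul_comm])) (by rw [zero_mul, γ0]; exact hp.1)
      (hr p hp.2 hp.1)
  choose! k hk using ex
  have o : (1 : ℝ) ∈ Icc (0 : ℝ) 1 := right_mem_Icc.2 zero_le_one
  refine encard_le_encard_of_injOn (f := fun p => k p 1) (fun p hp => ⟨?_, ((hk p hp).2.2 1 o).1⟩)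
    fun p hp p' hp' e => ?_
  · have := ((hk p hp).2.2 1 o).2
    simp only [one_mul, γ1] at this
    exact this
  · rw [← (hk p hp).2.1, ← (hk p' hp').2.1]
    exact (hl Y Ψ l L h ℝ).2 _ _ _ isPreconnected_Icc (hk p hp).1 (hk p' hp').1
      (fun s hs => ((hk p hp).2.2 s hs).1) (fun s hs => ((hk p' hp').2.2 s hs).1)
      (fun s hs => ((hk p hp).2.2 s hs).2.trans ((hk p' hp').2.2 s hs).2.symm) 1 o e
      (left_mem_Icc.2 zero_le_one)

/-- **MULT** -/
theorem mult {n : ℕ} (h1 : AllM n fun M _ _ _ _ _ => IMM n M)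
    (h2 : AllM n fun _ _ _ _ _ μ => AREA n μ) (hl : LIFT n) (ha : LINA n) : MULT n := by
  intro C hC
  have C0 : 0 < C := by linarith
  have c0 : 0 < 1 / (5 * C) := by positivity
  have c1 : 1 / (5 * C) ≤ 1 / 5 := by gcongr; linarith
  refine ⟨1 / (5 * C), 1 + (n * C ^ 2) ^ n * volume.real (ball (0 : Cm n) 1), c0, by linarith,
    le_add_of_nonneg_right (by positivity), ?_⟩
  intro M _ _ _ _ _ _ _ _ _ _ _ μ hK x r Ψ r0 hΨ G hG
  have := properSpace_riemannian (Cm n) M
  obtain ⟨hI, -⟩ := h1 M μ hK x r C Ψ r0 hC hΨ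
  have hA := h2 M μ hK x r C Ψ r0 hC hΨ
  have n0 : (0 : ℝ) < n := by exact_mod_cast hK.npos
  have a0 : 0 < r ^ 2 / (n * C) := by positivity
  have hd : ∀ y ∈ ball (0 : Cm n) 1, (r ^ 2 / (n * C)) ^ n ≤ (pb (jm Ψ y) (hx n (Ψ y))).det.re ∧
      (pb (jm Ψ y) (hx n (Ψ y))).det.re ≤ (C * r ^ 2) ^ n := fun y hy => by
    refine ha.det _ _ _ (Matrix.isHermitian_mul_mul_conjTranspose _ (hK.all.b.wpos _
      (hK.all.a.chart _) _ (mem_chart_target _ _)).1) a0 (fun v => ?_) fun v => ?_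
    · rw [qf_pb, div_mul_eq_mul_div, div_le_iff₀ (by positivity)]
      have a1 := mul_le_mul_of_nonneg_left (hΨ.met y hy v).1 n0.le
      have a2 := mul_le_mul_of_nonneg_left (en_le v) (sq_nonneg r)
      unfold dn at a1
      linarith
    · rw [qf_pb]
      exact (hΨ.met y hy v).2.trans (by rw [← mul_assoc]; gcongr; exact sq_le_en v)
  have sb : ball (0 : Cm n) (1 / (5 * C)) ⊆ ball 0 1 := ball_subset_ball (by linarith)
  obtain ⟨mN, hN⟩ := hA _ measurableSet_ball sb
  have hB : ∀ q, ((Ψ ⁻¹' {q} ∩ ball 0 (1 / (5 * C))).encard : ℝ≥0∞) * μ (ball x (1 / (5 * C) * r)) ≤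
      ENNReal.ofReal ((C * r ^ 2) ^ n) * volume (ball (0 : Cm n) 1) := fun q => by
    have e := (hA _ measurableSet_ball subset_rfl).2 1 measurable_const
    simp only [Pi.one_apply, one_mul] at e
    rw [← setLIntegral_const, ← setLIntegral_const]
    refine le_trans (setLIntegral_mono' measurableSet_ball fun q' hq => ?_)
      (((setLIntegral_le_lintegral _ _).trans_eq e.symm).trans (setLIntegral_mono'
        measurableSet_ball fun y hy => ENNReal.ofReal_le_ofReal (hd y hy).2))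
    refine ENat.toENNReal_le.2 (cnt_le (approxMid_of_riemannian (Cm n) M) hl hI q q'
      fun p hp e => ?_)
    have s1 : 1 ≤ √C := Real.one_le_sqrt.2 hC
    have s2 : √C * √C = C := Real.mul_self_sqrt C0.le
    have b1 := hI.lip p (sb hp) 0 (mem_ball_self one_pos)
    rw [e, hΨ.zero, sub_zero] at b1
    have b2 := mem_ball_zero_iff.1 hp
    have b3 : dist q q' ≤ 2 * √C * r * (1 / (5 * C)) := by
      have b4 := mul_le_mul_of_nonneg_left b2.le (show 0 ≤ √C * r by positivity)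
      have b5 := mul_le_mul_of_nonneg_right s1 (mul_pos c0 r0).le
      linarith [dist_triangle_right q q' x, mem_ball.1 hq]
    have b6 : dist q q' / (r / (2 * √C)) ≤ 4 / 5 := by
      rw [div_le_iff₀ hI.pos]
      refine b3.trans_eq ?_
      field_simp
      nlinarith
    linarith
  have e1 : ENNReal.ofReal ((C * r ^ 2) ^ n) =
      ENNReal.ofReal ((r ^ 2 / (n * C)) ^ n) * ENNReal.ofReal ((n * C ^ 2) ^ n) := by
    rw [← ENNReal.ofReal_mul (by positivity), ← mul_pow]
    congr 2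
    field_simp
  have e2 : ENNReal.ofReal ((n * C ^ 2) ^ n) * volume (ball (0 : Cm n) 1) ≤
      ENNReal.ofReal (1 + (n * C ^ 2) ^ n * volume.real (ball (0 : Cm n) 1)) := by
    rw [← ofReal_measureReal measure_ball_lt_top.ne, ← ENNReal.ofReal_mul (by positivity)]
    exact ENNReal.ofReal_le_ofReal (by linarith)
  refine (ENNReal.mul_le_mul_iff_right (ENNReal.ofReal_pos.2 (pow_pos a0 n)).ne'
    ENNReal.ofReal_ne_top).1 ?_
  rw [← mul_assoc, ← lintegral_const_mul' _ _ ENNReal.ofReal_ne_top]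
  refine (mul_le_mul_left ((setLIntegral_mono' measurableSet_ball fun y hy => (mul_comm _ _).trans_le
    (mul_le_mul_right (ENNReal.ofReal_le_ofReal (hd y (sb hy)).1) _)).trans_eq (hN G hG)) _).trans ?_
  rw [← lintegral_mul_const _ (hG.fun_mul mN), ← mul_assoc, mul_comm _ (∫⁻ q, G q ∂μ),
    ← lintegral_mul_const _ hG]
  refine lintegral_mono fun q => ?_
  rw [mul_assoc]
  exact mul_le_mul_right ((hB q).trans (by rw [e1, mul_assoc]; exact mul_le_mul_right e2 _)) _

end Vale.Agent.P253W.X
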