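import Vale.Agent.P253W.X.Str2
import Vale.Agent.P253W.X.Lv
import Vale.Agent.P253W.X.Cal1

/-!
# P253W, row X.PSH: vector fields with superharmonic `log` of the norm, Jacobians (helper16)
-/

open scoped ContDiff Topology ComplexConjugate ComplexOrder Matrix
open Set Filter Vale.Agent.P253Z
open Vale.Agent.P272.K (Cm)
open Complex (I)

noncomputable section

namespace Vale.Agent.P253W.X

namespace Psh

variable {n : ℕ}

theorem d2_eq {E F : Type} [NormedAddCommGroup E] [NormedSpace ℝ E] [NormedAddCommGroup F]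
    [NormedSpace ℝ F] {u : E → F} {q : E} (hu : ContDiffAt ℝ 2 u q) (v w : E) :
    fderiv ℝ (fderiv ℝ u) q v w = fderiv ℝ (fun p => fderiv ℝ u p w) q v := by
  rw [fderiv_clm_apply (Lv.hd2 hu).differentiableAt (differentiableAt_const _)]
  simp

/-- the map `y ↦ a ᵥ* Gam W z y` -/
def gl (W : Cm n → Mx n) (z a : Cm n) : Cm n →L[ℂ] Cm n :=
  LinearMap.toContinuousLinearMap
    { toFun := fun y => a ᵥ* Gam W z y
      map_add' := fun x y => by rw [Gam_add, Matrix.vecMul_add]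
      map_smul' := fun c x => by rw [Gam_smul, Matrix.vecMul_smul]; rfl }

theorem gl_apply (W : Cm n → Mx n) (z a y : Cm n) : gl W z a y = a ᵥ* Gam W z y := rfl

theorem Rt_smul_right (W : Cm n → Mx n) (z : Cm n) (c : ℂ) (a b : Cm n) :
    Rt W z a (c • b) = conj c • Rt W z a b := by
  simp only [Rt, Pi.smul_apply, smul_eq_mul, map_mul, Finset.smul_sum, smul_smul, mul_left_comm]

theorem an_det {E : Type} [NormedAddCommGroup E] [NormedSpace ℂ E] {f : E → Mx n} {q : E}
    (h : ∀ i j, AnalyticAt ℂ (fun p => f p i j) q) : AnalyticAt ℂ (fun p => (f p).det) q := by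
  simp only [Matrix.det_apply']
  exact Finset.analyticAt_fun_sum _ fun σ _ => analyticAt_const.mul
    (Finset.analyticAt_fun_prod _ fun i _ => h (σ i) i)

/-- the Jacobian matrix which acts on rows -/
def JR (g : Cm n → Cm n) (y : Cm n) : Mx n := Matrix.of fun a b => fderiv ℂ g y (Pi.single a 1) b

theorem JR_eq (g : Cm n → Cm n) (y X : Cm n) : fderiv ℂ g y X = X ᵥ* JR g y := by
  ext b
  conv_lhs => rw [pi_eq_sum_univ' X, map_sum]
  simp [JR, Matrix.vecMul, dotProduct]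

theorem JR_an {g : Cm n → Cm n} {y : Cm n} (h : AnalyticAt ℂ g y) (a b : Fin n) :
    AnalyticAt ℂ (fun y => JR g y a b) y :=
  (((ContinuousLinearMap.proj (R := ℂ) (φ := fun _ : Fin n => ℂ) b).comp
    (ContinuousLinearMap.apply ℂ (Cm n) (Pi.single a 1 : Cm n))).analyticAt _).fun_comp h.fderiv

theorem vecMul_ext {A B : Mx n} (h : ∀ v, v ᵥ* A = v ᵥ* B) : A = B := by
  ext i j
  simpa using congrFun (h (Pi.single i 1)) j

end Psh

open Psh

/-- **PSH** -/
theorem psh (n : ℕ) : PSH n := by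
  intro U W hU k z hz X₀ h0
  set X : Cm n → Cm n := fun y => X₀ - gl W z X₀ (y - z) with hX
  have aX : ∀ y, AnalyticAt ℂ X y := fun y =>
    analyticAt_const.sub (((gl W z X₀).analyticAt _).fun_comp (analyticAt_id.sub analyticAt_const))
  have sX : ∀ y, ContDiffAt ℝ ∞ X y := fun y => Lv.an_sm (aX y)
  have dX : ∀ y, DifferentiableAt ℝ X y := fun y => (sX y).differentiableAt (by simp)
  have fX : ∀ y w, fderiv ℝ X y w = -(X₀ ᵥ* Gam W z w) := fun y w => by
    have : HasFDerivAt X _ y := (((gl W z X₀).restrictScalars ℝ).hasFDerivAt.comp y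
      ((hasFDerivAt_id y).sub_const z)).const_sub X₀
    rw [this.fderiv]
    rfl
  have Xz : X z = X₀ := by simp [hX]
  refine ⟨X, aX z, Xz, fun v => ?_⟩
  have su : ContDiffAt ℝ 2 (fun y => qf (W y) (X y)) z :=
    ((k.sm z hz).qf (sX z)).of_le Str2.two_le
  have pos : 0 < qf (W z) (X z) := qf_pos _ (k.pos z hz) (by rwa [Xz])
  have g := fun w => MS.Gam (k := fun y => y) (k.sm z hz) (Str2.ne k hz) contDiffAt_id
    (contDiffAt_const (c := w))
  have d2 : ∀ a w, fderiv ℝ (fderiv ℝ fun y => qf (W y) (X y)) z a w = 2 * (hf ((dM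
      (fun y => Gam W y w) z a - Gam W z a * Gam W z w) * W z) X₀ X₀).re := fun a w => by
    have sN : ContDiffAt ℝ ∞ (fun y => -(X₀ ᵥ* Gam W z w) + X y ᵥ* Gam W y w) z :=
      contDiffAt_const.add ((g w).vecMul (sX z))
    have dN := sN.differentiableAt (by simp)
    have e : (fun y => fderiv ℝ (fun y => qf (W y) (X y)) y w) =ᶠ[𝓝 z] fun y =>
        2 * (hf (W y) (-(X₀ ᵥ* Gam W z w) + X y ᵥ* Gam W y w) (X y)).re := by
      filter_upwards [hU.eventually_mem hz] with y hy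
      simp only [qf_eq]
      rw [fd_re ((k.sm y hy).md.hf (dX y) (dX y)),
        fd_hf_cov (k.sm y hy).md (dX y) (dX y) (Str2.met hU k hy w), fX, Complex.add_re,
        hf_re_symm (X y) _ (k.pos y hy).isHermitian, two_mul]
    have d := (k.sm z hz).md.hf dN (dX z)
    rw [d2_eq su, e.fderiv_eq, fderiv_const_mul (a := fun y => (hf (W y)
        (-(X₀ ᵥ* Gam W z w) + X y ᵥ* Gam W y w) (X y)).re) (Complex.reCLM.differentiableAt.comp z d),
      _root_.smul_apply, fd_re d, fd_hf (k.sm z hz).md dN (dX z), Xz, neg_add_cancel, hf_zero_left,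
      hf_zero_left, add_zero, add_zero, fderiv_const_add, fd_vecMul (g w).md (dX z), fX, Xz,
      hf_mul_left, Matrix.vecMul_sub, Matrix.neg_vecMul, Matrix.vecMul_vecMul, neg_add_eq_sub,
      smul_eq_mul]
  have c := Str2.curv hU k hz v (I • v)
  have e1 : dM (fun y => Gam W y (I • v)) z = fun a => I • dM (fun y => Gam W y v) z a := by
    ext1 a
    simp only [Gam_smul]
    rw [dM_smul (differentiableAt_const _) (g v).md]
    simp
  have e2 : lv2 (fun y => qf (W y) (X y)) z v = -4 * bk W z v X₀ := by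
    have e3 : (dM (fun y => Gam W y v) z v - Gam W z v * Gam W z v) * W z +
        (dM (fun y => Gam W y (I • v)) z (I • v) - Gam W z (I • v) * Gam W z (I • v)) * W z =
        ((-2 : ℝ) : ℂ) • Rt W z v v := by
      rw [Rt_smul_right, Str2.Rt_smul, Complex.conj_I, e1] at c
      have c' := congrArg (fun A : Mx n => (-I) • A) c
      rw [e1]
      simp only [Gam_smul, Matrix.mul_smul, Matrix.smul_mul, Matrix.sub_mul, Matrix.add_mul,
        smul_sub, smul_add, smul_smul, mul_neg, neg_mul, Complex.I_mul_I, neg_neg] at c' ⊢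
      linear_combination (norm := (push_cast; module)) c'
    rw [lv2, d2, d2, ← mul_add, ← Complex.add_re, ← hf_madd, e3, ← qf_eq, qf_msmul]
    change 2 * (-2 * bk W z v X₀) = _
    ring
  rw [Lv.log su pos.ne', e2]
  have := k.bk z hz v X₀
  have h1 : -4 * bk W z v X₀ / qf (W z) (X z) ≤ 0 := div_nonpos_of_nonpos_of_nonneg (by linarith) pos.le
  exact sub_nonpos.2 (h1.trans (by positivity))

/-- **JAC** -/
theorem jac (n : ℕ) : JAC n := by
  intro κ Φ O z hO hs hz
  have c := cal1 Φ.A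
  have key : ∀ i, ∀ q ∈ O, q ∈ (Φ.A.c i).source →
      AnalyticAt ℂ (fun y => z ((Φ.A.c i).symm y)) (Φ.A.c i q) ∧ ∀ v, fderiv ℝ z q v =
        Φ.Θ q v ᵥ* (Φ.P i q * JR (fun y => z ((Φ.A.c i).symm y)) (Φ.A.c i q)) := fun i q hq hi => by
    have a := (c.an _ z i q hi ((hO.eventually_mem hq).mono hz)).1
    refine ⟨a, fun v => ?_⟩
    have e : z =ᶠ[𝓝 q] fun p => z ((Φ.A.c i).symm (Φ.A.c i p)) :=
      ((Φ.A.c i).eventually_left_inverse hi).mono fun p hp => by simp only [hp]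
    rw [← Matrix.vecMul_vecMul, ← Φ.dc i q hi, ← JR_eq, e.fderiv_eq,
      fd_comp (u := fun y => z ((Φ.A.c i).symm y)) (a.differentiableAt.restrictScalars ℝ)
        ((Φ.A.sm i q hi).differentiableAt (by simp)), a.differentiableAt.fderiv_restrictScalars ℝ]
    rfl
  have ex : ∀ q, ∃ N : Mx n, q ∈ O → ∀ v, fderiv ℝ z q v = Φ.Θ q v ᵥ* N := fun q => by
    by_cases hq : q ∈ O
    · obtain ⟨i, hi⟩ := Φ.A.cover q (hs hq)
      exact ⟨_, fun _ => (key i q hq hi).2⟩
    · exact ⟨0, fun h => absurd h hq⟩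
  choose N hN using ex
  refine ⟨N, fun q hq => ⟨hN q hq, ?_⟩⟩
  obtain ⟨i, hi⟩ := Φ.A.cover q (hs hq)
  have hne : ∀ p ∈ (Φ.A.c i).source, Φ.Ω i (Φ.A.c i p) * (Φ.P i p).det ≠ 0 := fun p hp =>
    Φ.ϖ_eq i p hp ▸ Φ.ϖ_ne p (Φ.A.sub i hp)
  rw [c.cr_iff ℂ _ i q hi]
  refine (((an_det (JR_an (key i q hq hi).1)).div (Φ.Ω_an i _ ((Φ.A.c i).map_source hi))
    (left_ne_zero_of_mul (hne q hi))).differentiableAt).congr_of_eventuallyEq ?_
  have t : ContinuousAt (Φ.A.c i).symm (Φ.A.c i q) :=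
    (Φ.A.c i).continuousAt_symm ((Φ.A.c i).map_source hi)
  filter_upwards [(Φ.A.c i).open_target.eventually_mem ((Φ.A.c i).map_source hi),
    t.eventually_mem (by rw [(Φ.A.c i).left_inv hi]; exact hO.mem_nhds hq)] with y h1 h2
  have h3 := (Φ.A.c i).map_target h1
  have h4 : N ((Φ.A.c i).symm y) = Φ.P i ((Φ.A.c i).symm y) *
      JR (fun y => z ((Φ.A.c i).symm y)) (Φ.A.c i ((Φ.A.c i).symm y)) := vecMul_ext fun w => by
    obtain ⟨v, rfl⟩ := (c.bij _ (hs h2)).2 w
    rw [← hN _ h2, (key i _ h2 h3).2]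
  have h5 := hne _ h3
  rw [h4, Φ.ϖ_eq i _ h3, Matrix.det_mul, (Φ.A.c i).right_inv h1, Pi.div_apply,
    mul_comm (Φ.P i _).det, mul_div_mul_right _ _ (right_ne_zero_of_mul h5)]

end Vale.Agent.P253W.X
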