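import Vale.Agent.P253W.X.Defs

/-!
# P253W, block X, row SEC: the inverse of a local diffeomorphism which is near the identity
-/

open scoped Topology
open Set Metric Filter
open Vale.Agent.P272.K (Cm)

noncomputable section

namespace Vale.Agent.P253W.X

/-- **the row SEC** -/
theorem sec (n : ℕ) : SEC n := fun z c c0 h z0 => by
  classical
  have lh : IsLocalHomeomorphOn z (closedBall 0 c) := fun q hq => by
    obtain ⟨s, i, -⟩ := h q hq
    have d : HasFDerivAt z ((LinearEquiv.ofInjectiveEndo (fderiv ℝ z q).toLinearMap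
        i).toContinuousLinearEquiv : Cm n →L[ℝ] Cm n) q :=
      (s.differentiableAt one_ne_zero).hasFDerivAt
    exact ⟨_, s.mem_toOpenPartialHomeomorph_source d one_ne_zero, rfl⟩
  let p : closedBall (0 : Cm n) c → Cm n := fun q => z q
  have cp : Continuous p := lh.continuousOn.domRestrict
  have nr : ∀ q : closedBall (0 : Cm n) c, ‖p q‖ < c / 2 → q.1 ∈ ball (0 : Cm n) c := fun q hq => by
    have := norm_sub_norm_le q.1 (z q)
    rw [norm_sub_rev] at this
    exact mem_ball_zero_iff.2 (by linarith [(h q q.2).2.2])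
  have cov : IsCoveringMapOn p (ball 0 (c / 2)) := .of_isLocalHomeomorphOn cp
    ((IsLocalHomeomorphOn.of_comp_right (f := inclusion ball_subset_closedBall) (s := univ)
      (lh.comp isOpen_ball.isOpenEmbedding_subtypeVal.isLocalHomeomorph.isLocalHomeomorphOn
        fun q _ => ball_subset_closedBall q.2)
      (Topology.IsOpenEmbedding.inclusion _ (isOpen_ball.preimage continuous_subtype_val)
        ).isLocalHomeomorph.isLocalHomeomorphOn).mono
      fun q hq => ⟨⟨q, nr q (mem_ball_zero_iff.1 hq)⟩, trivial, rfl⟩)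
  have lift : ∀ r (r0 : 0 < r) (f : C(ball (0 : Cm n) r, Cm n)), f ⟨0, mem_ball_self r0⟩ = 0 →
      (∀ a, f a ∈ ball 0 (c / 2)) → ∃! F : C(ball (0 : Cm n) r, closedBall (0 : Cm n) c),
        F ⟨0, mem_ball_self r0⟩ = ⟨0, mem_closedBall_self c0.le⟩ ∧ p ∘ F = f := fun r r0 f e m => by
    have := (convex_ball (0 : Cm n) r).contractibleSpace (nonempty_ball.2 r0)
    have := (isOpen_ball (x := (0 : Cm n)) (ε := r)).locallyPathConnectedSpace
    exact cov.existsUnique_continuousMap_lifts f (z0.trans e.symm) m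
  obtain ⟨F, ⟨F0, hF⟩, -⟩ := lift _ (half_pos c0) ⟨Subtype.val, continuous_subtype_val⟩ rfl
    fun a => a.2
  have e : ∀ y (hy : y ∈ ball (0 : Cm n) (c / 2)), p (F ⟨y, hy⟩) = y :=
    fun y hy => congrFun hF ⟨y, hy⟩
  have sub : ball (0 : Cm n) (c / 4) ⊆ closedBall 0 c :=
    ball_subset_closedBall.trans (closedBall_subset_closedBall (by linarith))
  have m : ∀ q ∈ ball (0 : Cm n) (c / 4), z q ∈ ball (0 : Cm n) (c / 2) := fun q hq => by
    have := norm_sub_norm_le (z q) q
    exact mem_ball_zero_iff.2 (by linarith [(h q (sub hq)).2.2, mem_ball_zero_iff.1 hq])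
  refine ⟨fun y => if hy : y ∈ ball (0 : Cm n) (c / 2) then F ⟨y, hy⟩ else 0, ?_, ?_,
    fun y hy => ?_, fun q hq => ?_⟩
  · exact continuousOn_iff_continuous_domRestrict.2
      ((continuous_subtype_val.comp F.continuous).congr fun y => .symm (dif_pos y.2))
  · simp only [dif_pos (mem_ball_self (half_pos c0)), F0]
  · simp only [dif_pos hy]
    exact ⟨nr _ ((e y hy).symm ▸ mem_ball_zero_iff.1 hy), e y hy⟩
  · have cz := cp.comp (continuous_inclusion sub)
    have := (lift _ (by positivity) ⟨_, cz⟩ z0 fun a => m a a.2).unique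
      (y₁ := F.comp ⟨fun a => ⟨_, m a a.2⟩, cz.subtype_mk _⟩) (y₂ := ⟨_, continuous_inclusion sub⟩)
      ⟨(congrArg F (Subtype.ext z0)).trans F0, funext fun a => e _ _⟩ ⟨rfl, rfl⟩
    simp only [dif_pos (m q hq)]
    exact congr(($this ⟨q, hq⟩).1)

end Vale.Agent.P253W.X
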