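import Vale.Agent.P253W.X.Mat

/-!
# P253W, row X.STR1: change of charts and of parameters (helper16)
-/

open scoped Manifold ContDiff Bundle Topology ComplexConjugate ComplexOrder Matrix
open Bundle Set Filter Vale.Agent.P253Z
open Vale.Agent.P272.K (Cm jacM Chart)
open Complex (I)

noncomputable section

namespace Vale.Agent.P253W.X

namespace Str1

variable {n : ℕ}

/-- the transformation of the Christoffel symbols -/
theorem gam_pull {W W' T : Cm n → Mx n} {φ : Cm n → Cm n} {z : Cm n} (hW' : MD W' (φ z))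
    (hφ : DifferentiableAt ℝ φ z) (hT : MD T z) (h0 : (W' (φ z)).det ≠ 0) (h1 : (T z).det ≠ 0)
    (he : W =ᶠ[𝓝 z] fun y => T y * W' (φ y) * (T y)ᴴ) (X : Cm n)
    (h2 : fderiv ℝ φ z (I • X) = I • fderiv ℝ φ z X) (h3 : dM T z (I • X) = I • dM T z X) :
    Gam W z X * T z = dM T z X + T z * Gam W' (φ z) (fderiv ℝ φ z X) := by
  have d : ∀ Y, dM W z Y = (dM T z Y * W' (φ z) + T z * dM W' (φ z) (fderiv ℝ φ z Y)) * (T z)ᴴ +
      T z * W' (φ z) * (dM T z Y)ᴴ := fun Y => by
    rw [dM_congr he, dM_mul (hT.mul (hW'.comp hφ)) hT.conjTranspose, dM_mul hT (hW'.comp hφ),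
      dM_comp hW' hφ, dM_conjTranspose]
  have e1 : (W' (φ z) * (T z)ᴴ).det ≠ 0 := by
    rw [Matrix.det_mul, Matrix.det_conjTranspose]
    exact mul_ne_zero h0 (star_ne_zero.2 h1)
  have e0 : W z = T z * W' (φ z) * (T z)ᴴ := he.self_of_nhds
  have e2 : (W z).det ≠ 0 := by
    rw [e0, Matrix.mul_assoc, Matrix.det_mul]
    exact mul_ne_zero h1 e1
  have e3 : DX X W z = (dM T z X * W' (φ z) + T z * DX (fderiv ℝ φ z X) W' (φ z)) * (T z)ᴴ := by
    refine smul_right_injective _ (two_ne_zero (α := ℂ)) ?_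
    have e4 : dM W' (φ z) (fderiv ℝ φ z X) = (2 : ℂ) • DX (fderiv ℝ φ z X) W' (φ z) +
        I • dM W' (φ z) (I • fderiv ℝ φ z X) := by rw [DX_eq, sub_add_cancel]
    simp only []
    rw [DX_eq, d, d, h2, h3, e4]
    simp only [Matrix.conjTranspose_smul, Complex.star_def, Complex.conj_I, Matrix.add_mul,
      Matrix.mul_add, Matrix.mul_smul, Matrix.smul_mul, smul_add, smul_smul, mul_neg,
      Complex.I_mul_I]
    module
  rw [← Matrix.mul_nonsing_inv_cancel_right _ (Gam W z X * T z) e1.isUnit,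
    ← Matrix.mul_nonsing_inv_cancel_right _ (dM T z X + _) e1.isUnit]
  congr 1
  rw [Matrix.mul_assoc, ← Matrix.mul_assoc (T z), ← e0, Gam_mul e2, e3,
    ← Gam_mul h0]
  simp only [Matrix.add_mul, Matrix.mul_assoc]

variable {M : Type} [MetricSpace M] [ChartedSpace (Cm n) M] {e e' : Chart n M} {x : M}

omit [ChartedSpace (Cm n) M] in
theorem near (hx : x ∈ e.source) (hx' : x ∈ e'.source) :
    ∀ᶠ z in 𝓝 (e x), z ∈ e.target ∧ e.symm z ∈ e'.source := by
  have h : ContinuousAt e.symm (e x) := e.continuousAt_symm (e.map_source hx)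
  refine (e.open_target.eventually_mem (e.map_source hx)).and (h.eventually_mem ?_)
  rw [e.left_inv hx]
  exact e'.open_source.mem_nhds hx'

variable (a : B1a n M) (he : Hc e) (he' : Hc e') (hx : x ∈ e.source) (hx' : x ∈ e'.source)
include a he he' hx hx'

theorem tr_an : AnalyticAt ℂ (fun z => e' (e.symm z)) (e x) :=
  a.hol e e' he he' _ (e.map_source hx) (by rwa [e.left_inv hx])

theorem tr_sm : ContDiffAt ℝ ∞ (fun z => e' (e.symm z)) (e x) :=
  ((tr_an a he he' hx hx').contDiffAt).restrict_scalars ℝ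

/-- the derivative of the change of coordinates -/
theorem tr_fd (X : Cm n) :
    fderiv ℝ (fun z => e' (e.symm z)) (e x) X = X ᵥ* (jacM e e' x)ᵀ := by
  rw [Matrix.vecMul_transpose, a.jac_eq e e' he he' x hx hx', LinearMap.toMatrix'_mulVec,
    (tr_an a he he' hx hx').differentiableAt.fderiv_restrictScalars ℝ]
  rfl

theorem jac_an (i j : Fin n) : AnalyticAt ℂ (fun z => jacM e e' (e.symm z) i j) (e x) := by
  have h1 : AnalyticAt ℂ (fun z => fderiv ℂ (fun z => e' (e.symm z)) z (Pi.single j 1) i) (e x) :=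
    (((ContinuousLinearMap.proj (R := ℂ) (φ := fun _ : Fin n => ℂ) i).comp
      (ContinuousLinearMap.apply ℂ (Cm n) (Pi.single j 1 : Cm n))).analyticAt _).fun_comp
      (tr_an a he he' hx hx').fderiv
  refine h1.congr ((near hx hx').mono fun z hz => ?_)
  simp only [a.jac_eq e e' he he' _ (e.map_target hz.1) hz.2, e.right_inv hz.1,
    LinearMap.toMatrix'_apply, ContinuousLinearMap.coe_coe]

theorem jac_sm : MS (fun z => jacM e e' (e.symm z)) (e x) := fun i j =>
  ((jac_an a he he' hx hx' i j).contDiffAt).restrict_scalars ℝ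

/-- the frame in another chart -/
theorem fr_ch (P : Mx n) : fr e' x P = fr e x P * (jacM e e' x)ᵀ := by
  rw [fr, fr, Matrix.mul_assoc, ← Matrix.transpose_mul,
    ← a.jac_mul _ e e' (a.chart x) he he' x (mem_chart_source _ x) hx hx']

omit he he' hx hx' in
theorem fr_self (P : Mx n) : fr (pc n x) x P = P := by
  rw [fr, a.jac_self _ x (mem_chart_source _ x), Matrix.transpose_one, Matrix.mul_one]

variable [RiemannianBundle (fun x : M => TangentSpace 𝓘(ℝ, Cm n) x)] (b : B1b n M)
include b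

/-- the Christoffel symbols in another chart -/
theorem gam_ch (X : Cm n) : Gam (hm e) (e x) X * (jacM e e' x)ᵀ =
    (dM (fun z => jacM e e' (e.symm z)) (e x) X)ᵀ +
      (jacM e e' x)ᵀ * Gam (hm e') (e' x) (X ᵥ* (jacM e e' x)ᵀ) := by
  have h1 : e' (e.symm (e x)) ∈ e'.target := by
    rw [e.left_inv hx]; exact e'.map_source hx'
  have h2 := gam_pull (W := hm e) (W' := hm e') (T := fun z => (jacM e e' (e.symm z))ᵀ)
    (φ := fun z => e' (e.symm z)) (z := e x) (MS.md (b.wsm e' he' _ h1))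
    ((tr_sm a he he' hx hx').differentiableAt (by simp)) (jac_sm a he he' hx hx').md.transpose
    (b.wpos e' he' _ h1).det_pos.ne'
    (by rw [Matrix.det_transpose, e.left_inv hx]; exact a.jac_ne e e' he he' x hx hx')
    ((near hx hx').mono fun z hz => by
      simpa only [e.right_inv hz.1, pb_eq] using b.wch e e' he he' _ (e.map_target hz.1) hz.2) X
    (by rw [tr_fd a he he' hx hx', tr_fd a he he' hx hx', Matrix.smul_vecMul]) (by
      ext i j
      simp only [dM_apply, Matrix.transpose_apply, Matrix.smul_apply,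
        (jac_an a he he' hx hx' j i).differentiableAt.fderiv_restrictScalars ℝ,
        ContinuousLinearMap.coe_restrictScalars', map_smul])
  rwa [tr_fd a he he' hx hx', e.left_inv hx] at h2

end Str1

open Str1

variable {n : ℕ} {M : Type} [MetricSpace M] [ChartedSpace (Cm n) M]

theorem FM.ev {E : Type} [NormedAddCommGroup E] [NormedSpace ℝ E] {U : Set E} {γ : E → M}
    {P : E → Mx n} (h : FM U γ P) {q : E} (hq : q ∈ U) {e : Chart n M} (hx : γ q ∈ e.source) :
    ∀ᶠ p in 𝓝 q, p ∈ U ∧ γ p ∈ e.source :=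
  (h.op.eventually_mem hq).and
    ((h.cont.continuousAt (h.op.mem_nhds hq)).eventually_mem (e.open_source.mem_nhds hx))

variable [RiemannianBundle (fun x : M => TangentSpace 𝓘(ℝ, Cm n) x)]

theorem str1_of (a : B1a n M) (b : B1b n M) : STR1 n M := by
  intro E _ _ U γ P h
  refine ⟨fun e he q hq hx => ?_, fun q _ v w => ⟨qf_pull _ _ _, qf_pull _ _ _⟩,
    fun E' _ _ U' p hU hp => ⟨⟨hU, h.cont.comp (fun q hq =>
      (hp q hq).2.continuousAt.continuousWithinAt) fun q hq => (hp q hq).1, fun e he q hq hx =>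
      ⟨(h.sm e he _ (hp q hq).1 hx).1.comp q (hp q hq).2,
        (h.sm e he _ (hp q hq).1 hx).2.comp (hp q hq).2⟩, fun q hq => h.ne _ (hp q hq).1⟩,
      fun q hq v => ?_⟩⟩
  · have h0 := a.chart (γ q)
    have hx0 := mem_chart_source (Cm n) (γ q)
    obtain ⟨s1, s2⟩ := h.sm _ h0 q hq hx0
    have d1 := s1.differentiableAt (by simp)
    have e1 : ∀ v, fderiv ℝ (fun p => e (γ p)) q v = vel n γ q v ᵥ* (jacM (pc n (γ q)) e (γ q))ᵀ :=
      fun v => by
        rw [← tr_fd a h0 he hx0 hx, vel,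
          ← fd_comp (k := fun p => pc n (γ q) (γ p))
            ((tr_sm a h0 he hx0 hx).differentiableAt (by simp)) d1]
        exact congrArg (fun L : E →L[ℝ] Cm n => L v) (EventuallyEq.fderiv_eq
          ((h.ev hq hx0).mono fun p hp => by simp only [(pc n (γ q)).left_inv hp.2]))
    refine ⟨?_, ?_, fun v => ⟨?_, ?_⟩⟩
    · rw [fr, Matrix.det_mul, Matrix.det_transpose]
      exact mul_ne_zero (h.ne q hq) (a.jac_ne _ e h0 he _ hx0 hx)
    · rw [gr, X.hx, b.wch _ e h0 he _ hx0 hx, pb_eq, fr, Matrix.conjTranspose_mul]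
      simp only [Matrix.mul_assoc]
    · rw [e1, th, fr, ← Matrix.vecMul_vecMul, inv_vecMul _ (h.ne q hq)]
    · have e2 : (fun p => fr e (γ p) (P p)) =ᶠ[𝓝 q] fun p => fr (pc n (γ q)) (γ p) (P p) *
          (jacM (pc n (γ q)) e ((pc n (γ q)).symm (pc n (γ q) (γ p))))ᵀ := by
        filter_upwards [h.ev hq hx0, h.ev hq hx] with p h1 h2
        rw [(pc n (γ q)).left_inv h1.2, fr_ch a h0 he h1.2 h2.2]
      have j1 := (jac_sm a h0 he hx0 hx).md
      rw [dM_congr e2, dM_mul s2.md (j1.comp (k := fun p => pc n (γ q) (γ p)) d1).transpose,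
        dM_transpose, dM_comp (k := fun p => pc n (γ q) (γ p)) j1 d1, e1,
        fr_self a, (pc n (γ q)).left_inv hx0, om, fr, Matrix.mul_assoc,
        Matrix.nonsing_inv_mul_cancel_left _ _ (h.ne q hq).isUnit, Matrix.add_mul,
        Matrix.mul_assoc, gam_ch a h0 he hx0 hx b, Matrix.mul_add, add_assoc, Matrix.mul_assoc]
      rfl
  · obtain ⟨s1, s2⟩ := h.sm _ (a.chart _) _ (hp q hq).1 (mem_chart_source (Cm n) (γ (p q)))
    have d := (hp q hq).2.differentiableAt (by simp)
    have e1 : vel n (fun q => γ (p q)) q v = vel n γ (p q) (fderiv ℝ p q v) :=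
      fd_comp (s1.differentiableAt (by simp)) d v
    exact ⟨by rw [th, th, e1], by rw [om, om, e1, ← dM_comp s2.md d]⟩

theorem str1 : AllM n fun M _ _ _ _ _ => STR1 n M :=
  fun _ _ _ _ _ _ _ _ _ _ _ _ _ h => str1_of h.all.a h.all.b

end Vale.Agent.P253W.X
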