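import Vale.Agent.P253W.X.Str1

/-!
# P253W, row X.STR2: the structure equations (helper16)
-/

open scoped Manifold ContDiff Bundle Topology ComplexConjugate ComplexOrder Matrix
open Bundle Set Filter Vale.Agent.P253Z
open Vale.Agent.P272.K (Cm dz dzb jacM Chart)
open Vale.Agent.P272.K.C2 (DM DMb RM MC)

noncomputable section

namespace Vale.Agent.P253W.X

namespace Str2

variable {n : ℕ} {W : Cm n → Mx n} {z : Cm n}

/-- the mixed second derivative -/
def S2 (W : Cm n → Mx n) (z X Y : Cm n) : Mx n :=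
  ∑ l, ∑ k, (X k * conj (Y l)) • DM k (DMb l W) z

theorem two_le : (2 : WithTop ℕ∞) ≤ ∞ := by norm_cast

theorem Rt_eq (W : Cm n → Mx n) (z X Y : Cm n) :
    Rt W z X Y = -S2 W z X Y + DX X W z * (W z)⁻¹ * DXb Y W z := by
  simp only [Rt, RM, S2, DX, DXb, smul_add, smul_neg, Finset.sum_add_distrib,
    Finset.sum_neg_distrib, Finset.sum_mul, Finset.mul_sum, Matrix.smul_mul, Matrix.mul_smul,
    smul_smul, mul_comm (conj (Y _))]

theorem Rt_add (a a' b : Cm n) : Rt W z (a + a') b = Rt W z a b + Rt W z a' b := by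
  simp only [Rt, Pi.add_apply, add_mul, add_smul, Finset.sum_add_distrib]

theorem Rt_smul (c : ℂ) (a b : Cm n) : Rt W z (c • a) b = c • Rt W z a b := by
  simp only [Rt, Pi.smul_apply, smul_eq_mul, mul_assoc, mul_smul, Finset.smul_sum]

theorem Gam_eq (W : Cm n → Mx n) (z X : Cm n) :
    Gam W z X = ∑ k, X k • (DM k W z * (W z)⁻¹) := by
  simp only [Gam, DX, Finset.sum_mul, Matrix.smul_mul]

theorem ms_DM (h : MS W z) (k : Fin n) : MS (DM k W) z := MC.DM (m := ∞) h (by simp)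

theorem dM_DX (h : MS W z) (X Y : Cm n) : dM (fun y => DX Y W y) z X =
    ∑ k, ∑ l, (Y k * X l) • DM l (DM k W) z + S2 W z Y X := by
  simp only [DX]
  rw [dM_sum _ fun k _ => ((ms_DM h k).smul contDiffAt_const).md, S2,
    Finset.sum_comm (f := fun l k => (Y k * conj (X l)) • DM k (DMb l W) z),
    ← Finset.sum_add_distrib]
  refine Finset.sum_congr rfl fun k _ => ?_
  rw [dM_smul (differentiableAt_const _) (ms_DM h k).md, dM_eq]
  simp only [fderiv_fun_const, Pi.zero_apply, _root_.zero_apply, zero_smul, zero_add, DX, DXb,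
    smul_add, Finset.smul_sum, smul_smul, P272.K.C2.DM_DMb_comm (MC.mono h two_le)]

variable {U : Set (Cm n)} (hU : IsOpen U) (h : KM U W) (hz : z ∈ U)
include hU h hz

theorem herm : ∀ᶠ y in 𝓝 z, (W y).IsHermitian :=
  (hU.eventually_mem hz).mono fun y hy => (h.pos y hy).isHermitian

omit hU in
theorem ne : (W z).det ≠ 0 := (h.pos z hz).det_pos.ne'

theorem met (X : Cm n) : dM W z X = Gam W z X * W z + W z * (Gam W z X)ᴴ :=
  Gam_met (h.sm z hz).md (herm hU h hz) (ne h hz) X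

theorem Rt_eq' (X Y : Cm n) : Rt W z X Y = -S2 W z X Y + Gam W z X * W z * (Gam W z Y)ᴴ := by
  rw [Rt_eq, DXb_herm (h.sm z hz).md (herm hU h hz), ← Gam_mul (ne h hz) Y,
    Matrix.conjTranspose_mul, (h.pos z hz).isHermitian.eq, Matrix.mul_assoc (Gam W z X)]
  rfl

/-- the curvature of the connection -/
theorem curv (X Y : Cm n) : (dM (fun y => Gam W y Y) z X - dM (fun y => Gam W y X) z Y +
    Gam W z Y * Gam W z X - Gam W z X * Gam W z Y) * W z = Rt W z X Y - Rt W z Y X := by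
  have d : ∀ X Y, dM (fun y => Gam W y Y) z X * W z =
      ∑ k, ∑ l, (Y k * X l) • DM l (DM k W) z + S2 W z Y X -
        Gam W z Y * (Gam W z X * W z + W z * (Gam W z X)ᴴ) := fun X Y => by
    rw [← dM_DX (h.sm z hz), ← met hU h hz, eq_sub_iff_add_eq, ← dM_mul (MS.md
      (MS.Gam (k := fun y => y) (h.sm z hz) (ne h hz) contDiffAt_id contDiffAt_const)) (h.sm z hz).md]
    exact dM_congr ((hU.eventually_mem hz).mono fun y hy => Gam_mul (ne h hy) Y) X
  have s : ∑ k, ∑ l, (Y k * X l) • DM l (DM k W) z = ∑ k, ∑ l, (X k * Y l) • DM l (DM k W) z := by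
    rw [Finset.sum_comm]
    refine Finset.sum_congr rfl fun k _ => Finset.sum_congr rfl fun l _ => ?_
    rw [mul_comm]
    congr 1
    ext i j
    exact P272.K.C2.dz_dz_comm k l ((h.sm z hz i j).of_le two_le)
  rw [Matrix.sub_mul, Matrix.add_mul, Matrix.sub_mul, d, d, s, Rt_eq' hU h hz, Rt_eq' hU h hz]
  simp only [Matrix.mul_add, Matrix.mul_assoc]
  abel

theorem S2_her (X Y : Cm n) : (S2 W z X Y)ᴴ = S2 W z Y X := by
  rw [S2, S2, Finset.sum_comm]
  simp only [Matrix.conjTranspose_sum, Matrix.conjTranspose_smul, Complex.star_def, map_mul,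
    Complex.conj_conj]
  refine Finset.sum_congr rfl fun k _ => Finset.sum_congr rfl fun l _ => ?_
  rw [mul_comm, P272.K.C2.DM_DMb_comm (k := l) (MC.mono (h.sm z hz) two_le),
    ← P272.K.C2.DMb_conjTranspose (MC.md (m := ∞) (MC.DMb (m := ∞) (h.sm z hz) (by simp)) (by simp))]
  congr 1
  refine P272.K.C2.DMb_congr ((hU.eventually_mem hz).mono fun y hy => ?_)
  simp only [P272.K.C2.DMb_of_isHermitian (h.sm y hy).md (herm hU h hy),
    Matrix.conjTranspose_conjTranspose]

theorem Rt_her (X Y : Cm n) : (Rt W z X Y)ᴴ = Rt W z Y X := by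
  rw [Rt_eq' hU h hz, Rt_eq' hU h hz, Matrix.conjTranspose_add, Matrix.conjTranspose_neg,
    S2_her hU h hz, Matrix.conjTranspose_mul, Matrix.conjTranspose_mul,
    Matrix.conjTranspose_conjTranspose, (h.pos z hz).isHermitian.eq, Matrix.mul_assoc]

theorem Rt_sym (a b c : Cm n) : c ᵥ* Rt W z a b = a ᵥ* Rt W z c b := by
  have s : c ᵥ* S2 W z a b = a ᵥ* S2 W z c b := by
    ext j
    simp only [S2, Matrix.vecMul, dotProduct, Matrix.sum_apply, Matrix.smul_apply, smul_eq_mul,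
      Finset.mul_sum, P272.K.C2.DM_DMb_comm (MC.mono (h.sm z hz) two_le), P272.K.C2.DMb_apply,
      P272.K.C2.DM_apply]
    rw [Finset.sum_comm, eq_comm, Finset.sum_comm]
    refine Finset.sum_congr rfl fun l _ => ?_
    rw [Finset.sum_comm]
    refine Finset.sum_congr rfl fun i _ => Finset.sum_congr rfl fun k _ => ?_
    rw [P272.K.C2.dzb_congr l (g := dz k fun y => W y i j)
      ((hU.eventually_mem hz).mono fun y hy => h.cl y hy k j i)]
    ring
  rw [Rt_eq' hU h hz, Rt_eq' hU h hz, Matrix.vecMul_add, Matrix.vecMul_add, Matrix.vecMul_neg,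
    Matrix.vecMul_neg, s, Matrix.mul_assoc, Matrix.mul_assoc, ← Matrix.vecMul_vecMul,
    ← Matrix.vecMul_vecMul a, Gam_symm (h.cl z hz)]

theorem kt : KT (Rt W z) where
  add_l := Rt_add
  smul_l := Rt_smul
  her := Rt_her hU h hz
  sym a b c d := by
    rw [← Matrix.mul_one (Rt W z a b), ← Matrix.mul_one (Rt W z c b), hf_mul_left, hf_mul_left,
      Rt_sym hU h hz]
  pos a c := h.bk z hz a c

omit hU h hz in
theorem kt_pull {R : Cm n → Cm n → Mx n} (h : KT R) (P : Mx n) :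
    KT fun a b => P * R (a ᵥ* P) (b ᵥ* P) * Pᴴ where
  add_l a a' b := by rw [Matrix.add_vecMul, h.add_l, Matrix.mul_add, Matrix.add_mul]
  smul_l c a b := by rw [Matrix.smul_vecMul, h.smul_l, Matrix.mul_smul, Matrix.smul_mul]
  her a b := by
    rw [Matrix.conjTranspose_mul, Matrix.conjTranspose_mul, Matrix.conjTranspose_conjTranspose,
      h.her, Matrix.mul_assoc]
  sym a b c d := by rw [hf_pull, hf_pull, h.sym]
  pos a c := by rw [qf_pull]; exact h.pos _ _

variable {E : Type} [NormedAddCommGroup E] [NormedSpace ℝ E]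

omit hU hz in
theorem dM_Gam {k X : E → Cm n} {q : E} (hq : k q ∈ U) (hk : ContDiffAt ℝ ∞ k q)
    (hX : DifferentiableAt ℝ X q) (v : E) : dM (fun p => Gam W (k p) (X p)) q v =
      Gam W (k q) (fderiv ℝ X q v) + dM (fun y => Gam W y (X q)) (k q) (fderiv ℝ k q v) := by
  have s := fun l => (ms_DM (h.sm _ hq) l).mul ((h.sm _ hq).inv (ne h hq))
  have dk := hk.differentiableAt (by simp)
  simp only [Gam_eq]
  rw [dM_sum (F := fun l p => X p l • (DM l W (k p) * (W (k p))⁻¹)) _ fun l _ i j =>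
      (differentiableAt_pi.1 hX l).fun_mul (((s l).md.comp dk) i j),
    dM_sum _ fun l _ => ((s l).smul contDiffAt_const).md, ← Finset.sum_add_distrib]
  refine Finset.sum_congr rfl fun l _ => ?_
  rw [dM_smul (differentiableAt_pi.1 hX l) ((s l).md.comp dk), dM_comp (s l).md dk,
    dM_smul (differentiableAt_const _) (s l).md, fd_apply hX]
  simp

end Str2

open Str2

variable {n : ℕ} {M : Type} [MetricSpace M] [ChartedSpace (Cm n) M]
  [RiemannianBundle (fun x : M => TangentSpace 𝓘(ℝ, Cm n) x)]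

theorem km_hm (b : B1b n M)
    (hb : ∀ e : Chart n M, Hc e → ∀ z ∈ e.target, ∀ X a, 0 ≤ bk (hm e) z X a) {e : Chart n M}
    (he : Hc e) : KM e.target (hm e) :=
  ⟨b.wsm e he, b.wpos e he, b.wcl e he, hb e he⟩

theorem str2_of (a : B1a n M) (b : B1b n M)
    (hb : ∀ e : Chart n M, Hc e → ∀ z ∈ e.target, ∀ X a, 0 ≤ bk (hm e) z X a) : STR2 n M := by
  intro E _ _ U γ P h
  have key : ∀ q ∈ U, ∃ (O : Set (Cm n)) (W : Cm n → Mx n) (z : E → Cm n) (Q : E → Mx n),
      IsOpen O ∧ KM O W ∧ z q ∈ O ∧ ContDiffAt ℝ ∞ z q ∧ MS Q q ∧ (Q q).det ≠ 0 ∧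
      (∀ v w, cu γ P q v w = Q q * Rt W (z q) (v ᵥ* Q q) (w ᵥ* Q q) * (Q q)ᴴ) ∧
      (∀ v, ContDiffAt ℝ ∞ (fun p => th γ P p v) q ∧ MS (fun p => om γ P p v) q) ∧
      ∀ᶠ p in 𝓝 q, gr γ P p = Q p * W (z p) * (Q p)ᴴ ∧ ∀ v, th γ P p v ᵥ* Q p = fderiv ℝ z p v ∧
        om γ P p v * Q p = dM Q p v + Q p * Gam W (z p) (fderiv ℝ z p v) := fun q hq => by
    have he := a.chart (γ q)
    have hx := mem_chart_source (Cm n) (γ q)
    have hz := (pc n (γ q)).map_source hx
    obtain ⟨s1, s2⟩ := h.sm _ he q hq hx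
    have ev := (h.ev hq hx).mono fun p hp => (str1_of a b E U γ P h).1 _ he p hp.1 hp.2
    have d := ev.self_of_nhds.1
    have k := km_hm b hb he
    refine ⟨_, _, _, _, (pc n (γ q)).open_target, k, hz, s1, s2, d, fun v w => ?_,
      fun v => ⟨?_, ?_⟩, ev.mono fun p hp => hp.2⟩
    · rw [Str1.fr_self a]; rfl
    · refine ((s2.inv d).vecMul (cd_fderiv s1 (contDiffAt_const (c := v)))).congr_of_eventuallyEq
        (ev.mono fun p hp => ?_)
      simp only [← (hp.2.2 v).1, vecMul_inv _ hp.1]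
    · refine (((s2.dM v).add (s2.mul (MS.Gam (k.sm _ hz) (ne k hz) s1
        (cd_fderiv s1 (contDiffAt_const (c := v)))))).mul (s2.inv d)).congr (ev.mono fun p hp => ?_)
      simp only [← (hp.2.2 v).2, Matrix.mul_nonsing_inv_cancel_right _ _ hp.1.isUnit]
  refine ⟨h.op, fun q _ => ⟨fun v w => ?_, fun r v => ?_⟩, fun q _ => ⟨fun v w => ?_, fun r v => ?_⟩,
    fun q hq v => ?_, fun q hq v => ?_, fun q hq => ?_, fun q hq => ?_, fun q hq v w => ?_,
    fun q hq v w => ?_, fun q hq v => ?_, fun q hq => ?_⟩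
  · simp only [th, vel, map_add, Matrix.add_vecMul]
  · simp only [th, vel, map_smul, Matrix.smul_vecMul]
  · simp only [om, vel, map_add, dM_addv, Gam_add, Matrix.mul_add, Matrix.add_mul]
    abel
  · simp only [om, vel, map_smul, dM_smulv, Gam_rsmul, Matrix.mul_smul, Matrix.smul_mul,
      ← smul_add]
  all_goals obtain ⟨O, W, z, Q, hO, k, hz, s1, s2, d, hc, s3, ev⟩ := key q hq
  · exact (s3 v).1
  · exact (s3 v).2
  · exact ((s2.mul ((k.sm _ hz).comp s1)).mul s2.conjTranspose).congr (ev.mono fun p hp => hp.1)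
  · rw [ev.self_of_nhds.1]
    exact posDef_pull (k.pos _ hz) d
  · have e : ∀ v w, (fderiv ℝ (fun p => th γ P p w) q v + th γ P q w ᵥ* om γ P q v) ᵥ* Q q =
        fderiv ℝ (fun p => fderiv ℝ z p w) q v +
          fderiv ℝ z q w ᵥ* Gam W (z q) (fderiv ℝ z q v) := fun v w => by
      have e1 : (fun p => fderiv ℝ z p w) =ᶠ[𝓝 q] fun p => th γ P p w ᵥ* Q p :=
        ev.mono fun p hp => (hp.2 w).1.symm
      rw [e1.fderiv_eq, fd_vecMul s2.md ((s3 w).1.differentiableAt (by simp)), Matrix.add_vecMul,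
        Matrix.vecMul_vecMul, (ev.self_of_nhds.2 v).2, Matrix.vecMul_add, ← Matrix.vecMul_vecMul,
        (ev.self_of_nhds.2 w).1, add_assoc]
    rw [← vecMul_inv (_ + _) d, e, fd_symm (s1.of_le two_le), Gam_symm (k.cl _ hz), ← e,
      vecMul_inv _ d]
  · have g := fun v => MS.Gam (k.sm _ hz) (ne k hz) s1 (cd_fderiv s1 (contDiffAt_const (c := v)))
    have e0 := fun v => (ev.self_of_nhds.2 v).2
    have e : ∀ v w, dM (fun p => om γ P p w) q v * Q q = dM (fun p => dM Q p w) q v +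
        (dM Q q v * Gam W (z q) (fderiv ℝ z q w) + Q q * (Gam W (z q) (fderiv ℝ
          (fun p => fderiv ℝ z p w) q v) + dM (fun y => Gam W y (fderiv ℝ z q w)) (z q)
            (fderiv ℝ z q v))) - om γ P q w * dM Q q v := fun v w => by
      rw [← dM_Gam k hz s1 ((cd_fderiv s1 contDiffAt_const).differentiableAt (by simp)),
        ← dM_mul s2.md (g w).md, ← dM_add (s2.dM w).md (s2.mul (g w)).md, eq_sub_iff_add_eq,
        ← dM_mul (s3 w).2.md s2.md]
      exact dM_congr (ev.mono fun p hp => (hp.2 w).2) v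
    rw [hc, hc, (ev.self_of_nhds.2 v).1, (ev.self_of_nhds.2 w).1, ← Matrix.sub_mul,
      ← Matrix.mul_sub, ← curv hO k hz, ev.self_of_nhds.1, ← Matrix.mul_assoc, ← Matrix.mul_assoc,
      ← Matrix.mul_assoc]
    congr 2
    rw [Matrix.sub_mul, Matrix.add_mul, Matrix.sub_mul, e, e, Matrix.mul_assoc, Matrix.mul_assoc,
      e0, e0, dM_symm s2 v w, fd_symm (s1.of_le two_le) v w, Matrix.mul_add (om γ P q w),
      Matrix.mul_add (om γ P q v), ← Matrix.mul_assoc, ← Matrix.mul_assoc, e0, e0]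
    simp only [Matrix.mul_add, Matrix.add_mul, Matrix.mul_sub, Matrix.mul_assoc]
    abel
  · have w := ((k.sm _ hz).comp s1).md
    rw [dM_congr (ev.mono fun p hp => hp.1), dM_mul (s2.md.mul w) s2.md.conjTranspose,
      dM_mul s2.md w, dM_comp (k.sm _ hz).md (s1.differentiableAt (by simp)), met hO k hz,
      dM_conjTranspose, ev.self_of_nhds.1, ← Matrix.mul_assoc, ← Matrix.mul_assoc,
      Matrix.mul_assoc _ (Q q)ᴴ, ← Matrix.conjTranspose_mul, (ev.self_of_nhds.2 v).2]
    simp only [Matrix.mul_add, Matrix.add_mul, Matrix.mul_assoc, Matrix.conjTranspose_add,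
      Matrix.conjTranspose_mul]
    abel
  · rw [funext₂ hc]
    exact kt_pull (kt hO k hz) _

theorem str2 : AllM n fun M _ _ _ _ _ => STR2 n M :=
  fun _ _ _ _ _ _ _ _ _ _ _ _ _ h => str2_of h.all.a h.all.b h.all.bk

end Vale.Agent.P253W.X
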