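import Vale.Agent.P253W.X.Defs

/-!
# P253W, block X: the second variation of the length
-/

open scoped ContDiff Topology ComplexConjugate ComplexOrder Matrix
open Set Filter
open Vale.Agent.P272.K (Cm)
open Complex (I)

set_option linter.all false

noncomputable section

namespace Vale.Agent.P253W.X

namespace Sv

variable {n : ℕ} {A B H G : Mx n} {a a' b b' : Cm n}

theorem hf_eq (A : Mx n) (a b : Cm n) : hf A a b = ∑ i, a i * ∑ j, A i j * conj (b j) := rfl

theorem add_l : hf A (a + a') b = hf A a b + hf A a' b := add_dotProduct _ _ _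

theorem sub_l : hf A (a - a') b = hf A a b - hf A a' b := sub_dotProduct _ _ _

theorem add_r : hf A a (b + b') = hf A a b + hf A a b' := by
  simp only [hf, star_add, Matrix.mulVec_add, dotProduct_add]

theorem smul_l (c : ℂ) : hf A (c • a) b = c * hf A a b := smul_dotProduct _ _ _

theorem smul_r (c : ℂ) : hf A a (c • b) = conj c * hf A a b := by
  simp only [hf, star_smul, Matrix.mulVec_smul, dotProduct_smul, smul_eq_mul, RCLike.star_def]

theorem add_m : hf (A + B) a b = hf A a b + hf B a b := by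
  simp only [hf, Matrix.add_mulVec, dotProduct_add]

theorem sub_m : hf (A - B) a b = hf A a b - hf B a b := by
  simp only [hf, Matrix.sub_mulVec, dotProduct_sub]

theorem smul_m (c : ℂ) : hf (c • A) a b = c * hf A a b := by
  simp only [hf, Matrix.smul_mulVec, dotProduct_smul, smul_eq_mul]

theorem mul_l : hf (G * A) a b = hf A (a ᵥ* G) b := by
  simp only [hf, ← Matrix.mulVec_mulVec, Matrix.dotProduct_mulVec a G]

theorem mul_r : hf (A * Gᴴ) a b = hf A a (b ᵥ* G) := by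
  simp only [hf, ← Matrix.mulVec_mulVec, Matrix.star_vecMul]

theorem mul_r' : hf (G * A) a b = hf G a (star (A *ᵥ star b)) := by
  simp only [hf, ← Matrix.mulVec_mulVec, star_star]

theorem re_symm (h : H.IsHermitian) : (hf H a b).re = (hf H b a).re := by
  have : hf H a b = conj (hf H b a) := by
    conv_lhs => rw [← h.eq]
    simp only [hf_eq, Finset.mul_sum, map_sum, map_mul, Matrix.conjTranspose_apply,
      RCLike.star_def, Complex.conj_conj]
    rw [Finset.sum_comm]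
    exact Finset.sum_congr rfl fun i _ => Finset.sum_congr rfl fun j _ => by ring
  rw [this, Complex.conj_re]

theorem qf_nonneg (h : H.PosDef) (a : Cm n) : 0 ≤ qf H a := by
  have := h.posSemidef.dotProduct_mulVec_nonneg (star a)
  rw [star_star] at this
  exact (Complex.nonneg_iff.1 this).1

theorem nr_sq (h : H.PosDef) (a : Cm n) : nr H a * nr H a = qf H a :=
  Real.mul_self_sqrt (qf_nonneg h a)

theorem cs (h : H.PosDef) (a b : Cm n) : |(hf H a b).re| ≤ nr H a * nr H b := by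
  have h1 : ∀ t : ℝ, 0 ≤ qf H b * (t * t) + 2 * (hf H a b).re * t + qf H a := fun t => by
    have h2 : 0 ≤ (hf H (a + (t : ℂ) • b) (a + (t : ℂ) • b)).re := qf_nonneg h _
    simp only [add_l, add_r, smul_l, smul_r, Complex.conj_ofReal, Complex.add_re,
      Complex.re_ofReal_mul, re_symm h.1 (a := b) (b := a)] at h2
    change 0 ≤ (hf H b b).re * (t * t) + 2 * (hf H a b).re * t + (hf H a a).re
    linarith
  have h2 := discrim_le_zero h1
  rw [nr, nr, ← Real.sqrt_mul (qf_nonneg h a)]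
  refine Real.abs_le_sqrt ?_
  unfold discrim at h2
  linarith

theorem nr_I (H : Mx n) (a : Cm n) : nr H (I • a) = nr H a := by
  have : hf H (I • a) (I • a) = hf H a a := by
    rw [smul_l, smul_r, ← mul_assoc, Complex.conj_I]
    simp
  exact congrArg (fun z : ℂ => √z.re) this

theorem hd_hf {A : ℝ → Mx n} {a b : ℝ → Cm n} {A' : Mx n} {t : ℝ}
    (hA : ∀ i j, HasDerivAt (fun t => A t i j) (A' i j) t) (ha : HasDerivAt a a' t)
    (hb : HasDerivAt b b' t) : HasDerivAt (fun t => hf (A t) (a t) (b t))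
      (hf (A t) a' (b t) + hf A' (a t) (b t) + hf (A t) (a t) b') t := by
  rw [hasDerivAt_pi] at ha hb
  simp only [hf_eq]
  refine (HasDerivAt.fun_sum fun i _ => (ha i).fun_mul
    (HasDerivAt.fun_sum fun j _ => (hA i j).fun_mul (hb j).star)).congr_deriv ?_
  simp only [Finset.sum_add_distrib, mul_add, RCLike.star_def, add_assoc]

theorem ln {E F : Type} [NormedAddCommGroup E] [NormedSpace ℝ E] [NormedAddCommGroup F]
    [NormedSpace ℝ F] {f : E → F} {q : E} (h : ContDiffAt ℝ ∞ f q) (w : E) :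
    HasDerivAt (fun t : ℝ => f (q + t • w)) (fderiv ℝ f q w) 0 :=
  (h.differentiableAt (by simp)).hasFDerivAt.hasLineDerivAt w

theorem ln' {F : Type} [NormedAddCommGroup F] [NormedSpace ℝ F] {f : ℂ × ℝ → F} {p : ℂ} {s : ℝ}
    (h : ContDiffAt ℝ ∞ f (p, s)) (v : ℂ) :
    HasDerivAt (fun t : ℝ => f (p + t • v, s)) (fderiv ℝ f (p, s) (v, 0)) 0 := by
  simpa only [Prod.smul_mk, Prod.mk_add_mk, smul_zero, add_zero] using ln h (v, 0)

theorem expand {R : Cm n → Cm n → Mx n} (k : KT R) (σ : ℂ) (c X y : Cm n) :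
    hf (R y (σ • c + X) - R (σ • c + X) y) y (σ • c) =
      conj σ * conj σ * hf (R y c) y c - σ * conj σ * hf (R y y) c c +
        conj σ * (hf (R y X) y c - hf (R X y) y c) := by
  rw [← k.her (σ • c + X) y, k.add_l, k.smul_l, Matrix.conjTranspose_add,
    Matrix.conjTranspose_smul, k.her, k.her, smul_r, sub_m, add_m, add_m, smul_m, smul_m,
    k.sym c y y c, RCLike.star_def]
  ring

variable {O : Set ℂ} {y : ℂ → Cm n} {θ : ℂ × ℝ → ℂ × ℝ → Cm n} {Γ : ℂ × ℝ → ℂ × ℝ → Mx n}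
  {H : ℂ × ℝ → Mx n} {R : ℂ × ℝ → Cm n → Cm n → Mx n} {p : ℂ}

variable (θ Γ p) in
/-- the covariant derivative of the variation field -/
def cv (s : ℝ) (v w : ℂ) : Cm n :=
  fderiv ℝ (fun q => θ q (w, 0)) (p, s) (v, 0) + θ (p, s) (w, 0) ᵥ* Γ (p, s) (v, 0)

theorem near (g : Geo O y θ Γ H R) (hp : p ∈ O) (v : ℂ) : ∀ᶠ t : ℝ in 𝓝 0, p + t • v ∈ O :=
  (show ContinuousAt (fun t : ℝ => p + t • v) 0 by fun_prop).eventually
    (g.op.mem_nhds (by simpa using hp))

theorem key1 (g : Geo O y θ Γ H R) (hp : p ∈ O) (hH : ∀ p ∈ O, ∀ s, H (p, s) = H (p, 0)) (s : ℝ)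
    (v : ℂ) : HasDerivAt (fun t : ℝ =>
      hf (H (p + t • v, 0)) (θ (p + t • v, s) (v, 0)) (y (p + t • v)))
      (hf (H (p, 0)) (cv θ Γ p s v v) (y p) + hf (H (p, 0)) (θ (p, s) (v, 0))
        (fderiv ℝ y p v + y p ᵥ* Γ (p, s) (v, 0))) 0 := by
  have hq : (p, s) ∈ O ×ˢ (univ : Set ℝ) := ⟨hp, trivial⟩
  have h1 := hd_hf (A := fun t : ℝ => H (p + t • v, s)) (A' := dM H (p, s) (v, 0))
    (fun i j => ln' (g.car.H_sm _ hq i j) v) (ln' (g.car.θ_sm _ hq (v, 0)) v) (ln (g.y_sm p hp) v)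
  refine (h1.congr_of_eventuallyEq ((near g hp v).mono fun t ht => by
    simp only [hH _ ht s])).congr_deriv ?_
  simp only [zero_smul, add_zero]
  rw [g.car.met _ hq, hH p hp s, add_m, mul_l, mul_r, cv, add_l, add_r]
  ring

theorem cv_I (g : Geo O y θ Γ H R) (hp : p ∈ O) {s : ℝ}
    (h : ∀ᶠ p' in 𝓝 p, θ (p', s) (I, 0) = I • θ (p', s) (1, 0)) :
    cv θ Γ p s I I = -cv θ Γ p s 1 1 := by
  have hq : (p, s) ∈ O ×ˢ (univ : Set ℝ) := ⟨hp, trivial⟩
  have h1 : ∀ v, cv θ Γ p s v I = I • cv θ Γ p s v 1 := fun v => by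
    have h2 : ∀ᶠ t : ℝ in 𝓝 0, θ (p + t • v, s) (I, 0) = I • θ (p + t • v, s) (1, 0) :=
      (show ContinuousAt (fun t : ℝ => p + t • v) 0 by fun_prop).eventually (by simpa using h)
    have h3 := (ln' (g.car.θ_sm _ hq (I, 0)) v).unique
      (((ln' (g.car.θ_sm _ hq (1, 0)) v).const_smul I).congr_of_eventuallyEq h2)
    rw [cv, cv, h3, h.self_of_nhds, Matrix.smul_vecMul, smul_add]
  have h2 : cv θ Γ p s I 1 = cv θ Γ p s 1 I := g.car.tor _ hq (I, 0) (1, 0)
  rw [h1, h2, h1, smul_smul, Complex.I_mul_I, neg_one_smul]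

theorem sm_D (g : Geo O y θ Γ H R) (hp : p ∈ O) : ContDiffAt ℝ ∞ (gD H y) p := by
  have hy := contDiffAt_pi.1 (g.y_sm p hp)
  have h1 : ContDiffAt ℝ ∞ (fun p => hf (H (p, 0)) (y p) (y p)) p := by
    simp only [hf_eq]
    exact ContDiffAt.sum fun i _ => (hy i).mul (ContDiffAt.sum fun j _ =>
      (ContDiffAt.comp p (f := fun x : ℂ => (x, (0 : ℝ))) (g.car.H_sm (p, 0) ⟨hp, trivial⟩ i j)
        (contDiffAt_id.prodMk contDiffAt_const)).mul
        (Complex.conjCLE.contDiff.contDiffAt.comp p (hy j)))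
  exact Complex.reCLM.contDiff.contDiffAt.comp p h1

theorem second (g : Geo O y θ Γ H R) (hp : p ∈ O) (hH : ∀ p ∈ O, ∀ s, H (p, s) = H (p, 0))
    (hD : ∀ p ∈ O, ∀ v, fderiv ℝ (gD H y) p v =
      2 * (hf (H (p, 0)) (θ (p, 1) (v, 0) - θ (p, 0) (v, 0)) (y p)).re) {v : ℂ} {b W : Cm n}
    (h0 : θ (p, 0) (v, 0) = b) (h1 : W = θ (p, 1) (v, 0) - b) :
    fderiv ℝ (fderiv ℝ (gD H y)) p v v = 2 * ((hf (H (p, 0)) (cv θ Γ p 1 v v) (y p)).re -
      (hf (H (p, 0)) (cv θ Γ p 0 v v) (y p)).re + qf (H (p, 0)) W +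
      (hf (H (p, 0)) W (fderiv ℝ y p v + y p ᵥ* Γ (p, 1) (v, 0) - W)).re +
      ((hf (Γ (p, 1) (v, 0) * H (p, 0)) (y p) b).re -
        (hf (Γ (p, 0) (v, 0) * H (p, 0)) (y p) b).re)) := by
  have a1 := (ln ((sm_D g hp).fderiv_right (m := ∞) (by simp)) v).clm_apply (hasDerivAt_const _ v)
  have a2 := (Complex.reCLM.hasFDerivAt.comp_hasDerivAt _
    ((key1 g hp hH 1 v).fun_sub (key1 g hp hH 0 v))).const_mul 2
  have a3 := a1.unique (a2.congr_of_eventuallyEq ((near g hp v).mono fun t ht => by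
    simp only [hD _ ht v, sub_l]; rfl))
  have hh := (g.car.H_pos (p, 0) ⟨hp, trivial⟩).1
  have e1 : θ (p, 1) (v, 0) = W + b := by rw [h1, sub_add_cancel]
  have e2 : hf (H (p, 0)) W (fderiv ℝ y p v + y p ᵥ* Γ (p, 1) (v, 0)) = hf (H (p, 0)) W W +
      hf (H (p, 0)) W (fderiv ℝ y p v + y p ᵥ* Γ (p, 1) (v, 0) - W) := by
    rw [← add_r, add_sub_cancel]
  rw [map_zero, add_zero, h0, e1, add_l, e2, add_r (a := b), add_r (a := b)] at a3
  rw [a3, mul_l, mul_l, re_symm hh (b := b), re_symm hh (b := b)]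
  simp only [Complex.reCLM_apply, Complex.add_re, Complex.sub_re]
  change _ = 2 * (_ - _ + (hf (H (p, 0)) W W).re + _ + _)
  ring

theorem curv (g : Geo O y θ Γ H R) (hp : p ∈ O) (hH : ∀ p ∈ O, ∀ s, H (p, s) = H (p, 0)) (v : ℂ)
    (b : Cm n) (s : ℝ) : HasDerivAt (fun s => (hf (Γ (p, s) (v, 0) * H (p, 0)) (y p) b).re)
      (hf (R (p, s) (y p) (θ (p, s) (v, 0)) - R (p, s) (θ (p, s) (v, 0)) (y p)) (y p) b).re s := by
  have hq : (p, s) ∈ O ×ˢ (univ : Set ℝ) := ⟨hp, trivial⟩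
  have h1 := g.car.cur _ hq (0, 1) (v, 0)
  have h2 : dM (fun q => Γ q (0, 1)) (p, s) (v, 0) = 0 := by
    ext i j
    have : (fun q => Γ q (0, 1) i j) =ᶠ[𝓝 (p, s)] fun _ => 0 :=
      mem_of_superset (g.car.op.mem_nhds hq) fun q hq => by
        simp only [mem_setOf, show Γ q (0, 1) = 0 from g.Γs q.1 hq.1 q.2, Matrix.zero_apply]
    simp [dM, this.fderiv_eq]
  rw [h2, g.Γs p hp, g.θs p hp, hH p hp s, mul_zero, zero_mul, sub_zero, add_zero, sub_zero] at h1
  have h3 := hd_hf (A := fun s => Γ (p, s) (v, 0)) (A' := dM (fun q => Γ q (v, 0)) (p, s) (0, 1))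
    (fun i j => ((g.car.Γ_sm _ hq (v, 0) i j).differentiableAt (by simp)).hasFDerivAt.comp_hasDerivAt
      s ((hasDerivAt_const s p).prodMk (hasDerivAt_id s))) (hasDerivAt_const s (y p))
    (hasDerivAt_const s (star (H (p, 0) *ᵥ star b)))
  rw [← h1]
  simp only [mul_r']
  refine (Complex.reCLM.hasFDerivAt.comp_hasDerivAt s h3).congr_deriv ?_
  simp [hf]

end Sv

open Sv in
/-- **SV** -/
theorem sv {n : ℕ} (h1 : CUR n) (h2 : JE n) : SV n := by
  obtain ⟨C, δ, hC, hδ, J⟩ := h2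
  refine ⟨90 * C, min δ 1, by linarith, by positivity,
    fun O y θ Γ H R g p hp hol c K m cb hK σ W w0 w1 => ?_⟩
  have hH := fun p hp => (J ℂ O y θ Γ H R g p hp).1
  have hD := fun p hp => (J ℂ O y θ Γ H R g p hp).2.1
  have hE := (J ℂ O y θ Γ H R g p hp).2.2.2 c K m cb (hK.trans (min_le_left _ _))
  have hP := g.car.H_pos (p, 0) ⟨hp, trivial⟩
  obtain ⟨K0, m0, cb⟩ := cb
  have v0 : θ (p, 0) (I, 0) = (I * σ) • c := by rw [hol.self_of_nhds.1, w0, smul_smul]
  have v1 : I • W = θ (p, 1) (I, 0) - (I * σ) • c := by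
    rw [hol.self_of_nhds.2, w1, smul_sub, smul_smul]
  obtain ⟨e, he⟩ : ∃ e, e = √(K * m) * ‖σ‖ + K * nr (H (p, 0)) W := ⟨_, rfl⟩
  have E1 := hE 1 σ W e w0 w1 he
  have E2 := hE I (I * σ) (I • W) e v0 v1 (by rw [nr_I, norm_mul, Complex.norm_I, one_mul, he])
  rw [nr_I] at E2
  have D0 : 0 ≤ gD H y p := qf_nonneg hP _
  have K1 : K * gD H y p ≤ 1 := hK.trans (min_le_right _ _)
  have yy : nr (H (p, 0)) (y p) * nr (H (p, 0)) (y p) = gD H y p := nr_sq hP _
  have ww := nr_sq hP W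
  have wI := nr_sq hP (I • W)
  have w2 : 0 ≤ nr (H (p, 0)) W := Real.sqrt_nonneg _
  rw [nr_I, ww] at wI
  generalize gD H y p = D at *
  obtain ⟨u, hu⟩ : ∃ u, u = √(K * m) * ‖σ‖ := ⟨_, rfl⟩
  obtain ⟨P, hQ⟩ : ∃ P, P = K * qf (H (p, 0)) W + m * ‖σ‖ ^ 2 := ⟨_, rfl⟩
  rw [← hu] at he
  have u0 : 0 ≤ u := by rw [hu]; positivity
  have u2 : u ^ 2 = K * (m * ‖σ‖ ^ 2) := by
    rw [hu, mul_pow, Real.sq_sqrt (by positivity), mul_assoc]
  have p1 : 0 ≤ K * qf (H (p, 0)) W := mul_nonneg K0 (qf_nonneg hP W)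
  have p2 : 0 ≤ m * ‖σ‖ ^ 2 := by positivity
  have uw : u * nr (H (p, 0)) W ≤ P / 2 := by
    refine abs_le_of_sq_le_sq' ?_ (by linarith) |>.2
    rw [mul_pow, u2, sq (nr _ _), ww, hQ]
    linarith only [sq_nonneg (K * qf (H (p, 0)) W - m * ‖σ‖ ^ 2)]
  have ew : e * nr (H (p, 0)) W ≤ 3 / 2 * P := by
    rw [he, add_mul, mul_assoc K, ww]; linarith
  have eu : D * e * u ≤ 3 / 2 * P := by
    have : D * e * u = K * D * (m * ‖σ‖ ^ 2 + u * nr (H (p, 0)) W) := by
      rw [he]; linear_combination D * u2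
    rw [this]
    refine (mul_le_of_le_one_left (by positivity) K1).trans (by linarith)
  have rest : ∀ s ∈ Icc (0 : ℝ) 1, ∀ (τ : ℂ) (X : Cm n), ‖τ‖ = ‖σ‖ →
      nr (H (p, 0)) X ≤ 2 * nr (H (p, 0)) W + C * D * e →
      |(conj τ * (hf (R (p, s) (y p) X) (y p) c - hf (R (p, s) X (y p)) (y p) c)).re| ≤
        D * P * (8 + 12 * C) := fun s hs τ X hτ hX => by
    have k := h1 _ _ K m c hP (g.car.kt (p, s) ⟨hp, trivial⟩) K0 m0 (fun a => (cb s hs a).1)
      fun a => (cb s hs a).2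
    have b1 := (k (y p) X (y p)).2.2.2.2
    have b2 := (k X (y p) (y p)).2.2.2.2
    refine (Complex.abs_re_le_norm _).trans ?_
    rw [norm_mul, RCLike.norm_conj, hτ]
    refine (mul_le_mul_of_nonneg_left ((norm_sub_le _ _).trans (add_le_add b1 b2))
      (norm_nonneg _)).trans ?_
    have e1 : ‖σ‖ * (4 * √(K * m) * nr (H (p, 0)) (y p) * nr (H (p, 0)) X * nr (H (p, 0)) (y p) +
        4 * √(K * m) * nr (H (p, 0)) X * nr (H (p, 0)) (y p) * nr (H (p, 0)) (y p)) =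
        8 * D * u * nr (H (p, 0)) X := by rw [hu, ← yy]; ring
    rw [e1]
    refine (mul_le_mul_of_nonneg_left hX (by positivity)).trans ?_
    linarith only [mul_le_mul_of_nonneg_left uw D0,
      mul_le_mul_of_nonneg_left eu (show 0 ≤ D * C by positivity)]
  have mv := norm_image_sub_le_of_norm_deriv_le_segment_01' (C := D * P * (18 + 24 * C))
    (fun s _ => ((curv g hp hH 1 (σ • c) s).fun_add
      (curv g hp hH I ((I * σ) • c) s)).hasDerivWithinAt) fun s hs => by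
    have hs := Ico_subset_Icc_self hs
    have k := g.car.kt (p, s) ⟨hp, trivial⟩
    have r1 := abs_le.1 (rest s hs σ _ rfl (E1 s hs).2.1)
    have r2 := abs_le.1 (rest s hs (I * σ) _ (by simp) (E2 s hs).2.1)
    have x1 := expand k σ c (θ (p, s) (1, 0) - σ • c) (y p)
    have x2 := expand k (I * σ) c (θ (p, s) (I, 0) - (I * σ) • c) (y p)
    rw [add_sub_cancel] at x1 x2
    have z : conj σ * conj σ * hf (R (p, s) (y p) c) (y p) c -
        σ * conj σ * hf (R (p, s) (y p) (y p)) c c +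
        (conj (I * σ) * conj (I * σ) * hf (R (p, s) (y p) c) (y p) c -
        I * σ * conj (I * σ) * hf (R (p, s) (y p) (y p)) c c) =
        ((-2 * ‖σ‖ ^ 2 : ℝ) : ℂ) * hf (R (p, s) (y p) (y p)) c c := by
      have := Complex.mul_conj' σ
      simp only [map_mul, Complex.conj_I]
      push_cast
      linear_combination (conj σ * conj σ * hf (R (p, s) (y p) c) (y p) c +
        σ * conj σ * hf (R (p, s) (y p) (y p)) c c) * Complex.I_mul_I -
        2 * hf (R (p, s) (y p) (y p)) c c * this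
    have z1 := congrArg Complex.re z
    rw [Complex.add_re, Complex.re_ofReal_mul] at z1
    have q0 : 0 ≤ (hf (R (p, s) (y p) (y p)) c c).re := k.pos _ _
    have q1 : (hf (R (p, s) (y p) (y p)) c c).re ≤ m * D := by
      rw [← yy, nr_sq hP]; exact (cb s hs _).2
    have q2 := mul_le_mul_of_nonneg_left q1 (sq_nonneg ‖σ‖)
    have q3 := mul_nonneg (sq_nonneg ‖σ‖) q0
    have q4 : ‖σ‖ ^ 2 * (m * D) ≤ D * P := by rw [hQ]; linarith only [mul_nonneg D0 p1]
    have q5 := mul_nonneg D0 (show 0 ≤ P by linarith)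
    rw [x1, x2, Complex.add_re, Complex.add_re, Real.norm_eq_abs, abs_le]
    constructor <;> linarith only [r1.1, r1.2, r2.1, r2.2, z1, q2, q3, q4, q5]
  have c1 := (cs hP W _).trans (mul_le_mul_of_nonneg_left (E1 1 ⟨zero_le_one, le_rfl⟩).1 w2)
  have c2 := (cs hP (I • W) _).trans (mul_le_mul (nr_I _ W).le (E2 1 ⟨zero_le_one, le_rfl⟩).1
    (Real.sqrt_nonneg _) w2)
  have c3 := mul_le_mul_of_nonneg_left ew (show 0 ≤ C * D by positivity)
  have c4 : D * P ≤ C * D * P := by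
    rw [mul_assoc]; exact le_mul_of_one_le_left (mul_nonneg D0 (by linarith)) hC
  rw [lv2, smul_eq_mul, mul_one, second g hp hH hD w0 w1, second g hp hH hD v0 v1,
    cv_I g hp (hol.mono fun _ h => h.1), cv_I g hp (hol.mono fun _ h => h.2), ← wI, ← hQ,
    ← neg_one_smul ℂ, ← neg_one_smul ℂ (Sv.cv θ Γ p 0 1 1), smul_l, smul_l, neg_one_mul, neg_one_mul,
    Complex.neg_re, Complex.neg_re]
  rw [Real.norm_eq_abs, abs_le] at mv
  rw [abs_le] at c1 c2 ⊢
  constructor <;> linarith only [mv.1, mv.2, c1.1, c1.2, c2.1, c2.2, c3, c4]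

end Vale.Agent.P253W.X
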