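import Vale.Agent.P253W.X.G1
import Vale.Agent.P253W.X.Dev1
import Vale.Agent.P253W.X.Str1
import Vale.Agent.P253W.X.Str2
import Vale.Agent.P253W.X.Fib
import Vale.Agent.P253W.X.Sv
import Vale.Agent.P253W.X.Je
import Vale.Agent.P253W.X.Cur
import Vale.Agent.P253W.X.Lina
import Vale.Agent.P253W.X.Cal2
import Vale.Agent.P253W.X.Imm
import Vale.Agent.P253W.X.Area
import Vale.Agent.P253W.X.Mult
import Vale.Agent.P253W.X.Psh
import Vale.Agent.P253W.X.Fw
import Vale.Agent.P253W.X.Bern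
import Vale.Agent.P253W.X.Van
import Vale.Agent.P253W.X.Hors
import Vale.Agent.P253W.X.G1b
import Vale.Agent.P253W.X.Sec

/-!
# P253W, block X: the rows without hypotheses
-/

open scoped Manifold ContDiff Bundle
open Bundle MeasureTheory
open Vale.Agent.P272.K (Cm)

namespace Vale.Agent.P253W.X

variable (n : ℕ)

theorem c1' : ∀ T Θ, ∀ A : At (V := Cm n) T Θ, A.Cal1 := fun _ _ A => cal1 A

theorem c2' : ∀ T Θ, ∀ A : At (V := Cm n) T Θ, A.Cal2 := fun _ _ A => cal2 A (cal1 A)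

theorem dev' : AllM n fun M _ _ _ _ _ => DEV n M := dev str1 (dev1 str1 str2)

theorem fib' : FIB n :=
  fib str1 str2 (je (cur n)) (sv (cur n) (je (cur n))) (lina n) (mkat _) (c1' n) (c2' n)

theorem area' : AllM n fun _ _ _ _ _ μ => AREA n μ := area (imm n)

theorem mult' : MULT n := mult (imm n) (area' n) (lift n) (lina n)

theorem bern' : BERN n := bern (c1' n) (c2' n) (psh n) (fw n)

variable {n}

theorem g1b' (hn : 1 ≤ n) (H : HORD (volume : Measure (Cm n))) : G1B n :=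
  g1b hn (c1' n) (c2' n) (hors n H) (van n) (bern' n) (fw n) (lina n) (jac n)

variable {M : Type} [MetricSpace M] [ChartedSpace (Cm n) M] [IsManifold 𝓘(ℂ, Cm n) 1 M]
  [RiemannianBundle fun x : M => TangentSpace 𝓘(ℝ, Cm n) x] [MeasurableSpace M] [BorelSpace M]
  [IsManifold 𝓘(ℝ, Cm n) ∞ M] [ConnectedSpace M] [NoncompactSpace M] {μ : Measure M}

/-- `G1` from the coordinates on fibres -/
theorem g1_pre (h : 1 ≤ n → G1F n) : Of2 n μ fun F A _ => F.G1 μ A.d := fun _ _ _ p =>
  g1_of (dev' n) (fib' n) (h p.c.npos) (cht n) (mult' n) p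

end Vale.Agent.P253W.X
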